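import Mathlib

/-! Part A: finite product probability on subsets of a finite universe `U` of edges. -/

namespace Vale.Agent.P151

open Finset

noncomputable section

/-- real-valued indicator of a proposition -/
def ind (A : Prop) : ℝ := by classical exact if A then 1 else 0

lemma ind_pos {A : Prop} (h : A) : ind A = 1 := by simp [ind, h]
lemma ind_neg {A : Prop} (h : ¬ A) : ind A = 0 := by simp [ind, h]
@[simp] lemma ind_true : ind True = 1 := ind_pos trivial
@[simp] lemma ind_false : ind False = 0 := ind_neg id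
lemma ind_nonneg (A : Prop) : 0 ≤ ind A := by by_cases h : A <;> simp [ind, h]
lemma ind_le_one (A : Prop) : ind A ≤ 1 := by by_cases h : A <;> simp [ind, h]
lemma ind_mono {A B : Prop} (h : A → B) : ind A ≤ ind B := by
  by_cases hA : A
  · simp [ind, hA, h hA]
  · simp only [ind_neg hA, ind_nonneg]
lemma ind_congr {A B : Prop} (h : A ↔ B) : ind A = ind B := by rw [propext h]
lemma ind_and (A B : Prop) : ind (A ∧ B) = ind A * ind B := by
  by_cases hA : A <;> by_cases hB : B <;> simp [ind, hA, hB]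
lemma ind_not (A : Prop) : ind (¬ A) = 1 - ind A := by
  by_cases hA : A <;> simp [ind, hA]
lemma ind_or_le (A B : Prop) : ind (A ∨ B) ≤ ind A + ind B := by
  by_cases hA : A <;> by_cases hB : B <;> simp [ind, hA, hB]
lemma ind_exists_le {ι : Type*} (s : Finset ι) (A : ι → Prop) :
    ind (∃ i ∈ s, A i) ≤ ∑ i ∈ s, ind (A i) := by
  by_cases h : ∃ i ∈ s, A i
  · obtain ⟨i, hi, hA⟩ := h
    calc ind (∃ i ∈ s, A i) ≤ 1 := ind_le_one _
      _ = ind (A i) := (ind_pos hA).symm
      _ ≤ _ := single_le_sum (f := fun i => ind (A i)) (fun j _ => ind_nonneg _) hi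
  · rw [ind_neg h]; exact sum_nonneg fun j _ => ind_nonneg _
lemma ind_forall {ι : Type*} (s : Finset ι) (A : ι → Prop) :
    ind (∀ i ∈ s, A i) = ∏ i ∈ s, ind (A i) := by
  by_cases h : ∀ i ∈ s, A i
  · rw [ind_pos h, prod_congr rfl fun i hi => ind_pos (h i hi)]; simp
  · rw [ind_neg h]; push Not at h; obtain ⟨i, hi, hA⟩ := h
    exact (prod_eq_zero hi (ind_neg hA)).symm

variable {ε : Type*} [DecidableEq ε]

/-- product weight of the configuration `ω` in the universe `U` -/
def wt (U : Finset ε) (w : ε → ℝ) (ω : Finset ε) : ℝ := ∏ e ∈ U, if e ∈ ω then w e else 1 - w e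

/-- expectation under the product measure: each `e ∈ U` is present with probability `w e` -/
def Ex (U : Finset ε) (w : ε → ℝ) (f : Finset ε → ℝ) : ℝ := ∑ ω ∈ U.powerset, wt U w ω * f ω

/-- probability of an event -/
def Pr (U : Finset ε) (w : ε → ℝ) (A : Finset ε → Prop) : ℝ := Ex U w fun ω => ind (A ω)

/-- all weights are probabilities -/
def Valid (w : ε → ℝ) : Prop := ∀ e, 0 ≤ w e ∧ w e ≤ 1

/-- weights after revealing the configuration `ξ` on the set `S` -/
def cond (w : ε → ℝ) (S ξ : Finset ε) : ε → ℝ :=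
  fun e => if e ∈ S then (if e ∈ ξ then 1 else 0) else w e

/-- weights after deleting all edges outside `D` -/
def restr (w : ε → ℝ) (D : Finset ε) : ε → ℝ := fun e => if e ∈ D then w e else 0

variable {U : Finset ε} {w : ε → ℝ}

omit [DecidableEq ε] in
lemma valid_const {p : ℝ} (h0 : 0 ≤ p) (h1 : p ≤ 1) : Valid (fun _ : ε => p) := fun _ => ⟨h0, h1⟩

lemma Valid.cond (hw : Valid w) (S ξ : Finset ε) : Valid (cond w S ξ) := fun e => by
  unfold P151.cond; split_ifs <;> simp [hw e]

lemma Valid.restr (hw : Valid w) (D : Finset ε) : Valid (restr w D) := fun e => by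
  unfold P151.restr; split_ifs <;> simp [hw e]

lemma wt_nonneg (hw : Valid w) (U ω : Finset ε) : 0 ≤ wt U w ω :=
  prod_nonneg fun e _ => by split_ifs <;> linarith [hw e]

lemma Ex_congr {f g : Finset ε → ℝ} (h : ∀ ω ⊆ U, f ω = g ω) : Ex U w f = Ex U w g :=
  sum_congr rfl fun ω hω => by rw [h ω (mem_powerset.1 hω)]

lemma Ex_mono (hw : Valid w) {f g : Finset ε → ℝ} (h : ∀ ω ⊆ U, f ω ≤ g ω) :
    Ex U w f ≤ Ex U w g :=
  sum_le_sum fun ω hω => mul_le_mul_of_nonneg_left (h ω (mem_powerset.1 hω)) (wt_nonneg hw _ _)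

/-- almost-sure version: only configurations of non-zero weight matter -/
lemma Ex_mono_ae (hw : Valid w) {f g : Finset ε → ℝ}
    (h : ∀ ω ⊆ U, wt U w ω ≠ 0 → f ω ≤ g ω) : Ex U w f ≤ Ex U w g :=
  sum_le_sum fun ω hω => by
    by_cases h0 : wt U w ω = 0
    · simp [h0]
    · exact mul_le_mul_of_nonneg_left (h ω (mem_powerset.1 hω) h0) (wt_nonneg hw _ _)

lemma mem_of_wt_ne_zero {ω : Finset ε} (h : wt U w ω ≠ 0) {e : ε} (he : e ∈ U) (h1 : w e = 1) :
    e ∈ ω := by
  by_contra hn
  exact h (prod_eq_zero he (by simp [hn, h1]))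

lemma notMem_of_wt_ne_zero {ω : Finset ε} (h : wt U w ω ≠ 0) {e : ε} (he : e ∈ U)
    (h1 : w e = 0) : e ∉ ω := by
  intro hn
  exact h (prod_eq_zero he (by simp [hn, h1]))

lemma Ex_nonneg (hw : Valid w) {f : Finset ε → ℝ} (h : ∀ ω ⊆ U, 0 ≤ f ω) : 0 ≤ Ex U w f :=
  sum_nonneg fun ω hω => mul_nonneg (wt_nonneg hw _ _) (h ω (mem_powerset.1 hω))

lemma Ex_add (f g : Finset ε → ℝ) : Ex U w (fun ω => f ω + g ω) = Ex U w f + Ex U w g := by
  simp [Ex, mul_add, sum_add_distrib]

lemma Ex_sub (f g : Finset ε → ℝ) : Ex U w (fun ω => f ω - g ω) = Ex U w f - Ex U w g := by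
  simp [Ex, mul_sub, sum_sub_distrib]

lemma Ex_neg (f : Finset ε → ℝ) : Ex U w (fun ω => - f ω) = - Ex U w f := by
  simp [Ex]

lemma Ex_const_mul (c : ℝ) (f : Finset ε → ℝ) : Ex U w (fun ω => c * f ω) = c * Ex U w f := by
  simp [Ex, mul_sum, mul_left_comm]

lemma Ex_mul_const (c : ℝ) (f : Finset ε → ℝ) : Ex U w (fun ω => f ω * c) = Ex U w f * c := by
  simp [Ex, sum_mul, mul_assoc]

lemma Ex_sum {ι : Type*} (s : Finset ι) (f : ι → Finset ε → ℝ) :
    Ex U w (fun ω => ∑ i ∈ s, f i ω) = ∑ i ∈ s, Ex U w (f i) := by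
  simp only [Ex, mul_sum]; exact sum_comm

@[simp] lemma Ex_empty (f : Finset ε → ℝ) : Ex ∅ w f = f ∅ := by simp [Ex, wt]

lemma Ex_insert {e : ε} (he : e ∉ U) (f : Finset ε → ℝ) :
    Ex (insert e U) w f = w e * Ex U w (fun ω => f (insert e ω)) + (1 - w e) * Ex U w f := by
  unfold Ex
  rw [sum_powerset_insert he, add_comm, mul_sum, mul_sum]
  congr 1
  · refine sum_congr rfl fun ω hω => ?_
    have hω' := mem_powerset.1 hω
    have : wt (insert e U) w (insert e ω) = w e * wt U w ω := by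
      unfold wt
      rw [prod_insert he, if_pos (mem_insert_self _ _)]
      congr 1
      refine prod_congr rfl fun x hx => ?_
      have : x ≠ e := fun h => he (h ▸ hx)
      simp [this]
    rw [this]; ring
  · refine sum_congr rfl fun ω hω => ?_
    have hω' := mem_powerset.1 hω
    have : wt (insert e U) w ω = (1 - w e) * wt U w ω := by
      unfold wt
      rw [prod_insert he, if_neg fun h => he (hω' h)]
    rw [this]; ring

@[simp] lemma Ex_const (c : ℝ) : Ex U w (fun _ => c) = c := by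
  induction U using Finset.induction_on with
  | empty => simp
  | insert e U he ih => rw [Ex_insert he, ih]; ring

lemma Ex_congr_w {w' : ε → ℝ} (h : ∀ e ∈ U, w e = w' e) (f : Finset ε → ℝ) :
    Ex U w f = Ex U w' f :=
  sum_congr rfl fun ω _ => by
    congr 1
    exact prod_congr rfl fun e he => by rw [h e he]

/-- Fubini -/
lemma Ex_comm {ε' : Type*} [DecidableEq ε'] (U' : Finset ε') (w' : ε' → ℝ)
    (F : Finset ε → Finset ε' → ℝ) :
    Ex U w (fun a => Ex U' w' (fun b => F a b)) = Ex U' w' (fun b => Ex U w (fun a => F a b)) := by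
  simp only [Ex, mul_sum]
  rw [sum_comm]
  exact sum_congr rfl fun _ _ => sum_congr rfl fun _ _ => by ring

/-- marginal on `U ∩ D` -/
lemma Ex_inter (D : Finset ε) (f : Finset ε → ℝ) :
    Ex U w (fun ω => f (ω ∩ D)) = Ex (U ∩ D) w f := by
  induction U using Finset.induction_on generalizing f with
  | empty => simp
  | insert e U he ih =>
    rw [Ex_insert he]
    by_cases hD : e ∈ D
    · rw [insert_inter_of_mem hD, Ex_insert (by simp [he]), ← ih, ← ih]
      simp only [insert_inter_of_mem hD]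
    · rw [insert_inter_of_notMem hD, ← ih]
      simp only [insert_inter_of_notMem hD]; ring

/-- changing the universe -/
lemma Ex_universe {U' : Finset ε} (h : U' ⊆ U) (f : Finset ε → ℝ) :
    Ex U w (fun ω => f (ω ∩ U')) = Ex U' w f := by
  rw [Ex_inter, inter_eq_right.2 h]

lemma Ex_restr (D : Finset ε) (f : Finset ε → ℝ) :
    Ex U (restr w D) f = Ex U w (fun ω => f (ω ∩ D)) := by
  induction U using Finset.induction_on generalizing f with
  | empty => simp
  | insert e U he ih =>
    rw [Ex_insert he, Ex_insert he, ih, ih]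
    by_cases hD : e ∈ D
    · simp only [insert_inter_of_mem hD, restr, if_pos hD]
    · simp only [insert_inter_of_notMem hD, restr, if_neg hD]; ring

lemma Ex_cond_eq (S ξ : Finset ε) (f : Finset ε → ℝ) :
    Ex U (cond w S ξ) f = Ex U w (fun ω => f ((ξ ∩ S ∩ U) ∪ (ω \ S))) := by
  induction U using Finset.induction_on generalizing f with
  | empty => simp
  | insert e U he ih =>
    rw [Ex_insert he, Ex_insert he, ih, ih]
    by_cases hS : e ∈ S
    · have h1 : ∀ ω : Finset ε, insert e ω \ S = ω \ S := fun ω => insert_sdiff_of_mem _ hS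
      by_cases hξ : e ∈ ξ
      · have h2 : ∀ ω : Finset ε, ξ ∩ S ∩ insert e U ∪ ω \ S = insert e (ξ ∩ S ∩ U ∪ ω \ S) := by
          intro ω; ext x; simp only [mem_union, mem_inter, mem_insert, mem_sdiff]
          by_cases hx : x = e <;> simp [hx, hS, hξ]
        simp only [h1, h2, cond, if_pos hS, if_pos hξ]; ring
      · have h2 : ξ ∩ S ∩ insert e U = ξ ∩ S ∩ U := by
          ext x; simp only [mem_inter, mem_insert]
          by_cases hx : x = e <;> simp [hx, hξ]
        simp only [h1, h2, cond, if_pos hS, if_neg hξ]; ring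
    · have h2 : ξ ∩ S ∩ insert e U = ξ ∩ S ∩ U := by
        ext x; simp only [mem_inter, mem_insert]
        by_cases hx : x = e <;> simp [hx, hS]
      have h3 : ∀ ω : Finset ε, ξ ∩ S ∩ U ∪ insert e ω \ S = insert e (ξ ∩ S ∩ U ∪ ω \ S) := by
        intro ω; ext x; simp only [mem_union, mem_inter, mem_insert, mem_sdiff]
        by_cases hx : x = e <;> simp [hx, hS]
      simp only [h2, h3, cond, if_neg hS]

/-- splice: `a` on `S`, `b` off `S` -/
def splice (S a b : Finset ε) : Finset ε := (a ∩ S) ∪ (b \ S)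

lemma mem_splice {S a b : Finset ε} {e : ε} :
    e ∈ splice S a b ↔ (e ∈ a ∧ e ∈ S) ∨ (e ∈ b ∧ e ∉ S) := by simp [splice]

lemma splice_subset {S a b : Finset ε} (ha : a ⊆ U) (hb : b ⊆ U) : splice S a b ⊆ U := by
  intro e he; rcases mem_splice.1 he with h | h
  · exact ha h.1
  · exact hb h.1

lemma splice_inter (S a b : Finset ε) : splice S a b ∩ S = a ∩ S := by
  ext e; simp only [mem_inter, mem_splice]; tauto

lemma splice_sdiff (S a b : Finset ε) : splice S a b \ S = b \ S := by
  ext e; simp only [mem_sdiff, mem_splice]; tauto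

lemma splice_self (S a : Finset ε) : splice S a a = a := by
  ext e; simp only [mem_splice]; tauto

lemma Ex_cond_eq_splice (S : Finset ε) {ξ : Finset ε} (hξ : ξ ⊆ U) (f : Finset ε → ℝ) :
    Ex U (cond w S ξ) f = Ex U w (fun ω => f (splice S ξ ω)) := by
  rw [Ex_cond_eq]
  have : ξ ∩ S ∩ U = ξ ∩ S := inter_eq_left.2 (inter_subset_left.trans hξ)
  simp only [this, splice]

/-- The spatial Markov property, two-copy form. `S` is a stopping set: if `ω'` agrees with `ω`
on `S ω` then `S ω' = S ω`. Swapping two independent copies off `S ω` preserves the joint law. -/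
lemma Ex_swap (S : Finset ε → Finset ε)
    (hS : ∀ ω ω', ω' ∩ S ω = ω ∩ S ω → S ω' = S ω) (G : Finset ε → Finset ε → ℝ) :
    Ex U w (fun a => Ex U w (fun b => G a b)) =
      Ex U w (fun a => Ex U w (fun b => G (splice (S a) a b) (splice (S a) b a))) := by
  simp only [Ex, mul_sum]
  rw [← sum_product', ← sum_product']
  symm
  have key : ∀ a b : Finset ε, S (splice (S a) a b) = S a := fun a b => hS _ _ (splice_inter _ _ _)
  have inv1 : ∀ a b : Finset ε,
      splice (S a) (splice (S a) a b) (splice (S a) b a) = a := by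
    intro a b; ext e; simp only [mem_splice]; tauto
  have inv2 : ∀ a b : Finset ε,
      splice (S a) (splice (S a) b a) (splice (S a) a b) = b := by
    intro a b; ext e; simp only [mem_splice]; tauto
  refine sum_nbij' (fun x => (splice (S x.1) x.1 x.2, splice (S x.1) x.2 x.1))
    (fun x => (splice (S x.1) x.1 x.2, splice (S x.1) x.2 x.1)) ?_ ?_ ?_ ?_ ?_
  · rintro ⟨a, b⟩ h
    simp only [mem_product, mem_powerset] at h ⊢
    exact ⟨splice_subset h.1 h.2, splice_subset h.2 h.1⟩
  · rintro ⟨a, b⟩ h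
    simp only [mem_product, mem_powerset] at h ⊢
    exact ⟨splice_subset h.1 h.2, splice_subset h.2 h.1⟩
  · rintro ⟨a, b⟩ _; simp only [key, inv1, inv2]
  · rintro ⟨a, b⟩ _; simp only [key, inv1, inv2]
  · rintro ⟨a, b⟩ _
    have : wt U w (splice (S a) a b) * wt U w (splice (S a) b a) = wt U w a * wt U w b := by
      unfold wt
      rw [← prod_mul_distrib, ← prod_mul_distrib]
      refine prod_congr rfl fun e _ => ?_
      by_cases h : e ∈ S a
      · simp [mem_splice, h]
      · simp [mem_splice, h, mul_comm]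
    simp only []
    rw [← mul_assoc, ← mul_assoc, this]

/-- The spatial Markov property: resample off a stopping set. `F` may also read `ω ∩ S ω`. -/
lemma Ex_stop (S : Finset ε → Finset ε)
    (hS : ∀ ω ω', ω' ∩ S ω = ω ∩ S ω → S ω' = S ω) (F : Finset ε → ℝ) :
    Ex U w F = Ex U w (fun a => Ex U w (fun b => F (splice (S a) a b))) := by
  rw [← Ex_swap S hS (fun a _ => F a)]; simp

/-- tower property for a deterministic set `S` -/
lemma Ex_cond (S : Finset ε) (F : Finset ε → ℝ) :
    Ex U w F = Ex U w (fun ξ => Ex U (cond w S ξ) F) := by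
  rw [Ex_stop (fun _ => S) (fun _ _ _ => rfl) F]
  exact Ex_congr fun ξ hξ => (Ex_cond_eq_splice S hξ F).symm

/-- tower property with an `S`-measurable parameter -/
lemma Ex_cond' (S : Finset ε) (F : Finset ε → Finset ε → ℝ) :
    Ex U w (fun ω => F (ω ∩ S) ω) = Ex U w (fun ξ => Ex U (cond w S ξ) (F (ξ ∩ S))) := by
  rw [Ex_stop (fun _ => S) (fun _ _ _ => rfl)]
  refine Ex_congr fun ξ hξ => ?_
  rw [Ex_cond_eq_splice S hξ]; simp only [splice_inter]

lemma cond_inter (S ξ : Finset ε) : cond w S (ξ ∩ S) = cond w S ξ := by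
  funext e; by_cases h : e ∈ S <;> simp [cond, h]

/-- independence of a function of `ω ∩ S` and a function of `ω \ S` -/
lemma Ex_indep (S : Finset ε) (f g : Finset ε → ℝ) :
    Ex U w (fun ω => f (ω ∩ S) * g (ω \ S)) =
      Ex U w (fun ω => f (ω ∩ S)) * Ex U w (fun ω => g (ω \ S)) := by
  rw [Ex_stop (fun _ => S) (fun _ _ _ => rfl)]
  simp only [splice_inter, splice_sdiff, Ex_const_mul, Ex_mul_const]

/-- independence for a family with pairwise disjoint supports -/
lemma Ex_prod_indep {ι : Type*} (s : Finset ι) (S : ι → Finset ε)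
    (hd : (s : Set ι).PairwiseDisjoint S) (f : ι → Finset ε → ℝ) :
    Ex U w (fun ω => ∏ i ∈ s, f i (ω ∩ S i)) = ∏ i ∈ s, Ex U w (fun ω => f i (ω ∩ S i)) := by
  classical
  induction s using Finset.induction_on with
  | empty => simp
  | insert a s ha ih =>
    have hd' : (s : Set ι).PairwiseDisjoint S := hd.subset (by simp)
    simp only [prod_insert ha]
    have h1 : ∀ ω : Finset ε, ∏ i ∈ s, f i (ω ∩ S i) = ∏ i ∈ s, f i ((ω \ S a) ∩ S i) := by
      intro ω
      refine prod_congr rfl fun i hi => ?_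
      congr 1
      have : Disjoint (S a) (S i) :=
        hd (by simp) (by simp [hi]) (fun h => ha (h ▸ hi))
      ext e; simp only [mem_inter, mem_sdiff]
      constructor
      · rintro ⟨h1, h2⟩; exact ⟨⟨h1, fun h3 => disjoint_left.1 this h3 h2⟩, h2⟩
      · rintro ⟨⟨h1, _⟩, h2⟩; exact ⟨h1, h2⟩
    rw [← ih hd']
    have h2 := Ex_indep (U := U) (w := w) (S a) (f a) (fun ω => ∏ i ∈ s, f i (ω ∩ S i))
    rw [Ex_congr (fun ω _ => by rw [h1 ω]), h2]
    congr 1
    exact Ex_congr fun ω _ => (h1 ω).symm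

lemma Ex_insert_mono (hw : Valid w) {f : Finset ε → ℝ} (hf : Monotone f) (e : ε) :
    Ex U w f ≤ Ex U w (fun ω => f (insert e ω)) :=
  Ex_mono hw fun _ _ => hf (subset_insert _ _)

/-- Harris inequality -/
lemma harris (hw : Valid w) {f g : Finset ε → ℝ} (hf : Monotone f) (hg : Monotone g) :
    Ex U w f * Ex U w g ≤ Ex U w (fun ω => f ω * g ω) := by
  induction U using Finset.induction_on generalizing f g with
  | empty => simp
  | insert e U he ih =>
    rw [Ex_insert he, Ex_insert he, Ex_insert he]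
    have h1 := ih hf hg
    have h2 := ih (f := fun ω => f (insert e ω)) (g := fun ω => g (insert e ω))
      (fun a b h => hf (insert_subset_insert _ h)) (fun a b h => hg (insert_subset_insert _ h))
    have h3 := Ex_insert_mono (U := U) hw hf e
    have h4 := Ex_insert_mono (U := U) hw hg e
    obtain ⟨h0, h0'⟩ := hw e
    have h5 := mul_nonneg (mul_nonneg h0 (sub_nonneg.2 h0')) (mul_nonneg (sub_nonneg.2 h3) (sub_nonneg.2 h4))
    have h6 := mul_le_mul_of_nonneg_left h2 h0
    have h7 := mul_le_mul_of_nonneg_left h1 (sub_nonneg.2 h0')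
    nlinarith

lemma harris_mono_anti (hw : Valid w) {f g : Finset ε → ℝ} (hf : Monotone f) (hg : Antitone g) :
    Ex U w (fun ω => f ω * g ω) ≤ Ex U w f * Ex U w g := by
  have := harris (U := U) hw hf (g := fun ω => - g ω) (fun a b h => neg_le_neg (hg h))
  simp only [mul_neg, Ex_neg] at this
  linarith

lemma harris_anti (hw : Valid w) {f g : Finset ε → ℝ} (hf : Antitone f) (hg : Antitone g) :
    Ex U w f * Ex U w g ≤ Ex U w (fun ω => f ω * g ω) := by
  have := harris (U := U) hw (f := fun ω => - f ω) (g := fun ω => - g ω)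
    (fun a b h => neg_le_neg (hf h)) (fun a b h => neg_le_neg (hg h))
  simpa only [mul_neg, neg_mul, neg_neg, Ex_neg] using this

/-- monotonicity in the weights -/
lemma Ex_mono_w {w' : ε → ℝ} (hw : Valid w) (hw' : Valid w') (h : ∀ e ∈ U, w e ≤ w' e)
    {f : Finset ε → ℝ} (hf : Monotone f) : Ex U w f ≤ Ex U w' f := by
  induction U using Finset.induction_on generalizing f with
  | empty => simp
  | insert e U he ih =>
    rw [Ex_insert he, Ex_insert he]
    have hU : ∀ x ∈ U, w x ≤ w' x := fun x hx => h x (mem_insert_of_mem hx)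
    have h1 := ih hU hf
    have h2 := ih hU (f := fun ω => f (insert e ω)) (fun a b h => hf (insert_subset_insert _ h))
    have h3 := Ex_insert_mono (U := U) hw' hf e
    have h4 := h e (mem_insert_self _ _)
    obtain ⟨h0, h0'⟩ := hw e
    have h6 := mul_le_mul_of_nonneg_left h2 h0
    have h7 := mul_le_mul_of_nonneg_left h1 (sub_nonneg.2 h0')
    have h8 := mul_nonneg (sub_nonneg.2 h4) (sub_nonneg.2 h3)
    nlinarith

lemma Ex_anti_w {w' : ε → ℝ} (hw : Valid w) (hw' : Valid w') (h : ∀ e ∈ U, w e ≤ w' e)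
    {f : Finset ε → ℝ} (hf : Antitone f) : Ex U w' f ≤ Ex U w f := by
  have := Ex_mono_w hw hw' h (f := fun ω => - f ω) (fun a b h => neg_le_neg (hf h))
  simp only [Ex_neg] at this
  linarith

/-- continuity under scaling of the weights (use `w = 1` for continuity in a constant `p`) -/
lemma continuous_Ex (U : Finset ε) (w : ε → ℝ) (f : Finset ε → ℝ) :
    Continuous fun t : ℝ => Ex U (fun e => t * w e) f := by
  unfold Ex wt
  refine continuous_finsetSum _ fun ω _ => Continuous.mul ?_ continuous_const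
  refine continuous_finsetProd _ fun e _ => ?_
  split_ifs <;> fun_prop

lemma continuous_Ex_const (U : Finset ε) (f : Finset ε → ℝ) :
    Continuous fun p : ℝ => Ex U (fun _ => p) f := by
  simpa using continuous_Ex U (fun _ => 1) f

/-- relabelling the edges -/
lemma Ex_map {ε' : Type*} [DecidableEq ε'] (φ : ε ↪ ε') (U : Finset ε) (w' : ε' → ℝ)
    (f : Finset ε' → ℝ) :
    Ex (U.map φ) w' f = Ex U (fun e => w' (φ e)) (fun ω => f (ω.map φ)) := by
  induction U using Finset.induction_on generalizing f with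
  | empty => simp
  | insert e U he ih =>
    rw [map_insert, Ex_insert (by simpa using he), Ex_insert he, ih, ih]
    simp only [map_insert]

/-! ### probabilities -/

lemma Pr_nonneg (hw : Valid w) (A : Finset ε → Prop) : 0 ≤ Pr U w A :=
  Ex_nonneg hw fun _ _ => ind_nonneg _

lemma Pr_le_one (hw : Valid w) (A : Finset ε → Prop) : Pr U w A ≤ 1 := by
  simpa [Pr] using Ex_mono (U := U) hw (g := fun _ => 1) fun ω _ => ind_le_one (A ω)

lemma Pr_mono (hw : Valid w) {A B : Finset ε → Prop} (h : ∀ ω ⊆ U, A ω → B ω) :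
    Pr U w A ≤ Pr U w B := Ex_mono hw fun ω hω => ind_mono (h ω hω)

lemma Pr_mono_ae (hw : Valid w) {A B : Finset ε → Prop}
    (h : ∀ ω ⊆ U, wt U w ω ≠ 0 → A ω → B ω) : Pr U w A ≤ Pr U w B :=
  Ex_mono_ae hw fun ω hω h0 => ind_mono (h ω hω h0)

lemma Pr_congr {A B : Finset ε → Prop} (h : ∀ ω ⊆ U, A ω ↔ B ω) : Pr U w A = Pr U w B :=
  Ex_congr fun ω hω => ind_congr (h ω hω)

lemma Pr_not (A : Finset ε → Prop) : Pr U w (fun ω => ¬ A ω) = 1 - Pr U w A := by
  simp only [Pr, ind_not, Ex_sub, Ex_const]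

lemma Pr_or_le (hw : Valid w) (A B : Finset ε → Prop) :
    Pr U w (fun ω => A ω ∨ B ω) ≤ Pr U w A + Pr U w B := by
  unfold Pr; rw [← Ex_add]; exact Ex_mono hw fun _ _ => ind_or_le _ _

lemma Pr_le_add (hw : Valid w) {A B C : Finset ε → Prop} (h : ∀ ω ⊆ U, A ω → B ω ∨ C ω) :
    Pr U w A ≤ Pr U w B + Pr U w C := (Pr_mono hw h).trans (Pr_or_le hw _ _)

lemma Pr_exists_le (hw : Valid w) {ι : Type*} (s : Finset ι) (A : ι → Finset ε → Prop) :
    Pr U w (fun ω => ∃ i ∈ s, A i ω) ≤ ∑ i ∈ s, Pr U w (A i) := by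
  unfold Pr; rw [← Ex_sum]; exact Ex_mono hw fun _ _ => ind_exists_le _ _

lemma Pr_and_add_and_not (A B : Finset ε → Prop) :
    Pr U w (fun ω => A ω ∧ B ω) + Pr U w (fun ω => A ω ∧ ¬ B ω) = Pr U w A := by
  unfold Pr; rw [← Ex_add]; exact Ex_congr fun ω _ => by rw [ind_and, ind_and, ind_not]; ring

lemma exists_of_Pr_pos {A : Finset ε → Prop} (h : Pr U w A ≠ 0) :
    ∃ ω ⊆ U, wt U w ω ≠ 0 ∧ A ω := by
  by_contra hc
  push Not at hc
  refine h (sum_eq_zero fun ω hω => ?_)
  by_cases h0 : wt U w ω = 0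
  · simp [h0]
  · simp [ind_neg (hc ω (mem_powerset.1 hω) h0)]

/-- Markov inequality -/
lemma markov (hw : Valid w) {f : Finset ε → ℝ} (hf : ∀ ω ⊆ U, 0 ≤ f ω) {a : ℝ} :
    a * Pr U w (fun ω => a < f ω) ≤ Ex U w f := by
  unfold Pr; rw [← Ex_const_mul]
  refine Ex_mono hw fun ω hω => ?_
  by_cases h : a < f ω
  · rw [ind_pos h]; linarith
  · rw [ind_neg h]; simpa using hf ω hω

lemma Pr_all_open {S : Finset ε} (hS : S ⊆ U) : Pr U w (fun ω => S ⊆ ω) = ∏ e ∈ S, w e := by
  have h1 : Pr U w (fun ω => S ⊆ ω) = Pr S w (fun ω => S ⊆ ω) := by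
    unfold Pr; rw [← Ex_universe hS]
    exact Ex_congr fun ω _ => ind_congr (by simp [subset_inter_iff])
  rw [h1]
  unfold Pr Ex
  rw [sum_eq_single S]
  · simp only [Subset.refl, ind_true, mul_one, wt]
    exact prod_congr rfl fun e he => if_pos he
  · intro b hb hne
    beta_reduce
    rw [ind_neg, mul_zero]
    exact fun h => hne (Subset.antisymm (mem_powerset.1 hb) h)
  · simp

lemma Pr_all_closed {S : Finset ε} (hS : S ⊆ U) :
    Pr U w (fun ω => Disjoint ω S) = ∏ e ∈ S, (1 - w e) := by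
  have h1 : Pr U w (fun ω => Disjoint ω S) = Pr S w (fun ω => ω = ∅) := by
    unfold Pr; rw [← Ex_universe hS]
    exact Ex_congr fun ω _ => ind_congr disjoint_iff_inter_eq_empty
  rw [h1]
  unfold Pr Ex
  rw [sum_eq_single ∅]
  · simp [wt]
  · intro b _ hne
    beta_reduce
    rw [ind_neg hne, mul_zero]
  · simp

/-! ### open connections -/

variable {V : Type*}

/-- `x` and `y` are joined by a path of edges of `ω` -/
def Conn (ω : Finset (Sym2 V)) (x y : V) : Prop :=
  (SimpleGraph.fromEdgeSet (ω : Set (Sym2 V))).Reachable x y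

lemma Conn.refl (ω : Finset (Sym2 V)) (x : V) : Conn ω x x := SimpleGraph.Reachable.refl _
lemma Conn.symm {ω : Finset (Sym2 V)} {x y : V} (h : Conn ω x y) : Conn ω y x :=
  SimpleGraph.Reachable.symm h
lemma Conn.trans {ω : Finset (Sym2 V)} {x y z : V} (h : Conn ω x y) (h' : Conn ω y z) :
    Conn ω x z := SimpleGraph.Reachable.trans h h'
lemma Conn.mono {ω ω' : Finset (Sym2 V)} (hω : ω ⊆ ω') {x y : V} (h : Conn ω x y) :
    Conn ω' x y :=
  SimpleGraph.Reachable.mono (SimpleGraph.fromEdgeSet_mono (by exact_mod_cast hω)) h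
lemma Conn.of_mem {ω : Finset (Sym2 V)} {x y : V} (h : s(x, y) ∈ ω) : Conn ω x y := by
  by_cases hxy : x = y
  · subst hxy; exact Conn.refl _ _
  · exact SimpleGraph.Adj.reachable (by simp [h, hxy])

/-- induction along an open path, from the start -/
lemma Conn.induction {ω : Finset (Sym2 V)} {x : V} {P : V → Prop} (h0 : P x)
    (hs : ∀ a b, Conn ω x a → P a → s(a, b) ∈ ω → a ≠ b → P b) {y : V} (h : Conn ω x y) : P y := by
  unfold Conn at h hs
  rw [SimpleGraph.reachable_iff_reflTransGen] at h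
  induction h with
  | refl => exact h0
  | tail hab hbc ih =>
    rw [SimpleGraph.fromEdgeSet_adj] at hbc
    exact hs _ _ ((SimpleGraph.reachable_iff_reflTransGen _ _).2 hab) ih (by simpa using hbc.1) hbc.2

/-- Exit lemma: an open path from `x ∈ D` either stays in `D`, or leaves `D` for a first time.
`ω'` is any configuration containing every edge of `ω` with both endpoints in `D`. -/
lemma Conn.exit {ω ω' : Finset (Sym2 V)} {D : Set V}
    (hω' : ∀ a b, a ∈ D → b ∈ D → s(a, b) ∈ ω → s(a, b) ∈ ω') {x y : V} (hx : x ∈ D)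
    (h : Conn ω x y) :
    (y ∈ D ∧ Conn ω' x y) ∨ ∃ a b, a ∈ D ∧ b ∉ D ∧ s(a, b) ∈ ω ∧ Conn ω' x a := by
  refine Conn.induction (P := fun y => (y ∈ D ∧ Conn ω' x y) ∨
    ∃ a b, a ∈ D ∧ b ∉ D ∧ s(a, b) ∈ ω ∧ Conn ω' x a) (Or.inl ⟨hx, Conn.refl _ _⟩) ?_ h
  rintro a b _ (⟨ha, hc⟩ | h') hab _
  · by_cases hb : b ∈ D
    · exact Or.inl ⟨hb, hc.trans (Conn.of_mem (hω' _ _ ha hb hab))⟩
    · exact Or.inr ⟨a, b, ha, hb, hab, hc⟩
  · exact Or.inr h'

/-- connections are preserved by any vertex map carrying edges of `ω` to edges of `ω'` -/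
lemma Conn.map {V' : Type*} {ω : Finset (Sym2 V)} {ω' : Finset (Sym2 V')} (φ : V → V')
    (hφ : ∀ a b, s(a, b) ∈ ω → s(φ a, φ b) ∈ ω') {x y : V} (h : Conn ω x y) :
    Conn ω' (φ x) (φ y) :=
  Conn.induction (P := fun y => Conn ω' (φ x) (φ y)) (Conn.refl _ _)
    (fun _ _ _ ih hab _ => ih.trans (Conn.of_mem (hφ _ _ hab))) h

end

end Vale.Agent.P151
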