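import Vale.Agent.P151.Lattice

/-! Lattice symmetries and the exit lemma for boxes (used by parts D1, D2). -/

namespace Vale.Agent.P151

open Finset

noncomputable section

variable {d : ℕ}

/-- the lattice automorphism `x ↦ v + σ * (x ∘ π)` -/
def latAut (v : Zd d) (σ : Fin d → ℤˣ) (π : Equiv.Perm (Fin d)) : Zd d ≃ Zd d where
  toFun x := fun j => v j + σ j * x (π j)
  invFun y := fun j => σ (π.symm j) * (y (π.symm j) - v (π.symm j))
  left_inv x := by
    funext j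
    simp only [Equiv.apply_symm_apply, add_sub_cancel_left]
    rw [← mul_assoc, Int.units_coe_mul_self, one_mul]
  right_inv y := by
    funext j
    simp only [Equiv.symm_apply_apply]
    rw [← mul_assoc, Int.units_coe_mul_self, one_mul]; ring

lemma latAut_apply (v : Zd d) (σ : Fin d → ℤˣ) (π : Equiv.Perm (Fin d)) (x : Zd d) (j : Fin d) :
    latAut v σ π x j = v j + σ j * x (π j) := rfl

lemma abs_units_mul (u : ℤˣ) (a : ℤ) : |(u : ℤ) * a| = |a| := by
  rcases Int.units_eq_one_or u with rfl | rfl <;> simp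

lemma isLat_latAut (v : Zd d) (σ : Fin d → ℤˣ) (π : Equiv.Perm (Fin d)) (x y : Zd d) :
    IsLat s(latAut v σ π x, latAut v σ π y) ↔ IsLat s(x, y) := by
  rw [isLat_mk, isLat_mk]
  have : ∑ i, |latAut v σ π x i - latAut v σ π y i| = ∑ i, |x i - y i| := by
    rw [← Equiv.sum_comp π (fun i => |x i - y i|)]
    refine sum_congr rfl fun i _ => ?_
    rw [latAut_apply, latAut_apply, ← abs_units_mul (σ i) (x (π i) - y (π i))]
    congr 1; ring
  rw [this]

lemma abs_latAut_sub (v : Zd d) (σ : Fin d → ℤˣ) (π : Equiv.Perm (Fin d)) (x : Zd d) (j : Fin d) :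
    |latAut v σ π x j - v j| = |x (π j) - (0 : Zd d) (π j)| := by
  rw [latAut_apply, add_sub_cancel_left, abs_units_mul]; simp

lemma mem_box_latAut (v : Zd d) (σ : Fin d → ℤˣ) (π : Equiv.Perm (Fin d)) (x : Zd d) (n : ℕ) :
    latAut v σ π x ∈ box v n ↔ x ∈ box (0 : Zd d) n := by
  rw [mem_box, mem_box]
  simp only [abs_latAut_sub]
  constructor
  · intro h i; simpa using h (π.symm i)
  · intro h i; exact h _

lemma mem_sphere_latAut (v : Zd d) (σ : Fin d → ℤˣ) (π : Equiv.Perm (Fin d)) (x : Zd d) (n : ℕ) :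
    latAut v σ π x ∈ sphere v n ↔ x ∈ sphere (0 : Zd d) n := by
  simp only [sphere, Set.mem_ofPred_eq, mem_box_latAut, abs_latAut_sub]
  refine and_congr Iff.rfl ⟨?_, ?_⟩
  · rintro ⟨i, hi⟩; exact ⟨_, hi⟩
  · rintro ⟨i, hi⟩; exact ⟨π.symm i, by simpa using hi⟩

/-- the induced embedding of edges -/
def edgeEmb (φ : Zd d ≃ Zd d) : Sym2 (Zd d) ↪ Sym2 (Zd d) :=
  ⟨Sym2.map φ, Sym2.map.injective φ.injective⟩

lemma mk_mem_map_edgeEmb (φ : Zd d ≃ Zd d) (ω : Finset (Sym2 (Zd d))) (a b : Zd d) :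
    s(φ a, φ b) ∈ ω.map (edgeEmb φ) ↔ s(a, b) ∈ ω := by
  have : s(φ a, φ b) = edgeEmb φ s(a, b) := rfl
  rw [this, mem_map']

lemma conn_map_iff (φ : Zd d ≃ Zd d) (ω : Finset (Sym2 (Zd d))) (a b : Zd d) :
    Conn (ω.map (edgeEmb φ)) (φ a) (φ b) ↔ Conn ω a b := by
  constructor
  · intro h
    have := Conn.map (ω' := ω) φ.symm (fun x y hxy => by
      rw [← mk_mem_map_edgeEmb φ]; simpa using hxy) h
    simpa using this
  · intro h
    exact Conn.map φ (fun x y hxy => (mk_mem_map_edgeEmb φ ω x y).2 hxy) h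

lemma edgesIn_box_map (v : Zd d) (σ : Fin d → ℤˣ) (π : Equiv.Perm (Fin d)) (n : ℕ) :
    edgesIn (box v n) = (edgesIn (box (0 : Zd d) n)).map (edgeEmb (latAut v σ π)) := by
  ext e
  induction e using Sym2.ind with
  | _ x y =>
    obtain ⟨a, rfl⟩ := (latAut v σ π).surjective x
    obtain ⟨b, rfl⟩ := (latAut v σ π).surjective y
    rw [mk_mem_map_edgeEmb, mk_mem_edgesIn, mk_mem_edgesIn, mem_box_latAut, mem_box_latAut,
      isLat_latAut]

lemma Pr_conn_symm (p : ℝ) (v : Zd d) (σ : Fin d → ℤˣ) (π : Equiv.Perm (Fin d)) (n : ℕ)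
    (S T S' T' : Zd d → Prop) (hS : ∀ x, S' (latAut v σ π x) ↔ S x)
    (hT : ∀ x, T' (latAut v σ π x) ↔ T x) :
    Pr (edgesIn (box v n)) (fun _ => p) (fun ω => ∃ a, S' a ∧ ∃ b, T' b ∧ Conn ω a b) =
      Pr (edgesIn (box (0 : Zd d) n)) (fun _ => p) (fun ω => ∃ a, S a ∧ ∃ b, T b ∧ Conn ω a b) := by
  rw [edgesIn_box_map v σ π n]
  unfold Pr
  rw [Ex_map]
  refine Ex_congr fun ω _ => ind_congr ⟨?_, ?_⟩
  · rintro ⟨a, ha, b, hb, h⟩
    obtain ⟨a, rfl⟩ := (latAut v σ π).surjective a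
    obtain ⟨b, rfl⟩ := (latAut v σ π).surjective b
    exact ⟨a, (hS a).1 ha, b, (hT b).1 hb, (conn_map_iff _ _ _ _).1 h⟩
  · rintro ⟨a, ha, b, hb, h⟩
    exact ⟨_, (hS a).2 ha, _, (hT b).2 hb, (conn_map_iff _ _ _ _).2 h⟩

lemma theta_shift (p : ℝ) (v : Zd d) (n : ℕ) :
    Pr (edgesIn (box v n)) (fun _ => p) (fun ω => ∃ b ∈ sphere v n, Conn ω v b) = theta d p n := by
  have := Pr_conn_symm p v 1 1 n (fun a => a = 0) (fun b => b ∈ sphere (0 : Zd d) n)
    (fun a => a = v) (fun b => b ∈ sphere v n) (fun x => by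
      constructor
      · intro h; funext j
        have := congrFun h j
        rw [latAut_apply] at this
        simpa using this
      · rintro rfl; funext j; simp [latAut_apply])
    (fun x => mem_sphere_latAut _ _ _ _ _)
  simpa [theta] using this

lemma faceFail_symm (p : ℝ) (m n : ℕ) (v : Zd d) (i i0 : Fin d) (σ : Fin d → ℤˣ) :
    faceFail p m n v i σ = faceFail p m n 0 i0 1 := by
  have := Pr_conn_symm p v σ (Equiv.swap i0 i) n (fun a => a ∈ box (0 : Zd d) m)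
    (fun b => b ∈ face (0 : Zd d) n i0 1) (fun a => a ∈ box v m) (fun b => b ∈ face v n i σ)
    (fun x => mem_box_latAut _ _ _ _ _) (fun x => by
      have e : ∀ j, (σ j : ℤ) * (latAut v σ (Equiv.swap i0 i) x j - v j) = x (Equiv.swap i0 i j) := by
        intro j
        rw [latAut_apply, add_sub_cancel_left, ← mul_assoc, Int.units_coe_mul_self, one_mul]
      simp only [face, Set.mem_ofPred_eq, e, Equiv.swap_apply_right, Pi.one_apply, Units.val_one,
        Pi.zero_apply, sub_zero, one_mul]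
      refine and_congr Iff.rfl ⟨fun h j => ?_, fun h j => h _⟩
      simpa using h (Equiv.swap i0 i j))
  unfold faceFail
  rw [Pr_not, Pr_not, this]

/-- leaving a box forces a visit to its boundary from inside -/
lemma exit_box {ω : Finset (Sym2 (Zd d))} (hω : ∀ e ∈ ω, IsLat e) {v a b : Zd d} {n : ℕ}
    (ha : a ∈ box v n) (hb : ∃ i, (n : ℤ) ≤ |b i - v i|) (hc : Conn ω a b) :
    ∃ b' ∈ sphere v n, Conn (ω ∩ edgesIn (box v n)) a b' := by
  obtain ⟨i, hi⟩ := hb
  rcases Conn.exit (ω' := ω ∩ edgesIn (box v n)) (D := (box v n : Finset (Zd d)))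
    (fun x y hx hy hxy => mem_inter.2 ⟨hxy, mk_mem_edgesIn.2 ⟨hx, hy, hω _ hxy⟩⟩) ha hc with
    ⟨hb, hc'⟩ | ⟨x, c, hx, hcn, hxc, hc'⟩
  · refine ⟨b, ⟨hb, i, ?_⟩, hc'⟩
    have := mem_box.1 hb i
    omega
  · have hl := hω _ hxc
    have hcn' : ¬ ∀ i, |c i - v i| ≤ n := fun h => hcn (mem_box.2 h)
    push Not at hcn'
    obtain ⟨j, hj⟩ := hcn'
    refine ⟨x, ⟨hx, j, ?_⟩, hc'⟩
    have h1 := mem_box.1 hx j
    have h2 := hl.abs_le j
    rw [abs_le] at h2
    rcases abs_cases (x j - v j) with h | h <;> rcases abs_cases (c j - v j) with h' | h' <;> omega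

lemma isLat_of_mem_edgesIn {D : Finset (Zd d)} {e : Sym2 (Zd d)} (h : e ∈ edgesIn D) : IsLat e :=
  (mem_edgesIn.1 h).2

end

end Vale.Agent.P151
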