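import Vale.Agent.P151.Lattice
import Vale.Agent.P151.Symm

/-! Part D2: the bridge between the infinite product measure and finite volumes. -/

namespace Vale.Agent.P151

open Finset MeasureTheory unitInterval ProbabilityTheory

section

variable {ι : Type*} [DecidableEq ι]

open Classical in
/-- the trace of an infinite configuration on a finite universe -/
noncomputable def tr (U : Finset ι) (ω : Set ι) : Finset ι := U.filter (· ∈ ω)

omit [DecidableEq ι] in
lemma mem_tr {U : Finset ι} {ω : Set ι} {e : ι} : e ∈ tr U ω ↔ e ∈ U ∧ e ∈ ω := by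
  classical
  simp [tr]

omit [DecidableEq ι] in
lemma tr_eq_iff {U ξ : Finset ι} (hξ : ξ ⊆ U) (ω : Set ι) :
    tr U ω = ξ ↔ ∀ e ∈ U, (e ∈ ω ↔ e ∈ ξ) := by
  constructor
  · rintro rfl e he; simp [mem_tr, he]
  · intro h; ext e; rw [mem_tr]
    exact ⟨fun ⟨h1, h2⟩ => (h e h1).1 h2, fun h1 => ⟨hξ h1, (h e (hξ h1)).2 h1⟩⟩

omit [DecidableEq ι] in
lemma measurableSet_tr_eq {U ξ : Finset ι} (hξ : ξ ⊆ U) :
    MeasurableSet {ω : Set ι | tr U ω = ξ} := by
  have : {ω : Set ι | tr U ω = ξ} = ⋂ e ∈ U, {ω : Set ι | e ∈ ω ↔ e ∈ ξ} := by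
    ext ω; simp [tr_eq_iff hξ]
  rw [this]
  refine Finset.measurableSet_biInter _ fun e _ => ?_
  by_cases h : e ∈ ξ
  · simpa [h] using measurableSet_mem e
  · have : {ω : Set ι | e ∈ ω ↔ e ∈ ξ} = {ω : Set ι | e ∈ ω}ᶜ := by ext ω; simp [h]
    rw [this]; exact (measurableSet_mem e).compl

lemma measure_tr_eq {u : Set ι} {U ξ : Finset ι} (hU : ∀ e ∈ U, e ∈ u) (hξ : ξ ⊆ U) (p : I) :
    setBernoulli u p {ω : Set ι | tr U ω = ξ} = ENNReal.ofReal (wt U (fun _ => (p : ℝ)) ξ) := by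
  rw [setBernoulli_apply']
  have : (fun q : ι → Prop => {i | q i}) ⁻¹' {ω : Set ι | tr U ω = ξ} =
      Set.pi (U : Set ι) (fun e => {b : Prop | b ↔ e ∈ ξ}) := by
    ext q; simp [tr_eq_iff hξ]
  rw [this, Measure.infinitePi_pi _ (fun _ _ => MeasurableSet.of_discrete), wt,
    ENNReal.ofReal_prod_of_nonneg (fun e _ => by split_ifs <;> linarith [p.2.1, p.2.2])]
  refine prod_congr rfl fun e he => ?_
  have e1 : ((toNNReal p : NNReal) : ENNReal) = ENNReal.ofReal p := by
    rw [ENNReal.ofReal, Real.toNNReal_of_nonneg p.2.1]; rfl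
  have e2 : ((toNNReal (σ p) : NNReal) : ENNReal) = ENNReal.ofReal (1 - p) := by
    rw [ENNReal.ofReal, Real.toNNReal_of_nonneg (sub_nonneg.2 p.2.2)]; rfl
  by_cases h : e ∈ ξ
  · simp [h, hU e he, Set.indicator, e1]
  · simp [h, hU e he, Set.indicator, e2]

omit [DecidableEq ι] in
open Classical in
lemma setOf_tr_eq (U : Finset ι) (A : Finset ι → Prop) :
    {ω : Set ι | A (tr U ω)} = ⋃ ξ ∈ U.powerset.filter A, {ω : Set ι | tr U ω = ξ} := by
  ext ω
  simp only [Set.mem_ofPred_eq, Set.mem_iUnion, mem_filter, mem_powerset, exists_prop]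
  exact ⟨fun h => ⟨_, ⟨fun e he => (mem_tr.1 he).1, h⟩, rfl⟩, fun ⟨ξ, h, e⟩ => e ▸ h.2⟩

omit [DecidableEq ι] in
lemma measurableSet_tr (U : Finset ι) (A : Finset ι → Prop) :
    MeasurableSet {ω : Set ι | A (tr U ω)} := by
  classical
  rw [setOf_tr_eq]
  exact Finset.measurableSet_biUnion _ fun ξ hξ =>
    measurableSet_tr_eq (mem_powerset.1 (mem_filter.1 hξ).1)

lemma measure_tr {u : Set ι} {U : Finset ι} (hU : ∀ e ∈ U, e ∈ u) (p : I) (A : Finset ι → Prop) :
    setBernoulli u p {ω : Set ι | A (tr U ω)} = ENNReal.ofReal (Pr U (fun _ => (p : ℝ)) A) := by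
  classical
  have hv : Valid (fun _ : ι => (p : ℝ)) := valid_const p.2.1 p.2.2
  rw [setOf_tr_eq, measure_biUnion_finset]
  · rw [sum_congr rfl fun ξ hξ => measure_tr_eq hU (mem_powerset.1 (mem_filter.1 hξ).1) p,
      ← ENNReal.ofReal_sum_of_nonneg (fun ξ _ => wt_nonneg hv _ _)]
    congr 1
    unfold Pr Ex
    rw [sum_filter]
    refine sum_congr rfl fun ξ _ => ?_
    by_cases h : A ξ
    · simp [h]
    · simp [h]
  · intro ξ _ ξ' _ hne
    rw [Function.onFun, Set.disjoint_left]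
    intro ω h1 h2
    exact hne (h1.symm.trans h2)
  · intro ξ hξ
    exact measurableSet_tr_eq (mem_powerset.1 (mem_filter.1 hξ).1)

end

lemma exists_conn_of_reachable {V : Type*} [DecidableEq V] {ω : Set (Sym2 V)} {x y : V}
    (h : (SimpleGraph.fromEdgeSet ω).Reachable x y) :
    ∃ ω0 : Finset (Sym2 V), (∀ e ∈ ω0, e ∈ ω) ∧ Conn ω0 x y := by
  rw [SimpleGraph.reachable_iff_reflTransGen] at h
  induction h with
  | refl => exact ⟨∅, by simp, Conn.refl _ _⟩
  | @tail b c _ hbc ih =>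
    obtain ⟨ω0, h0, hc⟩ := ih
    rw [SimpleGraph.fromEdgeSet_adj] at hbc
    refine ⟨insert s(b, c) ω0, ?_, (hc.mono (subset_insert _ _)).trans
      (Conn.of_mem (mem_insert_self _ _))⟩
    intro e he
    rcases mem_insert.1 he with rfl | he
    · exact hbc.1
    · exact h0 e he

lemma reachable_of_conn_tr {V : Type*} {ω : Set (Sym2 V)} {U : Finset (Sym2 V)} {x y : V}
    (h : Conn (tr U ω) x y) : (SimpleGraph.fromEdgeSet ω).Reachable x y :=
  SimpleGraph.Reachable.mono (SimpleGraph.fromEdgeSet_mono fun _ he => (mem_tr.1 he).2) h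

theorem perc_of_measure_pos (d : ℕ) (p : I)
    (h : 0 < percMeasure (latticeGraph d) p (infEvent (Zd d))) : Perc d p := by
  classical
  have hun : infEvent (Zd d) = ⋃ x : Zd d, {ω | (cluster ω x).Infinite} := by
    ext ω; simp [infEvent]
  rw [hun] at h
  obtain ⟨x, hx⟩ : ∃ x : Zd d, percMeasure (latticeGraph d) p {ω | (cluster ω x).Infinite} ≠ 0 := by
    by_contra hc
    push Not at hc
    exact h.ne' (measure_iUnion_null hc)
  have hfin : percMeasure (latticeGraph d) p {ω | (cluster ω x).Infinite} ≠ ⊤ := by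
    unfold percMeasure; exact measure_ne_top _ _
  refine ⟨(percMeasure (latticeGraph d) p {ω | (cluster ω x).Infinite}).toReal,
    ENNReal.toReal_pos hx hfin, fun n => ?_⟩
  rw [← theta_shift (p : ℝ) x n]
  have hv : Valid (fun _ : Sym2 (Zd d) => (p : ℝ)) := valid_const p.2.1 p.2.2
  refine ENNReal.toReal_le_of_le_ofReal (Pr_nonneg hv _) ?_
  rw [← measure_tr (u := (latticeGraph d).edgeSet) (fun e he => isLat_of_mem_edgesIn he) p]
  unfold percMeasure
  refine measure_mono_ae ?_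
  filter_upwards [setBernoulli_ae_subset (u := (latticeGraph d).edgeSet) (p := p)] with ω hω hinf
  obtain ⟨y, hy, hyn⟩ : ∃ y ∈ cluster ω x, y ∉ box x n := by
    by_contra hc
    push Not at hc
    exact hinf ((box x n).finite_toSet.subset hc)
  obtain ⟨ω0, h0, hc⟩ := exists_conn_of_reachable hy
  have hyn' : ∃ i, (n : ℤ) ≤ |y i - x i| := by
    rw [mem_box] at hyn
    push Not at hyn
    obtain ⟨i, hi⟩ := hyn
    exact ⟨i, hi.le⟩
  obtain ⟨b, hb, hcb⟩ := exit_box (fun e he => hω (h0 e he)) (by simp [mem_box]) hyn' hc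
  exact ⟨b, hb, hcb.mono fun e he => mem_tr.2 ⟨(mem_inter.1 he).2, h0 e (mem_inter.1 he).1⟩⟩

theorem measure_pos_of_perc (d : ℕ) (p : I) (h : Perc d p) :
    0 < percMeasure (latticeGraph d) p (infEvent (Zd d)) := by
  classical
  obtain ⟨c, hc, hθ⟩ := h
  set E : ℕ → Set (Set (Sym2 (Zd d))) := fun n =>
    {ω | ∃ b ∈ sphere (0 : Zd d) n, Conn (tr (edgesIn (box (0 : Zd d) n)) ω) 0 b} with hE
  have hEm : ∀ n, MeasurableSet (E n) := fun n =>
    measurableSet_tr (edgesIn (box (0 : Zd d) n)) (fun ξ => ∃ b ∈ sphere (0 : Zd d) n, Conn ξ 0 b)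
  have hEc : ∀ n, ENNReal.ofReal c ≤ percMeasure (latticeGraph d) p (E n) := by
    intro n
    have := measure_tr (u := (latticeGraph d).edgeSet) (U := edgesIn (box (0 : Zd d) n))
      (fun e he => isLat_of_mem_edgesIn he) p (fun ξ => ∃ b ∈ sphere (0 : Zd d) n, Conn ξ 0 b)
    unfold percMeasure
    rw [hE]
    simp only []
    rw [this]
    exact ENNReal.ofReal_le_ofReal (hθ n)
  set F : ℕ → Set (Set (Sym2 (Zd d))) := fun n => ⋃ k, ⋃ _ : n ≤ k, E k with hF
  have hFm : ∀ n, MeasurableSet (F n) := fun n =>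
    MeasurableSet.iUnion fun k => MeasurableSet.iUnion fun _ => hEm k
  have hanti : Antitone F := fun n n' hn ω hω => by
    simp only [hF, Set.mem_iUnion] at hω ⊢
    obtain ⟨k, hk, h⟩ := hω
    exact ⟨k, hn.trans hk, h⟩
  have hI : ENNReal.ofReal c ≤ percMeasure (latticeGraph d) p (⋂ n, F n) := by
    rw [hanti.measure_iInter (fun n => (hFm n).nullMeasurableSet)
      ⟨0, by unfold percMeasure; exact measure_ne_top _ _⟩]
    refine le_iInf fun n => (hEc n).trans (measure_mono ?_)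
    intro ω hω
    simp only [hF, Set.mem_iUnion]
    exact ⟨n, le_rfl, hω⟩
  refine lt_of_lt_of_le (ENNReal.ofReal_pos.2 hc) (hI.trans (measure_mono ?_))
  intro ω hω
  refine ⟨0, fun hfin => ?_⟩
  obtain ⟨M, hM⟩ := (hfin.image (fun y : Zd d => ∑ i, (y i).natAbs)).bddAbove
  have := Set.mem_iInter.1 hω (M + 1)
  simp only [hF, Set.mem_iUnion] at this
  obtain ⟨k, hk, b, ⟨-, i, hi⟩, hcb⟩ := this
  have h1 : ∑ j, (b j).natAbs ≤ M := hM ⟨b, reachable_of_conn_tr hcb, rfl⟩
  have h2 : (b i).natAbs ≤ ∑ j, (b j).natAbs :=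
    single_le_sum (f := fun j => (b j).natAbs) (fun j _ => Nat.zero_le _) (mem_univ i)
  simp only [Pi.zero_apply, sub_zero] at hi
  rw [Int.abs_eq_natAbs] at hi
  omega

theorem percMeasure_zero (d : ℕ) : percMeasure (latticeGraph d) 0 (infEvent (Zd d)) = 0 := by
  unfold percMeasure
  rw [setBernoulli_zero, Measure.dirac_apply, Set.indicator_of_notMem]
  rintro ⟨x, hx⟩
  refine hx ((Set.finite_singleton x).subset fun y hy => ?_)
  simp only [cluster, SimpleGraph.fromEdgeSet_empty, Set.mem_ofPred_eq,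
    SimpleGraph.reachable_bot] at hy
  exact hy.symm

end Vale.Agent.P151
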