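import Vale.Agent.P151.Lattice

/-! Part F1: steering a box to a cube around a centre `c` (see notes/P151.md, section F). -/

namespace Vale.Agent.P151

open Finset

lemma face_bound {d : ℕ} {p : ℝ} {m n : ℕ} (hp0 : 0 ≤ p) (hp1 : p ≤ 1)
    (U : Finset (Sym2 (Zd d))) (w : Sym2 (Zd d) → ℝ) (hw : Valid w) (v : Zd d) (i : Fin d)
    (σ : Fin d → ℤˣ) (T : Set (Zd d)) (hT : face v n i σ ⊆ T)
    (hge : ∀ e ∈ edgesIn (box v n), e ∈ U ∧ p ≤ w e) :
    Pr U w (fun ω => ¬ ∃ a ∈ box v m, ∃ b ∈ T, Conn ω a b) ≤ faceFail p m n v i σ := by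
  have hv : Valid (fun _ : Sym2 (Zd d) => p) := valid_const hp0 hp1
  have h1 : Pr U w (fun ω => ¬ ∃ a ∈ box v m, ∃ b ∈ T, Conn ω a b) ≤
      Pr U (restr (fun _ => p) (edgesIn (box v n)))
        (fun ω => ¬ ∃ a ∈ box v m, ∃ b ∈ T, Conn ω a b) := by
    refine Ex_anti_w (hv.restr _) hw ?_ ?_
    · intro e _
      unfold restr
      split_ifs with h
      · exact (hge e h).2
      · exact (hw e).1
    · intro ω ω' h
      exact ind_mono fun hn ⟨a, ha, b, hb, hc⟩ => hn ⟨a, ha, b, hb, hc.mono h⟩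
  refine h1.trans ?_
  unfold Pr
  rw [Ex_restr, Ex_universe (fun e he => (hge e he).1)
    (fun ω => ind (¬ ∃ a ∈ box v m, ∃ b ∈ T, Conn ω a b))]
  exact Pr_mono hv fun ω _ hn ⟨a, ha, b, hb, hc⟩ => hn ⟨a, ha, b, hT hb, hc⟩

section
variable {d : ℕ} (U : Finset (Sym2 (Zd d))) (w : Sym2 (Zd d) → ℝ) (o c : Zd d)

/-- `o` reaches the first box but not the second with probability at most `g` -/
def Rel (a b a' b' : Zd d) (g : ℝ) : Prop :=
  Pr U w (fun ω => (∃ x ∈ Icc (c - a) (c + b), Conn ω o x) ∧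
    ¬ ∃ x ∈ Icc (c - a') (c + b'), Conn ω o x) ≤ g

variable {U w o c}

lemma Rel.trans (hw : Valid w) {a b a' b' a'' b'' : Zd d} {g g' : ℝ} (h : Rel U w o c a b a' b' g)
    (h' : Rel U w o c a' b' a'' b'' g') : Rel U w o c a b a'' b'' (g + g') := by
  refine le_trans (Pr_le_add hw ?_) (add_le_add h h')
  rintro ω - ⟨h1, h2⟩
  by_cases h3 : ∃ x ∈ Icc (c - a') (c + b'), Conn ω o x
  · exact Or.inr ⟨h3, h2⟩
  · exact Or.inl ⟨h1, h3⟩

lemma Rel.of_le (hw : Valid w) {a b a' b' : Zd d} (ha : ∀ j, a j ≤ a' j) (hb : ∀ j, b j ≤ b' j) :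
    Rel U w o c a b a' b' 0 := by
  refine le_trans (Pr_mono hw (B := fun _ => False) ?_) (by simp [Pr])
  rintro ω - ⟨⟨x, hx, hc⟩, h2⟩
  refine h2 ⟨x, ?_, hc⟩
  simp only [mem_Icc, Pi.le_def, Pi.sub_apply, Pi.add_apply] at hx ⊢
  exact ⟨fun j => by linarith [hx.1 j, ha j], fun j => by linarith [hx.2 j, hb j]⟩

end

lemma thick_Icc_subset {d : ℕ} (lo hi : Zd d) (j : ℕ) {x : Zd d} (hx : x ∈ thick (Icc lo hi) j)
    (i : Fin d) : lo i - j ≤ x i ∧ x i ≤ hi i + j := by
  obtain ⟨b, hb, h⟩ := mem_thick.1 hx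
  simp only [mem_Icc, Pi.le_def] at hb
  have := abs_le.1 (h i)
  constructor <;> linarith [hb.1 i, hb.2 i]

section
variable {d : ℕ} {p γ δ : ℝ} {m J n : ℕ} (hp0 : 0 ≤ p) (hp1 : p ≤ 1)
    (hT : TargetProp d p γ δ m J)
    (hF : ∀ (v : Zd d) (i : Fin d) (σ : Fin d → ℤˣ), faceFail p m n v i σ ≤ δ)
    {U : Finset (Sym2 (Zd d))} {w : Sym2 (Zd d) → ℝ} (hw : Valid w) (hU : ∀ e ∈ U, IsLat e)
    {o c lo hi : Zd d}
    (hfresh : ∀ e ∈ edgesIn (Icc (lo - fun _ => ((d + 1) * J + 1 : ℤ))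
      (hi + fun _ => ((d + 1) * J + 1 : ℤ))), e ∈ U ∧ w e = p)
    (ho : o ∉ Icc (lo - fun _ => ((d + 1) * J + 1 : ℤ)) (hi + fun _ => ((d + 1) * J + 1 : ℤ)))
    (hge : ∀ e ∈ edgesIn (Icc (lo - fun _ => ((d + 1) * J + n : ℤ))
      (hi + fun _ => ((d + 1) * J + n : ℤ))), e ∈ U ∧ p ≤ w e)
include hp0 hp1 hT hF hw hU hfresh ho hge

lemma chain_step (a b a' b' : Zd d) (k : Fin d)
    (ha : ∀ j, a j ≤ c j - lo j + d * J) (hb : ∀ j, b j ≤ hi j - c j + d * J)
    (hn : ∀ j, (n : ℤ) ≤ a' j ∧ (n : ℤ) ≤ b' j)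
    (hj : ∀ j, j ≠ k → a j + J ≤ a' j ∧ b j + J ≤ b' j)
    (hk : a k + J - n ≤ a' k ∧ b k + J - n ≤ b' k) : Rel U w o c a b a' b' γ := by
  have key := hT U w (Icc (c - a) (c + b)) (Icc (c - a') (c + b') : Finset (Zd d)) o hw hU ?_ ?_ ?_
  · exact key
  · intro e he
    refine hfresh e (edgesIn_mono ?_ he)
    intro x hx
    simp only [mem_Icc, Pi.le_def, Pi.sub_apply, Pi.add_apply]
    have := thick_Icc_subset _ _ _ hx
    simp only [Pi.sub_apply, Pi.add_apply] at this
    push_cast at this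
    exact ⟨fun j => by linarith [(this j).1, ha j], fun j => by linarith [(this j).2, hb j]⟩
  · intro hx
    refine ho ?_
    simp only [mem_Icc, Pi.le_def, Pi.sub_apply, Pi.add_apply]
    have := thick_Icc_subset _ _ _ hx
    simp only [Pi.sub_apply, Pi.add_apply] at this
    exact ⟨fun j => by linarith [(this j).1, ha j], fun j => by linarith [(this j).2, hb j]⟩
  · intro v hv
    have hv' := thick_Icc_subset _ _ _ hv
    simp only [Pi.sub_apply, Pi.add_apply] at hv'
    refine (face_bound hp0 hp1 U w hw v k (fun j => if c j ≤ v j then -1 else 1) _ ?_ ?_).trans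
      (hF _ _ _)
    · rintro x ⟨hx1, hx2⟩
      simp only [coe_Icc, Set.mem_Icc, Pi.le_def, Pi.sub_apply, Pi.add_apply]
      have main : ∀ j, c j - a' j ≤ x j ∧ x j ≤ c j + b' j := by
        intro j
        have h1 := hx2 j
        have h2 := hn j
        have h3 := hv' j
        by_cases hjk : j = k
        · subst hjk
          by_cases hc : c j ≤ v j
          · simp only [if_pos hc, Units.val_neg, Units.val_one] at hx1
            constructor <;> linarith [hk.1, hk.2]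
          · simp only [if_neg hc, Units.val_one] at hx1
            constructor <;> linarith [hk.1, hk.2]
        · have h4 := hj j hjk
          by_cases hc : c j ≤ v j
          · simp only [if_pos hc, Units.val_neg, Units.val_one] at h1
            constructor <;> linarith [h4.1, h4.2]
          · simp only [if_neg hc, Units.val_one] at h1
            constructor <;> linarith [h4.1, h4.2]
      exact ⟨fun j => (main j).1, fun j => (main j).2⟩
    · intro e he
      refine hge e (edgesIn_mono ?_ he)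
      intro x hx
      rw [mem_box] at hx
      simp only [mem_Icc, Pi.le_def, Pi.sub_apply, Pi.add_apply]
      exact ⟨fun j => by linarith [(hv' j).1, ha j, (abs_le.1 (hx j)).1],
        fun j => by linarith [(hv' j).2, hb j, (abs_le.1 (hx j)).2]⟩

lemma chain_round (A B : Zd d)
    (hA : ∀ j, (n : ℤ) + d * J ≤ A j ∧ A j ≤ c j - lo j)
    (hB : ∀ j, (n : ℤ) + d * J ≤ B j ∧ B j ≤ hi j - c j) (k : ℕ) (hk : k ≤ d) :
    Rel U w o c A B (fun j => (if j.val < k then max (A j - n) n else A j) + k * J)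
      (fun j => (if j.val < k then max (B j - n) n else B j) + k * J) (k * γ) := by
  have J0 : (0 : ℤ) ≤ J := Int.natCast_nonneg _
  have n0 : (0 : ℤ) ≤ n := Int.natCast_nonneg _
  have dJ : (0 : ℤ) ≤ d * J := by positivity
  induction k with
  | zero => simpa using Rel.of_le hw (fun _ => le_rfl) (fun _ => le_rfl)
  | succ k ih =>
    have kJ : (0 : ℤ) ≤ k * J := by positivity
    have kd : (k : ℤ) * J ≤ d * J := by
      have : (k : ℤ) ≤ d := by exact_mod_cast (by omega : k ≤ d)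
      gcongr
    have h := (ih (by omega)).trans hw (chain_step hp0 hp1 hT hF hw hU hfresh ho hge _ _
      (fun j => (if j.val < k + 1 then max (A j - n) n else A j) + (k + 1 : ℕ) * J)
      (fun j => (if j.val < k + 1 then max (B j - n) n else B j) + (k + 1 : ℕ) * J)
      ⟨k, by omega⟩ ?_ ?_ ?_ ?_ ?_)
    · have e : ((k + 1 : ℕ) : ℝ) * γ = k * γ + γ := by push_cast; ring
      rw [e]; exact h
    · intro j
      have := hA j
      split_ifs
      · have : max (A j - n) n ≤ A j := max_le (by linarith) (by linarith)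
        linarith
      · linarith
    · intro j
      have := hB j
      split_ifs
      · have : max (B j - n) n ≤ B j := max_le (by linarith) (by linarith)
        linarith
      · linarith
    · intro j
      have h1 := hA j
      have h2 := hB j
      have h3 := le_max_right (A j - n) n
      have h4 := le_max_right (B j - n) n
      push_cast
      split_ifs <;> constructor <;> linarith
    · intro j hj
      have hj' : j.val ≠ k := fun h => hj (Fin.ext h)
      push_cast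
      by_cases h1 : j.val < k
      · simp only [if_pos h1, if_pos (by omega : j.val < k + 1)]
        constructor <;> linarith
      · simp only [if_neg h1, if_neg (by omega : ¬ j.val < k + 1)]
        constructor <;> linarith
    · have h3 := le_max_left (A ⟨k, by omega⟩ - n) n
      have h4 := le_max_left (B ⟨k, by omega⟩ - n) n
      simp only [lt_irrefl, if_false, Nat.lt_succ_self, if_true]
      push_cast
      constructor <;> linarith

lemma chain_rounds (hJ : d * J ≤ n) (r : ℕ) (A B : Zd d)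
    (hA : ∀ j, (n : ℤ) + d * J ≤ A j ∧ A j ≤ c j - lo j)
    (hB : ∀ j, (n : ℤ) + d * J ≤ B j ∧ B j ≤ hi j - c j)
    (hA' : ∀ j, A j ≤ n + d * J + r * ((n : ℤ) - d * J))
    (hB' : ∀ j, B j ≤ n + d * J + r * ((n : ℤ) - d * J)) :
    Rel U w o c A B (fun _ => n + d * J) (fun _ => n + d * J) (r * d * γ) := by
  have hJ' : (d : ℤ) * J ≤ n := by exact_mod_cast hJ
  induction r generalizing A B with
  | zero => simpa using Rel.of_le hw (by simpa using hA') (by simpa using hB')
  | succ r ih =>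
    have h1 := chain_round hp0 hp1 hT hF hw hU hfresh ho hge A B hA hB d le_rfl
    simp only [Fin.is_lt, if_true] at h1
    have rr : (0 : ℤ) ≤ r * ((n : ℤ) - d * J) := mul_nonneg (by positivity) (by linarith)
    have aux : ∀ x y : ℤ, (n : ℤ) + d * J ≤ x → x ≤ y →
        x ≤ n + d * J + ((r + 1 : ℕ) : ℤ) * ((n : ℤ) - d * J) →
        ((n : ℤ) + d * J ≤ max (x - n) n + d * J ∧ max (x - n) n + d * J ≤ y) ∧
          max (x - n) n + d * J ≤ n + d * J + r * ((n : ℤ) - d * J) := by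
      intro x y h1 h2 h3
      push_cast at h3
      rcases max_cases (x - n) n with ⟨h, h'⟩ | ⟨h, h'⟩ <;> rw [h] <;>
        refine ⟨⟨by linarith, by linarith⟩, by linarith⟩
    have h2 := ih (fun j => max (A j - n) n + d * J) (fun j => max (B j - n) n + d * J)
      (fun j => (aux _ _ (hA j).1 (hA j).2 (hA' j)).1)
      (fun j => (aux _ _ (hB j).1 (hB j).2 (hB' j)).1)
      (fun j => (aux _ _ (hA j).1 (hA j).2 (hA' j)).2)
      (fun j => (aux _ _ (hB j).1 (hB j).2 (hB' j)).2)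
    have e : ((r + 1 : ℕ) : ℝ) * d * γ = d * γ + r * d * γ := by push_cast; ring
    rw [e]
    exact h1.trans hw h2

end

theorem chain {d : ℕ} {p γ δ : ℝ} {m J n : ℕ} (hp0 : 0 ≤ p) (hp1 : p ≤ 1)
    (hT : TargetProp d p γ δ m J)
    (hF : ∀ (v : Zd d) (i : Fin d) (σ : Fin d → ℤˣ), faceFail p m n v i σ ≤ δ)
    (hJ : d * J ≤ n)
    (U : Finset (Sym2 (Zd d))) (w : Sym2 (Zd d) → ℝ) (hw : Valid w) (hU : ∀ e ∈ U, IsLat e)
    (o c lo hi : Zd d) (r : ℕ)
    (hlo : ∀ j, lo j ≤ c j - (n + d * J)) (hhi : ∀ j, c j + (n + d * J) ≤ hi j)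
    (hlo' : ∀ j, c j - lo j ≤ n + d * J + r * ((n : ℤ) - d * J))
    (hhi' : ∀ j, hi j - c j ≤ n + d * J + r * ((n : ℤ) - d * J))
    (hfresh : ∀ e ∈ edgesIn (Icc (lo - fun _ => ((d + 1) * J + 1 : ℤ))
      (hi + fun _ => ((d + 1) * J + 1 : ℤ))), e ∈ U ∧ w e = p)
    (ho : o ∉ Icc (lo - fun _ => ((d + 1) * J + 1 : ℤ)) (hi + fun _ => ((d + 1) * J + 1 : ℤ)))
    (hge : ∀ e ∈ edgesIn (Icc (lo - fun _ => ((d + 1) * J + n : ℤ))
      (hi + fun _ => ((d + 1) * J + n : ℤ))), e ∈ U ∧ p ≤ w e) :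
    Pr U w (fun ω => (∃ b ∈ Icc lo hi, Conn ω o b) ∧ ¬ ∃ b ∈ box c (n + d * J), Conn ω o b)
      ≤ r * d * γ := by
  have h := chain_rounds hp0 hp1 hT hF hw hU (c := c) hfresh ho hge hJ r (c - lo) (hi - c)
    (fun j => ⟨by simp only [Pi.sub_apply]; linarith [hlo j], le_rfl⟩)
    (fun j => ⟨by simp only [Pi.sub_apply]; linarith [hhi j], le_rfl⟩) hlo' hhi'
  unfold Rel at h
  rw [sub_sub_cancel, add_sub_cancel] at h
  simpa [box] using h

end Vale.Agent.P151
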