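import Vale.Agent.P151.Peierls
import Vale.Agent.P151.Chain

/-! Part F2: the coarse-grained exploration (see notes/P151.md, section F). -/

namespace Vale.Agent.P151

open Finset

noncomputable section

lemma conn_box {d : ℕ} {ω : Finset (Sym2 (Zd d))} {v : Zd d} {m : ℕ}
    (h : edgesIn (box v m) ⊆ ω) {a : Zd d} (ha : a ∈ box v m) : Conn ω v a := by
  induction hN : ∑ i, (a i - v i).natAbs using Nat.strong_induction_on generalizing a with
  | _ N ih =>
    by_cases hav : a = v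
    · subst hav; exact Conn.refl _ _
    obtain ⟨i, hi⟩ : ∃ i, a i ≠ v i := by
      by_contra hc; push Not at hc; exact hav (funext hc)
    set s : ℤ := if v i < a i then 1 else -1 with hs
    let a' : Zd d := Function.update a i (a i - s)
    have ha0 := mem_box.1 ha
    have ha' : a' ∈ box v m := by
      refine mem_box.2 fun j => ?_
      by_cases hj : j = i
      · subst hj
        have := abs_le.1 (ha0 j)
        simp only [a', Function.update_self, hs, abs_le]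
        split_ifs <;> constructor <;> omega
      · simpa [a', Function.update_of_ne hj] using ha0 j
    have hlt : ∑ j, (a' j - v j).natAbs < N := by
      rw [← hN]
      refine sum_lt_sum (fun j _ => ?_) ⟨i, mem_univ _, ?_⟩
      · by_cases hj : j = i
        · subst hj
          simp only [a', Function.update_self, hs]
          split_ifs <;> omega
        · simp [a', Function.update_of_ne hj]
      · simp only [a', Function.update_self, hs]
        split_ifs <;> omega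
    refine (ih _ hlt ha' rfl).trans (Conn.of_mem (h (mk_mem_edgesIn.2 ⟨ha', ha, ?_⟩)))
    rw [isLat_mk, sum_eq_single i]
    · simp only [a', Function.update_self, hs]; split_ifs <;> simp
    · intro j _ hj; simp [a', Function.update_of_ne hj]
    · simp

lemma Ex_ge_cond_open {ε : Type*} [DecidableEq ε] {U S : Finset ε} {w : ε → ℝ} (hw : Valid w)
    (hS : S ⊆ U) {f : Finset ε → ℝ} (hf : ∀ ω, 0 ≤ f ω) :
    (∏ e ∈ S, w e) * Ex U (cond w S S) f ≤ Ex U w f := by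
  rw [Ex_cond (w := w) S f, ← Pr_all_open hS, Pr, ← Ex_mul_const]
  refine Ex_mono hw fun ξ _ => ?_
  by_cases h : S ⊆ ξ
  · rw [ind_pos h, one_mul, ← cond_inter S ξ, inter_eq_right.2 h]
  · rw [ind_neg h, zero_mul]; exact Ex_nonneg (hw.cond _ _) fun _ _ => hf _

/-- the data of the coarse-graining -/
structure Setup where
  d : ℕ
  m : ℕ
  J : ℕ
  n : ℕ
  p : ℝ
  γ : ℝ
  δ : ℝ
  η : ℝ
  hd : 2 ≤ d
  hn : m + (2 * d + 2) * J + 2 ≤ n
  hp0 : 0 ≤ p
  hp1 : p ≤ 1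
  hη : 0 < η
  hη1 : η < 1
  hT : TargetProp d p γ δ m J
  hF : ∀ (v : Zd d) (i : Fin d) (σ : Fin d → ℤˣ), faceFail p m n v i σ ≤ δ
  hroot : δ + 16 * d * γ ≤ η

namespace Setup
variable (s : Setup)

def i0 : Fin s.d := ⟨0, by have := s.hd; omega⟩
def i1 : Fin s.d := ⟨1, by have := s.hd; omega⟩
lemma i1_ne : s.i1 ≠ s.i0 := by simp [i0, i1]

def ctr (y : ℕ × ℕ) : Zd s.d := fun j =>
  if j = s.i0 then 3 * s.n + 8 * s.n * y.2 else if j = s.i1 then 8 * s.n * (y.1 - y.2) else 0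

def cube (y : ℕ × ℕ) : Set (Zd s.d) := {z | ∀ j, s.ctr y j - 4 * s.n ≤ z j ∧ z j < s.ctr y j + 4 * s.n}

def seed : Finset (Sym2 (Zd s.d)) := edgesIn (box 0 s.m)

open Classical in
def E (y : ℕ × ℕ) : Finset (Sym2 (Zd s.d)) :=
  (edgesIn (box (s.ctr y) (4 * s.n + 1))).filter fun e => e.sup ∈ s.cube y ∧ e ∉ s.seed

lemma mem_E {y : ℕ × ℕ} {e : Sym2 (Zd s.d)} : e ∈ s.E y ↔
    e ∈ edgesIn (box (s.ctr y) (4 * s.n + 1)) ∧ e.sup ∈ s.cube y ∧ e ∉ s.seed := by
  simp only [E, mem_filter]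

def U (T : ℕ) : Finset (Sym2 (Zd s.d)) := s.seed ∪ past s.E (T + 2)

def w0 : Sym2 (Zd s.d) → ℝ := cond (fun _ => s.p) s.seed s.seed

def R (y : ℕ × ℕ) : Finset (Sym2 (Zd s.d)) := past s.E y.1 ∪ s.E y

def reach (y : ℕ × ℕ) (ω : Finset (Sym2 (Zd s.d))) : Prop :=
  ∃ b ∈ box (s.ctr y) (s.n + s.d * s.J), Conn ω 0 b

def fail (T : ℕ) (y z : ℕ × ℕ) (ω : Finset (Sym2 (Zd s.d))) : ℝ :=
  Pr (s.U T) (restr (cond s.w0 (s.R y) ω) (s.seed ∪ s.R y ∪ s.E z)) fun ω' => ¬ s.reach z ω'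

def Good (T : ℕ) (y : ℕ × ℕ) (ω : Finset (Sym2 (Zd s.d))) : Prop :=
  s.fail T y (y.1 + 1, y.2) ω ≤ s.η ∧ s.fail T y (y.1 + 1, y.2 + 1) ω ≤ s.η

lemma valid_w0 : Valid s.w0 := (valid_const s.hp0 s.hp1).cond _ _

lemma facts : (0 : ℤ) ≤ s.m ∧ (0 : ℤ) ≤ s.J ∧ (0 : ℤ) ≤ s.d * s.J ∧
    (s.m : ℤ) + 2 * (s.d * s.J) + 2 * s.J + 2 ≤ s.n := by
  refine ⟨by positivity, by positivity, by positivity, ?_⟩
  have : ((s.m + (2 * s.d + 2) * s.J + 2 : ℕ) : ℤ) ≤ s.n := by exact_mod_cast s.hn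
  push_cast at this
  linarith

lemma cube_disjoint {y z : ℕ × ℕ} {v : Zd s.d} (hy : v ∈ s.cube y) (hz : v ∈ s.cube z) : y = z := by
  obtain ⟨f1, f2, f3, f4⟩ := s.facts
  have a0 := hy s.i0
  have a1 := hy s.i1
  have b0 := hz s.i0
  have b1 := hz s.i1
  simp only [ctr, if_true, if_neg s.i1_ne] at a0 a1 b0 b1
  have n0 : (0 : ℤ) < 8 * s.n := by linarith
  have aux : ∀ a b : ℤ, 8 * (s.n : ℤ) * a < 8 * s.n * b + 8 * s.n → a ≤ b := by
    intro a b h
    have : 8 * (s.n : ℤ) * a < 8 * s.n * (b + 1) := by linarith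
    have := lt_of_mul_lt_mul_left this n0.le
    omega
  have e1 := aux y.2 z.2 (by linarith)
  have e2 := aux z.2 y.2 (by linarith)
  have e3 := aux (y.1 - y.2) (z.1 - z.2) (by linarith)
  have e4 := aux (z.1 - z.2) (y.1 - y.2) (by linarith)
  ext <;> omega

lemma E_disjoint : Pairwise fun y z => Disjoint (s.E y) (s.E z) := by
  intro y z h
  rw [disjoint_left]
  intro e hy hz
  exact h (s.cube_disjoint (s.mem_E.1 hy).2.1 (s.mem_E.1 hz).2.1)

lemma notMem_seed_of_E {y : ℕ × ℕ} {e : Sym2 (Zd s.d)} (h : e ∈ s.E y) : e ∉ s.seed :=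
  (s.mem_E.1 h).2.2

lemma notMem_past_of_seed {t : ℕ} {e : Sym2 (Zd s.d)} (h : e ∈ s.seed) : e ∉ past s.E t := by
  intro h'
  obtain ⟨y, -, -, hy⟩ := mem_past.1 h'
  exact s.notMem_seed_of_E hy h

lemma notMem_past_of_E {t : ℕ} {z : ℕ × ℕ} (hz : t ≤ z.1) {e : Sym2 (Zd s.d)} (h : e ∈ s.E z) :
    e ∉ past s.E t := by
  intro h'
  obtain ⟨y, -, h2, hy⟩ := mem_past.1 h'
  exact disjoint_left.1 (s.E_disjoint (i := y) (j := z) (by rintro rfl; omega)) hy h

lemma mem_E_of_sup {y : ℕ × ℕ} {e : Sym2 (Zd s.d)} (hl : IsLat e) (h : e.sup ∈ s.cube y) :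
    e ∈ s.seed ∨ e ∈ s.E y := by
  by_cases hs : e ∈ s.seed
  · exact Or.inl hs
  refine Or.inr (s.mem_E.2 ⟨?_, h, hs⟩)
  induction e using Sym2.ind with
  | _ a b =>
    have h1 := hl.abs_le
    simp only [cube, Sym2.sup_mk, Set.mem_ofPred_eq, Pi.sup_apply] at h
    refine mk_mem_edgesIn.2 ⟨mem_box.2 fun j => ?_, mem_box.2 fun j => ?_, hl⟩ <;>
    · have := h j
      have := abs_le.1 (h1 j)
      rw [abs_le]; push_cast
      constructor <;> omega

lemma mem_of_Icc {y z : ℕ × ℕ} {lo hi : Zd s.d}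
    (h : ∀ v ∈ Icc lo hi, v ∈ s.cube y ∨ v ∈ s.cube z) {e : Sym2 (Zd s.d)}
    (he : e ∈ edgesIn (Icc lo hi)) : e ∈ s.seed ∨ e ∈ s.E y ∨ e ∈ s.E z := by
  induction e using Sym2.ind with
  | _ a b =>
    obtain ⟨ha, hb, hl⟩ := mk_mem_edgesIn.1 he
    have : a ⊔ b ∈ Icc lo hi := by
      rw [mem_Icc] at ha hb ⊢
      exact ⟨ha.1.trans le_sup_left, sup_le ha.2 hb.2⟩
    rcases h _ this with h | h
    · rcases s.mem_E_of_sup hl (y := y) (by simpa using h) with h | h <;> tauto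
    · rcases s.mem_E_of_sup hl (y := z) (by simpa using h) with h | h <;> tauto

lemma U_lat (T : ℕ) : ∀ e ∈ s.U T, IsLat e := by
  intro e he
  rcases mem_union.1 he with h | h
  · exact (mem_edgesIn.1 h).2
  · obtain ⟨y, -, -, hy⟩ := mem_past.1 h
    exact (mem_edgesIn.1 (s.mem_E.1 hy).1).2

lemma E_sub_U {T : ℕ} {y : ℕ × ℕ} (h1 : y.2 ≤ y.1) (h2 : y.1 ≤ T + 1) : s.E y ⊆ s.U T :=
  fun _ he => mem_union_right _ (mem_past.2 ⟨y, h1, by omega, he⟩)

lemma seed_sub_U (T : ℕ) : s.seed ⊆ s.U T := subset_union_left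

lemma w0_seed {e : Sym2 (Zd s.d)} (h : e ∈ s.seed) : s.w0 e = 1 := by simp [w0, cond, h]
lemma w0_not_seed {e : Sym2 (Zd s.d)} (h : e ∉ s.seed) : s.w0 e = s.p := by simp [w0, cond, h]
lemma p_le_w0 (e : Sym2 (Zd s.d)) : s.p ≤ s.w0 e := by
  by_cases h : e ∈ s.seed
  · rw [s.w0_seed h]; exact s.hp1
  · rw [s.w0_not_seed h]

/-- the chain lemma inside two cubes -/
lemma chain_cubes {T : ℕ} {y z : ℕ × ℕ} (hy : y.2 ≤ y.1 ∧ y.1 ≤ T + 1)
    (hz : z.2 ≤ z.1 ∧ z.1 ≤ T + 1) (hyz : y.1 ≤ z.1) (ξ D : Finset (Sym2 (Zd s.d)))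
    (hD : ∀ e, e ∈ s.seed ∨ e ∈ s.E y ∨ e ∈ s.E z → e ∈ D) (lo hi : Zd s.d)
    (hlo : ∀ j, lo j ≤ s.ctr z j - (s.n + s.d * s.J)) (hhi : ∀ j, hi j = s.ctr z j + (s.n + s.d * s.J))
    (hlo' : ∀ j, s.ctr z j - lo j ≤ 9 * s.n + s.d * s.J)
    (hc : ∀ v : Zd s.d, (∀ j, lo j - ((s.d + 1) * s.J + s.n) ≤ v j ∧ v j ≤ hi j + ((s.d + 1) * s.J + s.n)) →
      v ∈ s.cube y ∨ v ∈ s.cube z)
    (h0 : (s.n : ℤ) ≤ lo s.i0 + s.d * s.J) :
    Pr (s.U T) (restr (cond s.w0 (past s.E y.1) ξ) D)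
      (fun ω => (∃ b ∈ Icc lo hi, Conn ω 0 b) ∧ ¬ s.reach z ω) ≤ 16 * s.d * s.γ := by
  obtain ⟨f1, f2, f3, f4⟩ := s.facts
  have hw : ∀ e, e ∈ s.seed ∨ e ∈ s.E y ∨ e ∈ s.E z →
      e ∈ s.U T ∧ restr (cond s.w0 (past s.E y.1) ξ) D e = s.w0 e := by
    intro e he
    have h1 : e ∉ past s.E y.1 := by
      rcases he with h | h | h
      · exact s.notMem_past_of_seed h
      · exact s.notMem_past_of_E le_rfl h
      · exact s.notMem_past_of_E hyz h
    refine ⟨?_, by simp [restr, cond, hD e he, h1]⟩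
    rcases he with h | h | h
    · exact s.seed_sub_U T h
    · exact s.E_sub_U hy.1 hy.2 h
    · exact s.E_sub_U hz.1 hz.2 h
  have hfar : ∀ v ∈ Icc (lo - fun _ => ((s.d + 1) * s.J + 1 : ℤ))
      (hi + fun _ => ((s.d + 1) * s.J + 1 : ℤ)), v ∉ box (0 : Zd s.d) s.m := by
    intro v hv hb
    have h1 := (mem_Icc.1 hv).1 s.i0
    have h2 := (abs_le.1 (mem_box.1 hb s.i0)).2
    simp only [Pi.sub_apply, Pi.zero_apply] at h1 h2
    linarith
  have key := chain s.hp0 s.hp1 s.hT s.hF (by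
      have : ((s.d * s.J : ℕ) : ℤ) ≤ s.n := by push_cast; linarith
      exact_mod_cast this)
    (s.U T) (restr (cond s.w0 (past s.E y.1) ξ) D) ((s.valid_w0.cond _ _).restr _) (s.U_lat T)
    0 (s.ctr z) lo hi 16 hlo (fun j => (hhi j).ge) (fun j => by push_cast; linarith [hlo' j])
    (fun j => by push_cast; linarith [hhi j]) ?_ ?_ ?_
  · exact_mod_cast key
  · intro e he
    have h1 := s.mem_of_Icc (y := y) (z := z) (fun v hv => hc v fun j => by
      have a := (mem_Icc.1 hv).1 j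
      have b := (mem_Icc.1 hv).2 j
      simp only [Pi.sub_apply, Pi.add_apply] at a b
      constructor <;> linarith) he
    refine ⟨(hw e h1).1, ?_⟩
    rw [(hw e h1).2, s.w0_not_seed]
    intro hs
    induction e using Sym2.ind with
    | _ a b => exact hfar a (mk_mem_edgesIn.1 he).1 (mk_mem_edgesIn.1 hs).1
  · exact fun h => hfar 0 h (by simp [mem_box])
  · intro e he
    have h1 := s.mem_of_Icc (y := y) (z := z) (fun v hv => hc v fun j =>
      ⟨(mem_Icc.1 hv).1 j, (mem_Icc.1 hv).2 j⟩) he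
    exact ⟨(hw e h1).1, by rw [(hw e h1).2]; exact s.p_le_w0 e⟩

/-- moving to a child -/
lemma child_bound {T : ℕ} {y z : ℕ × ℕ} (hy : y.2 ≤ y.1 ∧ y.1 ≤ T)
    (hz : z = (y.1 + 1, y.2) ∨ z = (y.1 + 1, y.2 + 1)) (ξ : Finset (Sym2 (Zd s.d))) :
    Pr (s.U T) (restr (cond s.w0 (past s.E y.1) ξ) (s.seed ∪ s.R y ∪ s.E z))
      (fun ω => s.reach y ω ∧ ¬ s.reach z ω) ≤ 16 * s.d * s.γ := by
  obtain ⟨f1, f2, f3, f4⟩ := s.facts
  obtain ⟨i, hi⟩ : ∃ i, ∀ j, s.ctr z j = s.ctr y j + if j = i then 8 * (s.n : ℤ) else 0 := by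
    rcases hz with rfl | rfl
    · refine ⟨s.i1, fun j => ?_⟩
      simp only [ctr]
      split_ifs with h1 h2
      · exact absurd (h2.symm.trans h1) s.i1_ne
      · simp
      · push_cast; ring
      · simp
    · refine ⟨s.i0, fun j => ?_⟩
      simp only [ctr]
      split_ifs <;> push_cast <;> ring
  have hz1 : z.2 ≤ z.1 ∧ z.1 ≤ T + 1 := by rcases hz with rfl | rfl <;> simp <;> omega
  have hz2 : y.1 ≤ z.1 := by rcases hz with rfl | rfl <;> simp
  refine le_trans (Pr_mono ((s.valid_w0.cond _ _).restr _) ?_)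
    (s.chain_cubes ⟨hy.1, by omega⟩ hz1 hz2 ξ _ ?_ (fun j => s.ctr y j - (s.n + s.d * s.J))
      (fun j => s.ctr z j + (s.n + s.d * s.J)) ?_ (fun _ => rfl) ?_ ?_ ?_)
  · rintro ω - ⟨⟨b, hb, hc⟩, h2⟩
    refine ⟨⟨b, mem_Icc.2 ⟨fun j => ?_, fun j => ?_⟩, hc⟩, h2⟩ <;>
    · have h1 := abs_le.1 (mem_box.1 hb j)
      have h2 := hi j
      push_cast at h1
      split_ifs at h2 <;> simp only [] <;> linarith
  · intro e he
    simp only [R, mem_union]; tauto
  · intro j; have := hi j; split_ifs at this <;> linarith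
  · intro j; have := hi j; split_ifs at this <;> linarith
  · intro v hv
    by_cases h : v i < s.ctr y i + 4 * s.n
    · refine Or.inl fun j => ?_
      have h1 := hv j
      have h2 := hi j
      by_cases hj : j = i
      · subst hj; constructor <;> linarith
      · rw [if_neg hj] at h2; constructor <;> linarith
    · refine Or.inr fun j => ?_
      have h1 := hv j
      have h2 := hi j
      by_cases hj : j = i
      · subst hj; rw [if_pos rfl] at h2; constructor <;> linarith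
      · rw [if_neg hj] at h2; constructor <;> linarith
  · have : (0 : ℤ) ≤ 8 * s.n * y.2 := by positivity
    simp only [ctr, if_true]; linarith

lemma fail_nonneg (T : ℕ) (y z : ℕ × ℕ) (ω : Finset (Sym2 (Zd s.d))) : 0 ≤ s.fail T y z ω :=
  Pr_nonneg ((s.valid_w0.cond _ _).restr _) _

lemma markov_child {T : ℕ} {y z : ℕ × ℕ} (hy : y.2 ≤ y.1 ∧ y.1 ≤ T)
    (hz : z = (y.1 + 1, y.2) ∨ z = (y.1 + 1, y.2 + 1)) (ξ : Finset (Sym2 (Zd s.d))) :
    Pr (s.U T) (cond s.w0 (past s.E y.1) ξ)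
      (fun ω => s.reach y (s.seed ∪ ω ∩ s.R y) ∧ s.η < s.fail T y z ω) ≤ 16 * s.d * s.γ / s.η := by
  set w1 := cond s.w0 (past s.E y.1) ξ with hw1
  have v1 : Valid w1 := s.valid_w0.cond _ _
  set D := s.seed ∪ s.R y ∪ s.E z with hD
  have e1 : ∀ ω, cond w1 (s.R y) ω = cond s.w0 (s.R y) ω := by
    intro ω; funext e
    by_cases h : e ∈ s.R y
    · simp [cond, h]
    · have : e ∉ past s.E y.1 := fun h' => h (mem_union_left _ h')
      simp [hw1, cond, h, this]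
  have h1 := Ex_cond' (U := s.U T) (w := w1) (s.R y)
    (fun a ω => ind (s.reach y (s.seed ∪ a)) * ind (¬ s.reach z (ω ∩ D)))
  have h2 : Ex (s.U T) w1 (fun ω => ind (s.reach y (s.seed ∪ ω ∩ s.R y)) * s.fail T y z ω) =
      Ex (s.U T) w1 (fun ω => ind (s.reach y (s.seed ∪ ω ∩ s.R y)) * ind (¬ s.reach z (ω ∩ D))) := by
    rw [h1]
    refine Ex_congr fun ω _ => ?_
    rw [Ex_const_mul, e1, fail, Pr, Ex_restr]
  have h3 : Ex (s.U T) w1 (fun ω => ind (s.reach y (s.seed ∪ ω ∩ s.R y)) *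
      ind (¬ s.reach z (ω ∩ D))) ≤ 16 * s.d * s.γ := by
    refine le_trans ?_ (s.child_bound hy hz ξ)
    rw [Pr, Ex_restr]
    refine Ex_mono_ae v1 fun ω _ h0 => ?_
    rw [← ind_and]
    refine ind_mono fun ⟨⟨b, hb, hc⟩, h2⟩ => ⟨⟨b, hb, hc.mono ?_⟩, h2⟩
    intro e he
    rcases mem_union.1 he with h | h
    · refine mem_inter.2 ⟨mem_of_wt_ne_zero h0 (s.seed_sub_U T h) ?_, by simp [h]⟩
      simp [hw1, cond, s.notMem_past_of_seed h, s.w0_seed h]
    · exact mem_inter.2 ⟨(mem_inter.1 h).1, by simp [(mem_inter.1 h).2]⟩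
  rw [le_div_iff₀ s.hη, mul_comm, Pr, ← Ex_const_mul]
  refine le_trans (Ex_mono v1 fun ω _ => ?_) (h2.le.trans h3)
  by_cases h : s.reach y (s.seed ∪ ω ∩ s.R y) ∧ s.η < s.fail T y z ω
  · rw [ind_pos h, ind_pos h.1]; linarith [h.2]
  · rw [ind_neg h, mul_zero]; exact mul_nonneg (ind_nonneg _) (s.fail_nonneg _ _ _ _)

lemma not_good_bound {T : ℕ} {y : ℕ × ℕ} (hy : y.2 ≤ y.1 ∧ y.1 ≤ T) (ξ : Finset (Sym2 (Zd s.d)))
    (h : Pr (s.U T) (cond s.w0 (past s.E y.1) ξ)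
      (fun ω => ¬ s.reach y (s.seed ∪ ω ∩ s.R y)) ≤ s.η) :
    Pr (s.U T) (cond s.w0 (past s.E y.1) ξ) (fun ω => ¬ s.Good T y ω) ≤
      s.η + 2 * (16 * s.d * s.γ / s.η) := by
  have v1 : Valid (cond s.w0 (past s.E y.1) ξ) := s.valid_w0.cond _ _
  have h1 := s.markov_child hy (Or.inl rfl) ξ
  have h2 := s.markov_child hy (Or.inr rfl) ξ
  have h3 := Pr_or_le (U := s.U T) v1
    (fun ω => s.reach y (s.seed ∪ ω ∩ s.R y) ∧ s.η < s.fail T y (y.1 + 1, y.2) ω)
    (fun ω => s.reach y (s.seed ∪ ω ∩ s.R y) ∧ s.η < s.fail T y (y.1 + 1, y.2 + 1) ω)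
  refine le_trans (Pr_le_add v1 ?_) ((add_le_add h (h3.trans (add_le_add h1 h2))).trans
    (le_of_eq (by ring)))
  intro ω _ hg
  by_cases hr : s.reach y (s.seed ∪ ω ∩ s.R y)
  · simp only [Good, not_and_or, not_le] at hg
    exact Or.inr (hg.imp (fun h => ⟨hr, h⟩) fun h => ⟨hr, h⟩)
  · exact Or.inl hr

lemma entry_parent {T : ℕ} {y' y : ℕ × ℕ} (hy' : y'.2 ≤ y'.1) (hy : y.1 = y'.1 + 1)
    (ξ : Finset (Sym2 (Zd s.d))) (h : s.fail T y' y ξ ≤ s.η) :
    Pr (s.U T) (cond s.w0 (past s.E y.1) ξ) (fun ω => ¬ s.reach y (s.seed ∪ ω ∩ s.R y)) ≤ s.η := by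
  have v1 : Valid (cond s.w0 (past s.E y.1) ξ) := s.valid_w0.cond _ _
  have hR : s.R y' ⊆ past s.E y.1 := by
    intro e he
    rcases mem_union.1 he with h | h
    · obtain ⟨u, h1, h2, h3⟩ := mem_past.1 h
      exact mem_past.2 ⟨u, h1, by omega, h3⟩
    · exact mem_past.2 ⟨y', hy', by omega, h⟩
  refine le_trans ?_ h
  set D := s.seed ∪ s.R y' ∪ s.E y with hD
  rw [fail, Pr, Pr, Ex_restr, Ex_inter D (fun ω => ind (¬ s.reach y ω)),
    Ex_congr_w (U := s.U T ∩ D) (w := cond s.w0 (s.R y') ξ) (w' := cond s.w0 (past s.E y.1) ξ),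
    ← Ex_inter D (fun ω => ind (¬ s.reach y ω))]
  · refine Ex_mono v1 fun ω _ => ind_mono fun hn ⟨b, hb, hc⟩ => hn ⟨b, hb, hc.mono ?_⟩
    intro e he
    obtain ⟨h1, h2⟩ := mem_inter.1 he
    simp only [hD, mem_union] at h2
    rcases h2 with (h | h) | h
    · exact mem_union_left _ h
    · exact mem_union_right _ (mem_inter.2 ⟨h1, mem_union_left _ (hR h)⟩)
    · exact mem_union_right _ (mem_inter.2 ⟨h1, mem_union_right _ h⟩)
  · intro e he
    by_cases h1 : e ∈ s.R y'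
    · simp [cond, h1, hR h1]
    · have : e ∉ past s.E y.1 := by
        have h2 := (mem_inter.1 he).2
        simp only [hD, mem_union] at h2
        rcases h2 with (h | h) | h
        · exact s.notMem_past_of_seed h
        · exact absurd h h1
        · exact s.notMem_past_of_E le_rfl h
      simp [cond, h1, this]

lemma entry_root {T : ℕ} (ξ : Finset (Sym2 (Zd s.d))) :
    Pr (s.U T) (cond s.w0 (past s.E 0) ξ)
      (fun ω => ¬ s.reach (0, 0) (s.seed ∪ ω ∩ s.R (0, 0))) ≤ s.η := by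
  obtain ⟨f1, f2, f3, f4⟩ := s.facts
  have v1 : Valid (cond s.w0 (past s.E 0) ξ) := s.valid_w0.cond _ _
  set D := s.seed ∪ s.R (0, 0) with hD
  set w2 := restr (cond s.w0 (past s.E 0) ξ) D with hw2
  have v2 : Valid w2 := v1.restr _
  let lo : Zd s.d := fun j => if j = s.i0 then s.n + s.d * s.J - s.d * s.J else - (s.n + s.d * s.J)
  let hi : Zd s.d := fun j => s.ctr (0, 0) j + (s.n + s.d * s.J)
  have c0 : ∀ j, s.ctr (0, 0) j = if j = s.i0 then 3 * (s.n : ℤ) else 0 := by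
    intro j; simp only [ctr]; split_ifs <;> simp
  have hc : ∀ v : Zd s.d, (∀ j, lo j - ((s.d + 1) * s.J + s.n) ≤ v j ∧
      v j ≤ hi j + ((s.d + 1) * s.J + s.n)) → v ∈ s.cube (0, 0) := by
    intro v hv j
    have h1 := hv j
    simp only [lo, hi, c0] at h1 ⊢
    split_ifs at h1 ⊢ <;> constructor <;> linarith
  have hDm : ∀ e, e ∈ s.seed ∨ e ∈ s.E (0, 0) ∨ e ∈ s.E (0, 0) → e ∈ D := by
    intro e he
    simp only [hD, R, mem_union]; tauto
  have h1 := s.chain_cubes (T := T) (y := (0, 0)) (z := (0, 0)) (by simp) (by simp) le_rfl ξ D hDm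
    lo hi (fun j => by simp only [lo, c0]; split_ifs <;> linarith) (fun _ => rfl)
    (fun j => by simp only [lo, c0]; split_ifs <;> linarith) (fun v hv => Or.inl (hc v hv))
    (by simp only [lo, if_true]; linarith)
  have h2 := (face_bound (m := s.m) (n := s.n) s.hp0 s.hp1 (s.U T) w2 v2 0 s.i0 1
    (Icc lo hi : Finset (Zd s.d)) ?_ ?_).trans (s.hF _ _ _)
  · have h3 : Pr (s.U T) w2 (fun ω => ¬ ∃ b ∈ Icc lo hi, Conn ω 0 b) ≤ s.δ := by
      refine le_trans (Pr_mono_ae v2 ?_) h2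
      rintro ω - h0 hn ⟨a, ha, b, hb, hc⟩
      refine hn ⟨b, hb, (conn_box (fun e he => ?_) ha).trans hc⟩
      refine mem_of_wt_ne_zero h0 (s.seed_sub_U T he) ?_
      simp [hw2, restr, cond, hDm e (Or.inl he), s.notMem_past_of_seed he, s.w0_seed he]
    have h4 : Pr (s.U T) w2 (fun ω => ¬ s.reach (0, 0) ω) ≤ s.δ + 16 * s.d * s.γ := by
      refine le_trans (Pr_le_add v2 ?_) (add_le_add h3 h1)
      intro ω _ hn
      by_cases h : ∃ b ∈ Icc lo hi, Conn ω 0 b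
      · exact Or.inr ⟨h, hn⟩
      · exact Or.inl h
    refine le_trans ?_ (h4.trans s.hroot)
    rw [hw2, Pr, Pr, Ex_restr]
    refine Ex_mono v1 fun ω _ => ind_mono fun hn ⟨b, hb, hc⟩ => hn ⟨b, hb, hc.mono ?_⟩
    intro e he
    obtain ⟨h1, h2⟩ := mem_inter.1 he
    rcases mem_union.1 h2 with h | h
    · exact mem_union_left _ h
    · exact mem_union_right _ (mem_inter.2 ⟨h1, h⟩)
  · rintro x ⟨hx1, hx2⟩
    simp only [Pi.one_apply, Units.val_one, Pi.zero_apply, sub_zero, one_mul] at hx1 hx2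
    simp only [coe_Icc, Set.mem_Icc, Pi.le_def, lo, hi, c0]
    constructor <;> intro j <;> have := hx2 j <;> split_ifs with h
    · subst h; linarith
    · linarith
    · linarith
    · linarith
  · intro e he
    have he' : e ∈ edgesIn (Icc ((0 : Zd s.d) - fun _ => (s.n : ℤ)) (0 + fun _ => (s.n : ℤ))) := he
    have h5 := s.mem_of_Icc (y := (0, 0)) (z := (0, 0)) (fun v hv => Or.inl fun j => by
      have a := (mem_Icc.1 hv).1 j
      have b := (mem_Icc.1 hv).2 j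
      simp only [Pi.sub_apply, Pi.add_apply, Pi.zero_apply] at a b
      rw [c0]
      split_ifs <;> constructor <;> linarith) he'
    have h6 : e ∉ past s.E 0 := by simp [mem_past]
    refine ⟨?_, ?_⟩
    · rcases h5 with h | h | h
      · exact s.seed_sub_U T h
      · exact s.E_sub_U (by simp) (by simp) h
      · exact s.E_sub_U (by simp) (by simp) h
    · simp only [hw2, restr, cond, hDm e h5, h6, if_true, if_false]
      exact s.p_le_w0 e

lemma good_congr {T : ℕ} {y : ℕ × ℕ} {ω ω' : Finset (Sym2 (Zd s.d))}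
    (h : ω ∩ s.R y = ω' ∩ s.R y) : s.Good T y ω ↔ s.Good T y ω' := by
  unfold Good fail
  rw [← cond_inter (s.R y) ω, h, cond_inter]

/-- some parent is good (or the site is the root) -/
def Par (T t x : ℕ) (ω : Finset (Sym2 (Zd s.d))) : Prop :=
  t = 0 ∨ ∃ t' x', t = t' + 1 ∧ x' ≤ t' ∧ (x = x' ∨ x = x' + 1) ∧ s.Good T (t', x') ω

lemma par_congr {T t x : ℕ} {ω ω' : Finset (Sym2 (Zd s.d))}
    (h : ω ∩ past s.E t = ω' ∩ past s.E t) : s.Par T t x ω ↔ s.Par T t x ω' := by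
  have key : ∀ t' x', t = t' + 1 → x' ≤ t' → (s.Good T (t', x') ω ↔ s.Good T (t', x') ω') := by
    intro t' x' h1 h2
    have hR : s.R (t', x') ⊆ past s.E t := by
      intro e he
      rcases mem_union.1 he with h | h
      · obtain ⟨u, h1, h2, h3⟩ := mem_past.1 h
        exact mem_past.2 ⟨u, h1, by simp only at h2; omega, h3⟩
      · exact mem_past.2 ⟨(t', x'), h2, by simp only; omega, h⟩
    refine s.good_congr ?_
    rw [← inter_eq_right.2 hR, ← inter_assoc, h, inter_assoc]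
  unfold Par
  refine or_congr Iff.rfl (exists₂_congr fun t' x' => ?_)
  constructor
  · rintro ⟨h1, h2, h3, h4⟩; exact ⟨h1, h2, h3, (key _ _ h1 h2).1 h4⟩
  · rintro ⟨h1, h2, h3, h4⟩; exact ⟨h1, h2, h3, (key _ _ h1 h2).2 h4⟩

lemma survive (hε : s.η + 2 * (16 * s.d * s.γ / s.η) ≤ 1 / 10 ^ 6) (T : ℕ) :
    Pr (s.U T) s.w0 (fun ω => ∀ x ≤ T, ¬ s.Good T (T, x) ω) ≤ 1 / 2 := by
  refine peierls (s.U T) s.w0 s.valid_w0 (fun t x ω => ¬ s.Good T (t, x) ω ∧ s.Par T t x ω)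
    (fun t x ω => ¬ s.Good T (t, x) ω) T ?_ (fun ω h => ⟨h, Or.inl rfl⟩) ?_
  · refine closed_prod (s.U T) s.w0 s.valid_w0 s.E s.E_disjoint
      (fun t x ω => ¬ s.Good T (t, x) ω ∧ s.Par T t x ω) T (1 / 10 ^ 6) (by norm_num) ?_ ?_
    · intro t x ω
      refine and_congr (not_congr (s.good_congr ?_)) (s.par_congr ?_)
      · simp [R, inter_assoc]
      · rw [inter_assoc, inter_eq_right.2 subset_union_left]
    · intro t x hx ht ξ hξ
      have v1 : Valid (cond s.w0 (past s.E t) ξ) := s.valid_w0.cond _ _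
      by_cases hp : s.Par T t x ξ
      · refine le_trans (Pr_mono v1 fun ω _ h => h.1)
          ((s.not_good_bound (y := (t, x)) ⟨hx, ht⟩ ξ ?_).trans hε)
        rcases hp with rfl | ⟨t', x', rfl, h2, h3, h4⟩
        · obtain rfl : x = 0 := by omega
          exact s.entry_root ξ
        · refine s.entry_parent (y' := (t', x')) h2 rfl ξ ?_
          rcases h3 with rfl | rfl
          · exact h4.1
          · exact h4.2
      · rw [Pr, Ex_cond_eq_splice _ hξ, Ex_congr (g := fun _ => 0)]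
        · simp
        · intro ω _
          exact ind_neg fun h => hp ((s.par_congr (splice_inter _ _ _)).1 h.2)
  · intro ω t x hx _ hb
    by_cases hp : s.Par T (t + 1) x ω
    · exact Or.inl ⟨hb, hp⟩
    · refine Or.inr ⟨fun h1 hg => hp (Or.inr ⟨t, x, rfl, h1, Or.inl rfl, hg⟩),
        fun x' h1 hg => hp (Or.inr ⟨t, x', rfl, by omega, Or.inr h1, hg⟩)⟩

lemma far_of_good {T x : ℕ} (hx : x ≤ T) {ω : Finset (Sym2 (Zd s.d))} (hs : s.seed ⊆ ω)
    (hg : s.Good T (T, x) ω) : ∃ b : Zd s.d, (∃ i, (T : ℤ) ≤ |b i|) ∧ Conn ω 0 b := by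
  obtain ⟨f1, f2, f3, f4⟩ := s.facts
  have h1 := hg.1
  rw [fail, Pr_not] at h1
  obtain ⟨ω', hU, h0, b, hb, hc⟩ := exists_of_Pr_pos (A := s.reach (T + 1, x))
    (fun h => by rw [h] at h1; linarith [s.hη1])
  obtain ⟨i, k, hk1, hk2, hk3⟩ : ∃ i, ∃ k : ℤ, 1 ≤ k ∧ (T : ℤ) + 1 ≤ 2 * k ∧
      8 * s.n * k ≤ s.ctr (T + 1, x) i := by
    by_cases h : T + 1 ≤ 2 * x
    · refine ⟨s.i0, x, by omega, by omega, ?_⟩
      simp only [ctr, if_true]; linarith
    · refine ⟨s.i1, T + 1 - x, by omega, by omega, ?_⟩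
      simp [ctr, s.i1_ne]
  have hnk : (s.n : ℤ) ≤ s.n * k := le_mul_of_one_le_right (by positivity) hk1
  have hnk' : 2 * k ≤ (s.n : ℤ) * k := mul_le_mul_of_nonneg_right (by linarith) (by linarith)
  have g1 : ∀ a a' : Zd s.d, a ∈ {v | v ∉ box (s.ctr (T + 1, x)) (4 * s.n + 1)} →
      a' ∈ {v | v ∉ box (s.ctr (T + 1, x)) (4 * s.n + 1)} → s(a, a') ∈ ω' → s(a, a') ∈ ω := by
    intro a a' ha _ he
    by_contra hn
    refine notMem_of_wt_ne_zero h0 (hU he) ?_ he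
    unfold restr cond
    split_ifs with g1 g2
    · rfl
    · simp only [mem_union] at g1
      rcases g1 with (g | g) | g
      · exact absurd (hs g) hn
      · exact absurd g g2
      · exact absurd (mk_mem_edgesIn.1 (s.mem_E.1 g).1).1 ha
    · rfl
  have g2 : (0 : Zd s.d) ∈ {v | v ∉ box (s.ctr (T + 1, x)) (4 * s.n + 1)} := by
    intro h
    have h7 := abs_le.1 (mem_box.1 h i)
    simp only [Pi.zero_apply] at h7
    push_cast at h7
    linarith
  rcases Conn.exit g1 g2 hc with ⟨h2, -⟩ | ⟨a, a', -, h3, h4, h5⟩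
  · refine absurd (mem_box.2 fun j => (mem_box.1 hb j).trans ?_) h2
    push_cast; linarith
  · refine ⟨a, ⟨i, le_trans ?_ (le_abs_self _)⟩, h5⟩
    have h6 := abs_le.1 ((s.U_lat T _ (hU h4)).abs_le i)
    have h7 := abs_le.1 (mem_box.1 (not_not.1 h3) i)
    push_cast at h7
    linarith

theorem perc (hp : 0 < s.p) (hε : s.η + 2 * (16 * s.d * s.γ / s.η) ≤ 1 / 10 ^ 6) :
    Perc s.d s.p := by
  refine ⟨(∏ _e ∈ s.seed, s.p) * (1 / 2), by positivity, fun T => ?_⟩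
  refine le_trans ?_ (Pr_far_le_theta s.hp0 s.hp1 (s.U T) (s.U_lat T) T)
  refine le_trans ?_ (Ex_ge_cond_open (valid_const s.hp0 s.hp1) (s.seed_sub_U T)
    fun _ => ind_nonneg _)
  refine mul_le_mul_of_nonneg_left ?_ (by positivity)
  have h1 := s.survive hε T
  have h2 := Pr_not (U := s.U T) (w := s.w0) (fun ω => ∀ x ≤ T, ¬ s.Good T (T, x) ω)
  refine le_trans (by linarith) (Pr_mono_ae s.valid_w0
    (A := fun ω => ¬ ∀ x ≤ T, ¬ s.Good T (T, x) ω) fun ω _ h0 h => ?_)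
  push Not at h
  obtain ⟨x, hx, hg⟩ := h
  exact s.far_of_good hx (fun e he => mem_of_wt_ne_zero h0 (s.seed_sub_U T he) (s.w0_seed he)) hg

end Setup

end

end Vale.Agent.P151
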