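import Mathlib.Probability.Distributions.SetBernoulli
import Mathlib.Combinatorics.SimpleGraph.Connectivity.Connected

/-! Statement-level definitions for P151: Bernoulli bond percolation on a simple graph. -/

namespace Vale.Agent.P151

open MeasureTheory ProbabilityTheory unitInterval

/-- The nearest-neighbour graph on `ℤ^d`: `x` and `y` are adjacent iff their `ℓ¹` distance is `1`. -/
def latticeGraph (d : ℕ) : SimpleGraph (Fin d → ℤ) where
  Adj x y := ∑ i, |x i - y i| = 1
  symm := ⟨fun x y h => by simpa only [abs_sub_comm] using h⟩
  loopless := ⟨fun x h => by simp at h⟩

/-- Bernoulli bond percolation on `G` with parameter `p`: the law of the random set of open edges,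
each edge of `G` being open independently with probability `p`. -/
noncomputable def percMeasure {V : Type*} (G : SimpleGraph V) (p : I) : Measure (Set (Sym2 V)) :=
  setBernoulli G.edgeSet p

/-- The open cluster of `x` in the configuration `ω` (the set of open edges). -/
def cluster {V : Type*} (ω : Set (Sym2 V)) (x : V) : Set V :=
  {y | (SimpleGraph.fromEdgeSet ω).Reachable x y}

/-- The event that some open cluster is infinite. -/
def infEvent (V : Type*) : Set (Set (Sym2 V)) := {ω | ∃ x, (cluster ω x).Infinite}

/-- The critical parameter `p_c(G) = inf {p ∈ [0,1] : P_p(∃ infinite open cluster) > 0}`. -/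
noncomputable def pc {V : Type*} (G : SimpleGraph V) : I :=
  sInf {p : I | 0 < percMeasure G p (infEvent V)}

end Vale.Agent.P151
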