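import Vale.Agent.P151.Lattice
import Vale.Agent.P151.Symm

/-! Part D1: the basic estimate from `θ(p) > 0` (see notes/P151.md, section D). -/

namespace Vale.Agent.P151

open Finset

lemma harris_anti_prod {ε ι : Type*} [DecidableEq ε] {U : Finset ε} {w : ε → ℝ} (hw : Valid w)
    (s : Finset ι) (f : ι → Finset ε → ℝ) (hf : ∀ i, Antitone (f i)) (h0 : ∀ i ω, 0 ≤ f i ω) :
    ∏ i ∈ s, Ex U w (f i) ≤ Ex U w (fun ω => ∏ i ∈ s, f i ω) := by
  classical
  induction s using Finset.induction_on with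
  | empty => simp
  | insert a s ha ih =>
    simp only [prod_insert ha]
    have hanti : Antitone (fun ω => ∏ i ∈ s, f i ω) := fun x y hxy =>
      prod_le_prod (fun i _ => h0 i _) fun i _ => hf i hxy
    calc Ex U w (f a) * ∏ i ∈ s, Ex U w (f i)
        ≤ Ex U w (f a) * Ex U w (fun ω => ∏ i ∈ s, f i ω) :=
          mul_le_mul_of_nonneg_left ih (Ex_nonneg hw fun ω _ => h0 a ω)
      _ ≤ _ := harris_anti hw (hf a) hanti

lemma box_subset_box {d : ℕ} {v v' : Zd d} {n n' k : ℕ} (h : ∀ i, |v i - v' i| ≤ k)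
    (hk : n + k ≤ n') : box v n ⊆ box v' n' := by
  intro x hx
  rw [mem_box] at hx ⊢
  intro i
  have h1 := hx i
  have h2 := h i
  rw [abs_le] at h1 h2 ⊢
  constructor <;> omega

lemma Pr_universe {ε : Type*} [DecidableEq ε] {U U' : Finset ε} {w : ε → ℝ} (h : U' ⊆ U)
    (A : Finset ε → Prop) : Pr U w (fun ω => A (ω ∩ U')) = Pr U' w A :=
  Ex_universe h (fun ω => ind (A ω))

/-- the chance that no point of a large box is joined to the boundary of a larger box is small -/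
lemma box_to_sphere {d : ℕ} (hd : 1 ≤ d) {p : ℝ} (hp0 : 0 < p) (hp1 : p ≤ 1) (h : Perc d p)
    {δ : ℝ} (hδ : 0 < δ) :
    ∃ m : ℕ, ∀ n : ℕ, m ≤ n → Pr (edgesIn (box (0 : Zd d) n)) (fun _ => p)
      (fun ω => ¬ ∃ a ∈ box (0 : Zd d) m, ∃ b ∈ sphere (0 : Zd d) n, Conn ω a b) < δ := by
  classical
  obtain ⟨c, hc, hθ⟩ := h
  have hv : Valid (fun _ : Sym2 (Zd d) => p) := valid_const hp0.le hp1
  obtain ⟨N, hN⟩ := exists_pow_lt_of_lt_one (half_pos hδ) (show 1 - c < 1 by linarith)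
  have hbdd : BddBelow (Set.range (theta d p)) := ⟨c, by rintro _ ⟨n, rfl⟩; exact hθ n⟩
  set th := ⨅ n, theta d p n with hth
  have hth_le : ∀ n, th ≤ theta d p n := fun n => ciInf_le hbdd n
  obtain ⟨r, hr⟩ : ∃ r, theta d p r < th + δ / (2 * (N + 1)) :=
    exists_lt_of_ciInf_lt (lt_add_of_pos_right _ (by positivity))
  set i0 : Fin d := ⟨0, hd⟩
  set x : ℕ → Zd d := fun k => Pi.single i0 ((k * (2 * r + 1) : ℕ) : ℤ) with hx
  have hxabs : ∀ k < N, ∀ i, |x k i - (0 : Zd d) i| ≤ ((N * (2 * r + 1) : ℕ) : ℤ) := by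
    intro k hk i
    have : k * (2 * r + 1) ≤ N * (2 * r + 1) := Nat.mul_le_mul_right _ hk.le
    by_cases hi : i = i0
    · subst hi
      simp only [hx, Pi.single_eq_same, Pi.zero_apply, sub_zero]
      rw [abs_of_nonneg (by positivity)]; exact_mod_cast this
    · simp only [hx, Pi.single_eq_of_ne hi, Pi.zero_apply, sub_zero, abs_zero]; positivity
  refine ⟨N * (2 * r + 1) + r, fun n hn => ?_⟩
  set U := edgesIn (box (0 : Zd d) n) with hU
  set S : ℕ → Finset (Sym2 (Zd d)) := fun k => edgesIn (box (x k) r) with hS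
  set G : ℕ → Finset (Sym2 (Zd d)) → Prop := fun k ω => ∃ b ∈ sphere (x k) r, Conn ω (x k) b with hG
  set H : ℕ → Finset (Sym2 (Zd d)) → Prop :=
    fun k ω => ∃ b ∈ sphere (0 : Zd d) n, Conn ω (x k) b with hH
  have hSU : ∀ k < N, S k ⊆ U := fun k hk =>
    edgesIn_mono (box_subset_box (hxabs k hk) (by omega))
  have hGθ : ∀ k < N, Pr U (fun _ => p) (fun ω => G k (ω ∩ S k)) = theta d p r := by
    intro k hk
    rw [Pr_universe (hSU k hk) (G k)]
    exact theta_shift p (x k) r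
  have hHG : ∀ k < N, ∀ ω ⊆ U, H k ω → G k (ω ∩ S k) := by
    rintro k hk ω hω ⟨b, ⟨-, i, hi⟩, hc⟩
    refine exit_box (fun e he => isLat_of_mem_edgesIn (hω he)) (by simp [mem_box]) ⟨i, ?_⟩ hc
    have h1 := hxabs k hk i
    simp only [Pi.zero_apply, sub_zero] at h1 hi
    have hn' : ((N * (2 * r + 1) : ℕ) : ℤ) + r ≤ n := by exact_mod_cast hn
    rw [abs_le] at h1
    rcases abs_cases (b i) with h | h <;> rcases abs_cases (b i - x k i) with h' | h' <;> omega
  have hHθ : ∀ k < N, th ≤ Pr U (fun _ => p) (H k) := by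
    intro k hk
    refine (hth_le (2 * n)).trans ?_
    rw [← theta_shift p (x k) (2 * n)]
    have hsub : U ⊆ edgesIn (box (x k) (2 * n)) :=
      edgesIn_mono (box_subset_box (k := N * (2 * r + 1))
        (fun i => by rw [abs_sub_comm]; exact hxabs k hk i) (by omega))
    rw [← Pr_universe hsub (H k)]
    refine Pr_mono hv ?_
    rintro ω hω ⟨b, ⟨-, i, hi⟩, hc⟩
    refine exit_box (fun e he => isLat_of_mem_edgesIn (hω he)) ?_ ⟨i, ?_⟩ hc
    · rw [mem_box]; intro j
      have := hxabs k hk j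
      have hn' : ((N * (2 * r + 1) : ℕ) : ℤ) + r ≤ n := by exact_mod_cast hn
      omega
    · have h1 := hxabs k hk i
      simp only [Pi.zero_apply, sub_zero] at h1 ⊢
      have hn' : ((N * (2 * r + 1) : ℕ) : ℤ) + r ≤ n := by exact_mod_cast hn
      push_cast at hi
      rw [abs_le] at h1
      rcases abs_cases (b i) with h | h <;> rcases abs_cases (b i - x k i) with h' | h' <;> omega
  have hdisj : ((range N : Finset ℕ) : Set ℕ).PairwiseDisjoint S := by
    intro k _ k' _ hne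
    rw [Function.onFun, disjoint_left]
    intro e he he'
    induction e using Sym2.ind with
    | _ a b =>
      have h1 := mem_box.1 (mk_mem_edgesIn.1 he).1 i0
      have h2 := mem_box.1 (mk_mem_edgesIn.1 he').1 i0
      simp only [hx, Pi.single_eq_same] at h1 h2
      rw [abs_le] at h1 h2
      push_cast at h1 h2
      rcases lt_or_gt_of_ne hne with hlt | hlt
      · have : (k : ℤ) + 1 ≤ k' := by exact_mod_cast hlt
        nlinarith [h1.1, h1.2, h2.1, h2.2]
      · have : (k' : ℤ) + 1 ≤ k := by exact_mod_cast hlt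
        nlinarith [h1.1, h1.2, h2.1, h2.2]
  have hnoG : Pr U (fun _ => p) (fun ω => ∀ k ∈ range N, ¬ G k (ω ∩ S k)) ≤ (1 - c) ^ N := by
    unfold Pr
    simp only [ind_forall]
    rw [Ex_prod_indep (range N) S hdisj (fun k ω => ind (¬ G k ω))]
    calc ∏ k ∈ range N, Ex U (fun _ => p) (fun ω => ind (¬ G k (ω ∩ S k)))
        ≤ ∏ _k ∈ range N, (1 - c) := by
          refine prod_le_prod (fun k _ => Ex_nonneg hv fun _ _ => ind_nonneg _) fun k hk => ?_
          have := Pr_not (U := U) (w := fun _ => p) (fun ω => G k (ω ∩ S k))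
          rw [hGθ k (mem_range.1 hk)] at this
          unfold Pr at this
          rw [this]; linarith [hθ r]
      _ = _ := by simp
  have hGH : ∀ k ∈ range N, Pr U (fun _ => p) (fun ω => G k (ω ∩ S k) ∧ ¬ H k ω) ≤
      δ / (2 * (N + 1)) := by
    intro k hk
    have hk' := mem_range.1 hk
    have h1 := Pr_and_add_and_not (U := U) (w := fun _ => p) (fun ω => G k (ω ∩ S k)) (H k)
    have h2 : Pr U (fun _ => p) (H k) ≤ Pr U (fun _ => p) (fun ω => G k (ω ∩ S k) ∧ H k ω) :=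
      Pr_mono hv fun ω hω h => ⟨hHG k hk' ω hω h, h⟩
    rw [hGθ k hk'] at h1
    linarith [hHθ k hk']
  have hmain : Pr U (fun _ => p)
      (fun ω => ¬ ∃ a ∈ box (0 : Zd d) (N * (2 * r + 1) + r), ∃ b ∈ sphere (0 : Zd d) n, Conn ω a b) ≤
      Pr U (fun _ => p) (fun ω => ∀ k ∈ range N, ¬ G k (ω ∩ S k)) +
      Pr U (fun _ => p) (fun ω => ∃ k ∈ range N, G k (ω ∩ S k) ∧ ¬ H k ω) := by
    refine Pr_le_add hv fun ω _ hno => ?_
    by_cases hall : ∀ k ∈ range N, ¬ G k (ω ∩ S k)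
    · exact Or.inl hall
    · push Not at hall
      obtain ⟨k, hk, hg⟩ := hall
      refine Or.inr ⟨k, hk, hg, fun hh => hno ⟨x k, ?_, hh⟩⟩
      rw [mem_box]; intro j
      have := hxabs k (mem_range.1 hk) j
      push_cast at this ⊢
      omega
  have h3 := Pr_exists_le (U := U) hv (range N) (fun k ω => G k (ω ∩ S k) ∧ ¬ H k ω)
  have h4 : ∑ k ∈ range N, Pr U (fun _ => p) (fun ω => G k (ω ∩ S k) ∧ ¬ H k ω) ≤
      N * (δ / (2 * (N + 1))) := by
    calc _ ≤ ∑ _k ∈ range N, δ / (2 * (N + 1)) := sum_le_sum hGH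
      _ = _ := by simp
  have h5 : (N : ℝ) * (δ / (2 * (N + 1))) ≤ δ / 2 := by
    rw [← mul_div_assoc, div_le_div_iff₀ (by positivity) (by positivity)]
    nlinarith
  linarith

theorem basic_estimate {d : ℕ} (hd : 1 ≤ d) {p : ℝ} (hp0 : 0 < p) (hp1 : p ≤ 1) (h : Perc d p)
    {δ : ℝ} (hδ : 0 < δ) :
    ∃ m : ℕ, ∀ n : ℕ, m ≤ n → ∃ p' : ℝ, p / 2 ≤ p' ∧ p' < p ∧
      ∀ (v : Zd d) (i : Fin d) (σ : Fin d → ℤˣ), faceFail p' m n v i σ ≤ δ := by
  classical
  have hv : Valid (fun _ : Sym2 (Zd d) => p) := valid_const hp0.le hp1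
  set K := Fintype.card (Fin d × (Fin d → ℤˣ)) with hK
  obtain ⟨m, hm⟩ := box_to_sphere hd hp0 hp1 h (pow_pos hδ K)
  refine ⟨m, fun n hn => ?_⟩
  set i0 : Fin d := ⟨0, hd⟩
  have hq : faceFail p m n 0 i0 1 < δ := by
    have h1 := harris_anti_prod (U := edgesIn (box (0 : Zd d) n)) hv
      (univ : Finset (Fin d × (Fin d → ℤˣ)))
      (fun s ω => ind (¬ ∃ a ∈ box (0 : Zd d) m, ∃ b ∈ face (0 : Zd d) n s.1 s.2, Conn ω a b))
      (fun s ω ω' hω => ind_mono fun hno ⟨a, ha, b, hb, hc⟩ => hno ⟨a, ha, b, hb, hc.mono hω⟩)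
      (fun _ _ => ind_nonneg _)
    have h2 : ∏ s : Fin d × (Fin d → ℤˣ), Ex (edgesIn (box (0 : Zd d) n)) (fun _ => p)
        (fun ω => ind (¬ ∃ a ∈ box (0 : Zd d) m, ∃ b ∈ face (0 : Zd d) n s.1 s.2, Conn ω a b)) =
        faceFail p m n 0 i0 1 ^ K := by
      rw [prod_congr rfl (g := fun _ => faceFail p m n 0 i0 1)
        (fun s _ => faceFail_symm p m n 0 s.1 i0 s.2)]
      simp [hK]
    have h3 : Ex (edgesIn (box (0 : Zd d) n)) (fun _ => p) (fun ω => ∏ s : Fin d × (Fin d → ℤˣ),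
        ind (¬ ∃ a ∈ box (0 : Zd d) m, ∃ b ∈ face (0 : Zd d) n s.1 s.2, Conn ω a b)) ≤
        Pr (edgesIn (box (0 : Zd d) n)) (fun _ => p)
          (fun ω => ¬ ∃ a ∈ box (0 : Zd d) m, ∃ b ∈ sphere (0 : Zd d) n, Conn ω a b) := by
      refine Ex_mono hv fun ω _ => ?_
      rw [← ind_forall]
      refine ind_mono fun hall ⟨a, ha, b, ⟨hb, i, hi⟩, hc⟩ => ?_
      refine hall (i, fun j => if 0 ≤ b j then 1 else -1) (mem_univ _) ⟨a, ha, b, ?_, hc⟩
      have e : ∀ j, (((if 0 ≤ b j then 1 else -1 : ℤˣ) : ℤˣ) : ℤ) * (b j - (0 : Zd d) j) =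
          |b j - (0 : Zd d) j| := by
        intro j
        simp only [Pi.zero_apply, sub_zero]
        split_ifs with hj
        · simp [abs_of_nonneg hj]
        · simp [abs_of_neg (not_le.1 hj)]
      refine ⟨by simp only [e]; exact hi, fun j => ?_⟩
      simp only [e]
      exact ⟨abs_nonneg _, mem_box.1 hb j⟩
    rw [h2] at h1
    exact lt_of_pow_lt_pow_left₀ K hδ.le ((h1.trans h3).trans_lt (hm n hn))
  have hcont : Continuous fun t : ℝ => faceFail t m n 0 i0 1 := continuous_Ex_const _ _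
  obtain ⟨η, hη, hball⟩ := Metric.eventually_nhds_iff.1
    (hcont.continuousAt.eventually_lt (continuousAt_const (x := p) (y := δ)) hq)
  refine ⟨max (p / 2) (p - η / 2), le_max_left _ _, max_lt (by linarith) (by linarith),
    fun v i σ => ?_⟩
  rw [faceFail_symm _ m n v i i0 σ]
  refine (hball ?_).le
  rw [Real.dist_eq, abs_lt]
  have h1 := le_max_right (p / 2) (p - η / 2)
  have h2 : max (p / 2) (p - η / 2) < p := max_lt (by linarith) (by linarith)
  constructor <;> linarith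

end Vale.Agent.P151
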