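import Vale.Agent.P151.Main
import Vale.Agent.P151.Bridge

namespace Vale.Agent.P151

open MeasureTheory unitInterval

theorem pc_lt_one {d : ℕ} (hd : 2 ≤ d) : pc (latticeGraph d) < 1 := by
  obtain ⟨p, h0, h1, hp⟩ := perc_near_one hd
  have hm := measure_pos_of_perc d ⟨p, h0, h1.le⟩ hp
  have : pc (latticeGraph d) ≤ ⟨p, h0, h1.le⟩ := sInf_le hm
  exact lt_of_le_of_lt this (by exact_mod_cast h1)

theorem no_critical_percolation {d : ℕ} (hd : 2 ≤ d) :
    percMeasure (latticeGraph d) (pc (latticeGraph d)) (infEvent (Fin d → ℤ)) = 0 := by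
  by_contra hne
  have hpos : 0 < percMeasure (latticeGraph d) (pc (latticeGraph d)) (infEvent (Zd d)) :=
    pos_iff_ne_zero.2 hne
  have h0 : pc (latticeGraph d) ≠ 0 := fun h => hne (by rw [h]; exact percMeasure_zero d)
  have h0' : (0 : ℝ) < pc (latticeGraph d) :=
    lt_of_le_of_ne (pc (latticeGraph d)).2.1 (fun h => h0 (Subtype.ext h.symm))
  have h1 : ((pc (latticeGraph d) : I) : ℝ) < 1 := by exact_mod_cast pc_lt_one hd
  obtain ⟨p', hp0, hp1, hp⟩ := perc_step hd h0' h1 (perc_of_measure_pos d _ hpos)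
  have hm := measure_pos_of_perc d ⟨p', hp0, (hp1.trans h1).le⟩ hp
  have : pc (latticeGraph d) ≤ ⟨p', hp0, (hp1.trans h1).le⟩ := sInf_le hm
  exact absurd (show ((pc (latticeGraph d) : I) : ℝ) ≤ p' from this) (not_le.2 hp1)

end Vale.Agent.P151
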