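import Vale.Agent.P151.GlueA

/-! Part B: the gluing inequality (see notes/P151.md, section B). -/

namespace Vale.Agent.P151

open Finset Filter Topology

noncomputable section

variable {V : Type*} [DecidableEq V]

/-- additive set function with vertex weights `lam` -/
def Lam (F : Finset V) (lam : V → ℝ) (C : Set V) : ℝ := ∑ u ∈ F, lam u * ind (u ∈ C)

/-- sum over the clusters discovered along the list -/
def tail (F : Finset V) (lam : V → ℝ) (φ : Set V → ℝ) (ω : Finset (Sym2 V)) :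
    Set V → List V → ℝ
  | _, [] => 0
  | Z, d :: D => ind (d ∉ clS ω Z) * Lam F lam (cl ω d) * φ (cl ω d) +
      tail F lam φ ω (insert d Z) D

/-- mean of `Lam` of the cluster of `d` on the event that it avoids `Z` -/
def mean (U : Finset (Sym2 V)) (w : Sym2 V → ℝ) (F : Finset V) (lam : V → ℝ) (Z : Set V)
    (d : V) : ℝ := Ex U w fun ω => ind (d ∉ clS ω Z) * Lam F lam (cl ω d)

/-- all means along the list satisfy `P` -/
def Hyp (P : ℝ → Prop) (U : Finset (Sym2 V)) (w : Sym2 V → ℝ) (F : Finset V) (lam : V → ℝ) :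
    Set V → List V → Prop
  | _, [] => True
  | Z, d :: D => P (mean U w F lam Z d) ∧ Hyp P U w F lam (insert d Z) D

/-- unnormalised conditional covariance -/
def cov (U : Finset (Sym2 V)) (w : Sym2 V → ℝ) (F : Finset V) (lam : V → ℝ) (x : V) (Y : Set V)
    (g : Set V → ℝ) : ℝ :=
  Ex U w (fun ω => ind (x ∉ clS ω Y)) *
      Ex U w (fun ω => ind (x ∉ clS ω Y) * g (cl ω x) * Lam F lam (cl ω x)) -
    Ex U w (fun ω => ind (x ∉ clS ω Y) * g (cl ω x)) * mean U w F lam Y x

variable {U : Finset (Sym2 V)} {w : Sym2 V → ℝ} {F : Finset V} {lam : V → ℝ}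

omit [DecidableEq V] in
lemma tail_eq (φ : Set V → ℝ) (ω : Finset (Sym2 V)) (Z : Set V) (D : List V) :
    ∑ u ∈ F, lam u * ind (u ∈ clS ω Z) * φ (cl ω u) + tail F lam φ ω Z D =
      ∑ u ∈ F, lam u * ind (u ∈ clS ω (Z ∪ {v | v ∈ D})) * φ (cl ω u) := by
  induction D generalizing Z with
  | nil => simp [tail]
  | cons d D ih =>
    have e : Z ∪ {v | v ∈ d :: D} = insert d Z ∪ {v | v ∈ D} := by
      ext v; simp only [Set.mem_union, Set.mem_ofPred_eq, List.mem_cons, Set.mem_insert_iff]; tauto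
    rw [e, ← ih, tail, ← add_assoc]
    congr 1
    rw [Lam, mul_sum, sum_mul, ← sum_add_distrib]
    refine sum_congr rfl fun u _ => ?_
    rw [clS_insert]
    by_cases h1 : u ∈ cl ω d
    · rw [cl_eq_of_mem h1, ind_pos h1, ind_pos (Set.mem_union_left _ h1)]
      by_cases h2 : u ∈ clS ω Z
      · rw [ind_pos h2, ind_neg (not_not.2 (clS_step h2 (mem_cl.1 h1).symm))]; ring
      · rw [ind_neg h2, ind_pos fun h => h2 (clS_step h (mem_cl.1 h1))]; ring
    · rw [ind_neg h1, ind_congr (A := u ∈ cl ω d ∪ clS ω Z) (B := u ∈ clS ω Z) (by simp [h1])]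
      ring

lemma Ex_psi_tail {x : V} {Y : Set V} {g : Set V → ℝ} (D : List V) (Z : Set V)
    (hZ : insert x Y ⊆ Z) :
    Ex U w (fun ω => psi U w x Y g ω * tail F lam (fun _ => 1) ω Z D) =
      Ex U w (fun ω => tail F lam (phi U w x Y g) ω Z D) := by
  induction D generalizing Z with
  | nil => simp [tail]
  | cons d D ih =>
    simp only [tail, mul_add, Ex_add, ih (insert d Z) (hZ.trans (Set.subset_insert _ _))]
    rw [← Ex_psi_eq_phi hZ (Lam F lam)]
    congr 1
    exact Ex_congr fun ω _ => by ring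

lemma P_pos (hw : Valid w) (h1 : ∀ e, w e < 1) {d : V} {Z : Set V} (hd : d ∉ Z) :
    0 < Ex U w fun ω => ind (d ∉ clS ω Z) := by
  refine lt_of_lt_of_le ?_ (wt_empty_mul_le hw fun _ => ind_nonneg _)
  rw [clS_empty, ind_pos hd, mul_one]
  exact wt_empty_pos h1

omit [DecidableEq V] in
lemma abs_Lam_le (C : Set V) : |Lam F lam C| ≤ ∑ u ∈ F, |lam u| := by
  refine (abs_sum_le_sum_abs _ _).trans (sum_le_sum fun u _ => ?_)
  rw [abs_mul, abs_of_nonneg (ind_nonneg _)]
  exact mul_le_of_le_one_right (abs_nonneg _) (ind_le_one _)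

lemma cov_base (hw : Valid w) {x : V} {Y : Set V} {g : Set V → ℝ} {r : ℝ}
    (hr : ∀ C, 0 ≤ g C ∧ g C ≤ r) : -(r * (2 * ∑ u ∈ F, |lam u|)) ≤ cov U w F lam x Y g := by
  set L := ∑ u ∈ F, |lam u|
  have L0 : 0 ≤ L := sum_nonneg fun _ _ => abs_nonneg _
  have r0 : 0 ≤ r := (hr ∅).1.trans (hr ∅).2
  have e0 := Pr_nonneg (U := U) hw fun ω => x ∉ clS ω Y
  have e1 := Pr_le_one (U := U) hw fun ω => x ∉ clS ω Y
  have hig : ∀ ω, 0 ≤ ind (x ∉ clS ω Y) * g (cl ω x) ∧ ind (x ∉ clS ω Y) * g (cl ω x) ≤ r :=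
    fun ω => ⟨mul_nonneg (ind_nonneg _) (hr _).1,
      (mul_le_of_le_one_left (hr _).1 (ind_le_one _)).trans (hr _).2⟩
  have a1 : -(r * L) ≤ Ex U w (fun ω => ind (x ∉ clS ω Y) * g (cl ω x) * Lam F lam (cl ω x)) := by
    refine le_trans (by simp) (Ex_mono hw (f := fun _ => -(r * L)) fun ω _ => ?_)
    have := (abs_le.1 (abs_Lam_le (F := F) (lam := lam) (cl ω x))).1
    nlinarith [hig ω]
  have a2 : 0 ≤ Ex U w (fun ω => ind (x ∉ clS ω Y) * g (cl ω x)) :=
    Ex_nonneg hw fun ω _ => (hig ω).1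
  have a3 : Ex U w (fun ω => ind (x ∉ clS ω Y) * g (cl ω x)) ≤ r :=
    le_trans (Ex_mono hw (g := fun _ => r) fun ω _ => (hig ω).2) (by simp)
  have a4 : mean U w F lam Y x ≤ L := by
    refine le_trans (Ex_mono hw (g := fun _ => L) fun ω _ => ?_) (by simp)
    have := (abs_le.1 (abs_Lam_le (F := F) (lam := lam) (cl ω x))).2
    nlinarith [ind_nonneg (x ∉ clS ω Y), ind_le_one (x ∉ clS ω Y)]
  unfold cov
  unfold Pr at e0 e1
  have b1 := mul_le_mul_of_nonneg_left a1 e0
  have b2 := mul_le_mul_of_nonneg_left a4 a2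
  have b3 := mul_le_mul_of_nonneg_right a3 L0
  have b4 := mul_le_mul_of_nonneg_right e1 (mul_nonneg r0 L0)
  linarith

lemma cov_sub_const {x : V} {Y : Set V} (g : Set V → ℝ) (c : ℝ) :
    cov U w F lam x Y (fun C => g C - c) = cov U w F lam x Y g := by
  simp only [cov, mean, mul_sub, sub_mul, Ex_sub, Ex_mul_const]
  have : Ex U w (fun ω => ind (x ∉ clS ω Y) * c * Lam F lam (cl ω x)) =
      c * Ex U w (fun ω => ind (x ∉ clS ω Y) * Lam F lam (cl ω x)) := by
    rw [← Ex_const_mul]; exact Ex_congr fun ω _ => by ring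
  rw [this]; ring

lemma cov_step (hw : Valid w) {x : V} {Y : Set V} {D : List V} {g : Set V → ℝ}
    (hc : ∀ u ∈ F, lam u ≠ 0 → u = x ∨ u ∈ Y ∨ u ∈ D)
    (hT : 0 ≤ Ex U w fun ω => tail F lam (phi U w x Y g) ω (insert x Y) D) :
    cov U w F lam x Y (gibbs U w x Y g) ≤ cov U w F lam x Y g := by
  have h1 := Ex_g_eq_gbar (U := U) (w := w) (x := x) (Y := Y) (g := g) fun _ => 1
  have h2 := Ex_gbar_eq_gibbs (U := U) (w := w) (x := x) (Y := Y) (g := g) fun _ => 1
  have h3 := Ex_gbar_eq_gibbs (U := U) (w := w) (x := x) (Y := Y) (g := g) (Lam F lam)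
  have h4 := Ex_g_eq_gbar (U := U) (w := w) (x := x) (Y := Y) (g := g)
    fun K => ∑ u ∈ F, lam u - Lam F lam K
  simp only [mul_one] at h1 h2
  rw [← Ex_psi_tail D _ le_rfl] at hT
  have h5 : Ex U w (fun ω => psi U w x Y g ω * tail F lam (fun _ => 1) ω (insert x Y) D) =
      Ex U w (fun ω =>
        (ind (x ∉ clS ω Y) * gbar U w x g (clS ω Y) * (∑ u ∈ F, lam u - Lam F lam (clS ω Y)) -
        ind (x ∉ clS ω Y) * g (cl ω x) * (∑ u ∈ F, lam u - Lam F lam (clS ω Y))) +
        (ind (x ∉ clS ω Y) * g (cl ω x) * Lam F lam (cl ω x) -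
        ind (x ∉ clS ω Y) * gbar U w x g (clS ω Y) * Lam F lam (cl ω x))) := by
    refine Ex_congr fun ω _ => ?_
    by_cases hx : x ∉ clS ω Y
    · have t := tail_eq (F := F) (lam := lam) (fun _ => 1) ω (insert x Y) D
      have t1 : ∑ u ∈ F, lam u * ind (u ∈ clS ω (insert x Y ∪ {v | v ∈ D})) * 1 =
          ∑ u ∈ F, lam u := by
        refine sum_congr rfl fun u hu => ?_
        by_cases h0 : lam u = 0
        · simp [h0]
        · rw [ind_pos (subset_clS (by simpa [or_assoc] using hc u hu h0))]; ring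
      have t2 : ∑ u ∈ F, lam u * ind (u ∈ clS ω (insert x Y)) * 1 =
          Lam F lam (cl ω x) + Lam F lam (clS ω Y) := by
        rw [Lam, Lam, ← sum_add_distrib]
        refine sum_congr rfl fun u _ => ?_
        rw [clS_insert]
        by_cases h1 : u ∈ cl ω x
        · rw [ind_pos h1, ind_pos (Set.mem_union_left _ h1),
            ind_neg (Set.disjoint_left.1 (disjoint_cl_clS hx) h1)]; ring
        · rw [ind_neg h1, ind_congr (B := u ∈ clS ω Y) (by simp [h1])]; ring
      rw [t1, t2] at t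
      rw [psi, eq_sub_of_add_eq' t]; ring
    · simp [psi, ind_neg hx]
  rw [h5, Ex_add, Ex_sub, Ex_sub, h4, sub_self, zero_add, h3] at hT
  unfold cov
  rw [h1, h2]
  have e0 := Pr_nonneg (U := U) hw fun ω => x ∉ clS ω Y
  have := mul_nonneg e0 hT
  unfold Pr at this
  linarith

/-- conditional positive correlation, given the positivity of the tail sums -/
lemma cov_nonneg_of_tail (hw : Valid w) (h1 : ∀ e, w e < 1) {x : V} {Y : Set V} {D : List V}
    (hc : ∀ u ∈ F, lam u ≠ 0 → u = x ∨ u ∈ Y ∨ u ∈ D)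
    (hT : ∀ (φ : Set V → ℝ) (r : ℝ), Monotone φ → (∀ C, 0 ≤ φ C ∧ φ C ≤ r) →
      0 ≤ Ex U w fun ω => tail F lam φ ω (insert x Y) D)
    {g : Set V → ℝ} {r : ℝ} (hg : Monotone g) (hr : ∀ C, 0 ≤ g C ∧ g C ≤ r) :
    0 ≤ cov U w F lam x Y g := by
  set η := wt U w ∅
  have η0 : 0 < η := wt_empty_pos h1
  have η1 : η ≤ 1 := by
    simpa using wt_empty_mul_le (U := U) hw (f := fun _ => 1) fun _ => zero_le_one
  set M := 2 * ∑ u ∈ F, |lam u|
  have main : ∀ n : ℕ, ∀ (g : Set V → ℝ) (r : ℝ), Monotone g → (∀ C, 0 ≤ g C ∧ g C ≤ r) →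
      -(r * M * (1 - η) ^ n) ≤ cov U w F lam x Y g := by
    intro n
    induction n with
    | zero => intro g r _ hr; simpa using cov_base hw hr
    | succ n ih =>
      intro g r hg hr
      have a1 := cov_step hw hc (hT _ r (phi_mono hw hg) (phi_mem hw hg hr))
      have a2 := ih (fun C => gibbs U w x Y g C - η * gbar U w x g Y) (r * (1 - η))
        (fun _ _ h => sub_le_sub_right (gibbs_mono hw hg h) _) (gibbs_mem hw hr)
      rw [cov_sub_const] at a2
      calc -(r * M * (1 - η) ^ (n + 1)) = -(r * (1 - η) * M * (1 - η) ^ n) := by ring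
        _ ≤ _ := a2.trans a1
  have lim : Tendsto (fun n : ℕ => -(r * M * (1 - η) ^ n)) atTop (𝓝 0) := by
    simpa using ((tendsto_pow_atTop_nhds_zero_of_lt_one (r := 1 - η) (by linarith)
      (by linarith)).const_mul (r * M)).neg
  exact le_of_tendsto' lim fun n => main n g r hg hr

lemma term_nonneg (hw : Valid w) (h1 : ∀ e, w e < 1) {d : V} {Z : Set V} {φ : Set V → ℝ}
    (h0 : ∀ C, 0 ≤ φ C) (hcov : 0 ≤ cov U w F lam d Z φ) (hm : 0 ≤ mean U w F lam Z d) :
    0 ≤ Ex U w fun ω => ind (d ∉ clS ω Z) * Lam F lam (cl ω d) * φ (cl ω d) := by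
  by_cases hd : d ∈ Z
  · exact Ex_nonneg hw fun ω _ => by rw [ind_neg (not_not.2 (subset_clS hd))]; simp
  have p := P_pos (U := U) hw h1 hd
  have a : 0 ≤ Ex U w (fun ω => ind (d ∉ clS ω Z) * φ (cl ω d)) :=
    Ex_nonneg hw fun ω _ => mul_nonneg (ind_nonneg _) (h0 _)
  have b := mul_nonneg a hm
  unfold cov at hcov
  rw [Ex_congr (g := fun ω => ind (d ∉ clS ω Z) * φ (cl ω d) * Lam F lam (cl ω d))
    fun ω _ => by ring]
  exact nonneg_of_mul_nonneg_right (by linarith) p |> fun h => h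

lemma tail_nonneg (hw : Valid w) (h1 : ∀ e, w e < 1) (D : List V) (Z : Set V)
    (hc : ∀ u ∈ F, lam u ≠ 0 → u ∈ Z ∨ u ∈ D) (hH : Hyp (0 ≤ ·) U w F lam Z D)
    (φ : Set V → ℝ) (r : ℝ) (hφ : Monotone φ) (hr : ∀ C, 0 ≤ φ C ∧ φ C ≤ r) :
    0 ≤ Ex U w fun ω => tail F lam φ ω Z D := by
  induction D generalizing Z φ r with
  | nil => simp [tail]
  | cons d D ih =>
    have hc' : ∀ u ∈ F, lam u ≠ 0 → u ∈ insert d Z ∨ u ∈ D := fun u hu h0 => by
      have := hc u hu h0
      simp only [List.mem_cons, Set.mem_insert_iff] at this ⊢; tauto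
    simp only [tail, Ex_add]
    refine add_nonneg (term_nonneg hw h1 (fun C => (hr C).1) ?_ hH.1) (ih _ hc' hH.2 φ r hφ hr)
    exact cov_nonneg_of_tail hw h1 (D := D) (fun u hu h0 => by simpa [or_assoc] using hc' u hu h0)
      (ih _ hc' hH.2) hφ hr

theorem cov_nonneg (hw : Valid w) (h1 : ∀ e, w e < 1) {x : V} {Y : Set V} {D : List V}
    (hc : ∀ u ∈ F, lam u ≠ 0 → u = x ∨ u ∈ Y ∨ u ∈ D) (hH : Hyp (0 ≤ ·) U w F lam (insert x Y) D)
    {g : Set V → ℝ} {r : ℝ} (hg : Monotone g) (hr : ∀ C, 0 ≤ g C ∧ g C ≤ r) :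
    0 ≤ cov U w F lam x Y g :=
  cov_nonneg_of_tail hw h1 hc
    (tail_nonneg hw h1 D _ (fun u hu h0 => by simpa [or_assoc] using hc u hu h0) hH) hg hr

lemma tail_prefix_nonneg (hw : Valid w) (h1 : ∀ e, w e < 1) (D D2 : List V) (Z : Set V)
    (hc : ∀ u ∈ F, lam u ≠ 0 → u ∈ Z ∨ u ∈ D ++ D2) (hH : Hyp (0 ≤ ·) U w F lam Z (D ++ D2))
    (φ : Set V → ℝ) (r : ℝ) (hφ : Monotone φ) (hr : ∀ C, 0 ≤ φ C ∧ φ C ≤ r) :
    0 ≤ Ex U w fun ω => tail F lam φ ω Z D := by
  induction D generalizing Z with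
  | nil => simp [tail]
  | cons d D ih =>
    have hc' : ∀ u ∈ F, lam u ≠ 0 → u ∈ insert d Z ∨ u ∈ D ++ D2 := fun u hu h0 => by
      have := hc u hu h0
      simp only [List.cons_append, List.mem_cons, Set.mem_insert_iff] at this ⊢; tauto
    simp only [tail, Ex_add]
    refine add_nonneg (term_nonneg hw h1 (fun C => (hr C).1) ?_ hH.1) (ih _ hc' hH.2)
    exact cov_nonneg hw h1 (D := D ++ D2)
      (fun u hu h0 => by simpa only [Set.mem_insert_iff, or_assoc] using hc' u hu h0) hH.2 hφ hr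

theorem mean_nonneg (hw : Valid w) (h1 : ∀ e, w e < 1) {x : V} (D : List V) (Y : Set V)
    (hx : x ∉ D) (hc : ∀ u ∈ F, lam u ≠ 0 → u ∈ Y ∨ u ∈ D)
    (hH : Hyp (0 ≤ ·) U w F lam (insert x Y) D) : 0 ≤ mean U w F lam Y x := by
  induction D generalizing Y with
  | nil =>
    refine Ex_nonneg hw fun ω _ => ?_
    by_cases h : x ∉ clS ω Y
    · rw [Lam, sum_eq_zero, mul_zero]
      intro u hu
      by_cases h0 : lam u = 0
      · simp [h0]
      · rw [ind_neg, mul_zero]
        exact Set.disjoint_right.1 (notMem_clS_iff.1 h) (by simpa using hc u hu h0)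
    · simp [ind_neg h]
  | cons d D ih =>
    have hxd : x ≠ d := fun h => hx (by simp [h])
    have hH2 : Hyp (0 ≤ ·) U w F lam (insert x (insert d Y)) D := by
      rw [Set.insert_comm]; exact hH.2
    have hc' : ∀ u ∈ F, lam u ≠ 0 → u ∈ insert d Y ∨ u ∈ D := fun u hu h0 => by
      have := hc u hu h0
      simp only [List.mem_cons, Set.mem_insert_iff] at this ⊢; tauto
    have r1 := ih (insert d Y) (fun h => hx (by simp [h])) hc' hH2
    set a := Ex U w fun ω => ind (d ∉ clS ω Y) * ind (x ∈ cl ω d) * Lam F lam (cl ω d) with ha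
    have e1 : mean U w F lam Y x = mean U w F lam (insert d Y) x + a := by
      rw [mean, mean, ha, ← Ex_add]
      refine Ex_congr fun ω _ => ?_
      rw [clS_insert]
      by_cases h : x ∈ cl ω d
      · rw [cl_eq_of_mem h, ind_pos h, ind_neg (not_not.2 (Set.mem_union_left _ h)),
          ind_congr (A := x ∉ clS ω Y) (B := d ∉ clS ω Y) (not_congr
            ⟨fun h' => clS_step h' (mem_cl.1 h).symm, fun h' => clS_step h' (mem_cl.1 h)⟩)]
        ring
      · rw [ind_neg h, ind_congr (A := x ∉ cl ω d ∪ clS ω Y) (B := x ∉ clS ω Y) (by simp [h])]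
        ring
    rw [e1]
    refine add_nonneg r1 ?_
    by_cases hd : d ∈ Y
    · exact Ex_nonneg hw fun ω _ => by rw [ind_neg (not_not.2 (subset_clS hd))]; simp
    have hcov := cov_nonneg (U := U) (F := F) (lam := lam) hw h1 (x := d) (Y := Y) (D := x :: D)
      (fun u hu h0 => by
        have := hc' u hu h0
        simp only [List.mem_cons, Set.mem_insert_iff] at this ⊢; tauto) ⟨r1, hH2⟩
      (g := fun C => ind (x ∈ C)) (r := 1) (fun _ _ h => ind_mono fun h' => h h')
      fun _ => ⟨ind_nonneg _, ind_le_one _⟩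
    have hi : ∀ ω : Finset (Sym2 V), ind (d ∉ clS ω Y) =
        ind (d ∉ clS ω Y) * ind (x ∈ cl ω d) + ind (d ∉ clS ω (insert x Y)) := by
      intro ω
      rw [clS_insert]
      by_cases h : x ∈ cl ω d
      · rw [ind_pos h, ind_neg (A := d ∉ cl ω x ∪ clS ω Y)
          (not_not.2 (Set.mem_union_left _ (mem_cl.2 (mem_cl.1 h).symm)))]; ring
      · have h' : d ∉ cl ω x := fun h' => h (mem_cl.2 (mem_cl.1 h').symm)
        rw [ind_neg h, ind_congr (A := d ∉ cl ω x ∪ clS ω Y) (B := d ∉ clS ω Y) (by simp [h'])]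
        ring
    set q := Ex U w fun ω => ind (d ∉ clS ω Y) * ind (x ∈ cl ω d) with hq
    have q0 : 0 ≤ q := Ex_nonneg hw fun ω _ => mul_nonneg (ind_nonneg _) (ind_nonneg _)
    have q1 := P_pos (U := U) hw h1 (d := d) (Z := insert x Y) (by simp [hxd.symm, hd])
    have e2 : Ex U w (fun ω => ind (d ∉ clS ω Y)) =
        q + Ex U w fun ω => ind (d ∉ clS ω (insert x Y)) := by
      rw [hq, ← Ex_add]; exact Ex_congr fun ω _ => hi ω
    have e3 : mean U w F lam Y d = a + mean U w F lam (insert x Y) d := by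
      rw [mean, mean, ha, ← Ex_add]
      exact Ex_congr fun ω _ => by rw [← add_mul, ← hi ω]
    unfold cov at hcov
    rw [e2, e3, ← ha, ← hq] at hcov
    have := mul_nonneg q0 hH.1
    exact nonneg_of_mul_nonneg_right (by linarith) q1 |> fun h => h

lemma mean_congr {lam' : V → ℝ} {Z : Set V} (h : ∀ u, u ∉ Z → lam u = lam' u) (d : V) :
    mean U w F lam Z d = mean U w F lam' Z d := by
  refine Ex_congr fun ω _ => ?_
  by_cases hd : d ∉ clS ω Z
  · congr 1
    refine sum_congr rfl fun u _ => ?_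
    by_cases hu : u ∈ cl ω d
    · rw [h u (Set.disjoint_left.1 (notMem_clS_iff.1 hd) hu)]
    · simp [ind_neg hu]
  · simp [ind_neg hd]

lemma Hyp.congr {P : ℝ → Prop} {lam' : V → ℝ} {D : List V} {Z : Set V}
    (h : ∀ u, u ∉ Z → lam u = lam' u) (hH : Hyp P U w F lam Z D) : Hyp P U w F lam' Z D := by
  induction D generalizing Z with
  | nil => trivial
  | cons d D ih =>
    exact ⟨mean_congr h d ▸ hH.1, ih (fun u hu => h u fun h' => hu (Set.mem_insert_of_mem _ h'))
      hH.2⟩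

lemma exists_lam (hw : Valid w) (h1 : ∀ e, w e < 1) (o : V) (D : List V) (Z : Set V)
    (hD : D.Nodup) (ho : o ∉ D) (hF : ∀ u ∈ D, u ∈ F ∧ u ∉ Z) :
    ∃ lam : V → ℝ, lam o = 1 ∧ (∀ u, u ≠ o → lam u ≤ 0) ∧ (∀ u, lam u ≠ 0 → u ∈ D ++ [o]) ∧
      Hyp (· = 0) U w F lam Z D ∧ Hyp (0 ≤ ·) U w F lam Z (D ++ [o]) := by
  induction D generalizing Z with
  | nil =>
    refine ⟨Pi.single o 1, by simp, fun u hu => by simp [hu], fun u hu => ?_, trivial, ?_, trivial⟩
    · by_contra h; exact hu (Pi.single_eq_of_ne (by simpa using h) _)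
    · refine Ex_nonneg hw fun ω _ => mul_nonneg (ind_nonneg _) (sum_nonneg fun u _ =>
        mul_nonneg ?_ (ind_nonneg _))
      by_cases h : u = o <;> simp [h]
  | cons d D ih =>
    obtain ⟨hd, hD'⟩ := List.nodup_cons.1 hD
    have hod : o ≠ d := fun h => ho (by simp [h])
    obtain ⟨lam, l1, l2, l3, l4, l5⟩ := ih (insert d Z) hD' (fun h => ho (by simp [h]))
      fun u hu => ⟨(hF u (by simp [hu])).1, by
        rintro (rfl | h)
        · exact hd hu
        · exact (hF u (by simp [hu])).2 h⟩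
    have hd' : d ∉ D ++ [o] := by simp [hd, hod.symm]
    have ld : lam d = 0 := by by_contra h; exact hd' (l3 d h)
    have r0 := mean_nonneg hw h1 (D ++ [o]) Z hd' (fun u _ h => Or.inr (l3 u h)) l5
    have p := P_pos (U := U) hw h1 (hF d (by simp)).2
    set c := -mean U w F lam Z d / Ex U w fun ω => ind (d ∉ clS ω Z) with hc
    have hag : ∀ u, u ∉ insert d Z → lam u = Function.update lam d c u := fun u hu =>
      (Function.update_of_ne (fun h => hu (by simp [h])) _ _).symm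
    have hm : mean U w F (Function.update lam d c) Z d = 0 := by
      have : mean U w F (Function.update lam d c) Z d =
          mean U w F lam Z d + c * Ex U w fun ω => ind (d ∉ clS ω Z) := by
        rw [mean, mean, ← Ex_const_mul, ← Ex_add]
        refine Ex_congr fun ω _ => ?_
        have : Lam F (Function.update lam d c) (cl ω d) = Lam F lam (cl ω d) + c := by
          rw [Lam, Lam, ← add_sum_erase _ _ (hF d (by simp)).1,
            ← add_sum_erase _ _ (hF d (by simp)).1, Function.update_self, ld,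
            ind_pos self_mem_cl, sum_congr rfl (g := fun u => lam u * ind (u ∈ cl ω d))
              fun u hu => by rw [Function.update_of_ne (ne_of_mem_erase hu)]]
          ring
        rw [this]; ring
      rw [this, hc]; field_simp; ring
    refine ⟨Function.update lam d c, by rw [Function.update_of_ne hod, l1], fun u hu => ?_,
      fun u hu => ?_, ⟨hm, l4.congr hag⟩, ⟨hm.ge, l5.congr hag⟩⟩
    · by_cases h : u = d
      · rw [h, Function.update_self, hc]
        exact div_nonpos_of_nonpos_of_nonneg (by linarith) p.le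
      · rw [Function.update_of_ne h]; exact l2 u hu
    · by_cases h : u = d
      · simp [h]
      · rw [Function.update_of_ne h] at hu
        exact List.mem_cons_of_mem _ (l3 u hu)

lemma tail_one_zero (D : List V) (Z : Set V) (hH : Hyp (· = 0) U w F lam Z D) :
    (Ex U w fun ω => tail F lam (fun _ => 1) ω Z D) = 0 := by
  induction D generalizing Z with
  | nil => simp [tail]
  | cons d D ih =>
    simp only [tail, Ex_add, mul_one, ih _ hH.2, add_zero]
    exact hH.1

theorem gluing_lt (hw : Valid w) (h1 : ∀ e, w e < 1) (o : V) (A : Finset V)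
    (T : Set V) (t : ℝ) (ht0 : 0 ≤ t)
    (ht : ∀ a ∈ A, Pr U w (fun ω => ¬ ∃ b ∈ T, Conn ω a b) ≤ t) :
    Pr U w (fun ω => (∃ a ∈ A, Conn ω o a) ∧ ¬ ∃ b ∈ T, Conn ω o b) ≤ t := by
  by_cases ho : o ∈ A
  · exact (Pr_mono hw fun ω _ h => h.2).trans (ht o ho)
  obtain ⟨lam, l1, l2, l3, l4, l5⟩ := exists_lam (U := U) (F := insert o A) hw h1 o A.toList ∅
    (nodup_toList A) (by simpa using ho) (fun u hu => ⟨by simp at hu; simp [hu], by simp⟩)
  let f : Set V → ℝ := fun C => ind (∃ b ∈ T, b ∈ C)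
  have t1 := tail_prefix_nonneg hw h1 A.toList [o] ∅ (fun u _ h => Or.inr (l3 u h)) l5 f 1
    (fun _ _ h => ind_mono fun ⟨b, hb, hc⟩ => ⟨b, hb, h hc⟩) fun _ => ⟨ind_nonneg _, ind_le_one _⟩
  have t2 := tail_one_zero A.toList ∅ l4
  have e : ∀ (φ : Set V → ℝ) ω, tail (insert o A) lam φ ω ∅ A.toList =
      ind (∃ a ∈ A, Conn ω o a) * φ (cl ω o) + ∑ a ∈ A, lam a * φ (cl ω a) := by
    intro φ ω
    have := tail_eq (F := insert o A) (lam := lam) φ ω ∅ A.toList
    rw [sum_eq_zero (fun u _ => by rw [ind_neg (by simp [clS])]; simp), zero_add] at this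
    rw [this, sum_insert ho, l1, one_mul]
    congr 1
    · congr 1
      exact ind_congr ⟨fun ⟨a, ha, hc⟩ => ⟨a, by simpa using ha, hc.symm⟩,
        fun ⟨a, ha, hc⟩ => ⟨a, by simpa using ha, hc.symm⟩⟩
    · exact sum_congr rfl fun a ha => by rw [ind_pos (subset_clS (by simpa using ha)), mul_one]
  simp only [e, Ex_add, Ex_sum, Ex_const_mul, mul_one, Ex_const] at t1 t2
  have t3 : ∑ a ∈ A, lam a * Ex U w (fun ω => f (cl ω a)) ≤ ∑ a ∈ A, lam a * (1 - t) := by
    refine sum_le_sum fun a ha => mul_le_mul_of_nonpos_left ?_ (l2 a fun h => ho (h ▸ ha))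
    have := ht a ha
    rw [Pr_not] at this
    simp only [f, mem_cl]
    unfold Pr at this
    linarith
  rw [← sum_mul] at t3
  have t4 := Pr_and_add_and_not (U := U) (w := w) (fun ω => ∃ a ∈ A, Conn ω o a)
    fun ω => ∃ b ∈ T, Conn ω o b
  have t5 : Pr U w (fun ω => (∃ a ∈ A, Conn ω o a) ∧ ∃ b ∈ T, Conn ω o b) =
      Ex U w fun ω => ind (∃ a ∈ A, Conn ω o a) * f (cl ω o) := by
    simp only [Pr, ind_and, f, mem_cl]
  have t6 := Pr_le_one (U := U) hw fun ω => ∃ a ∈ A, Conn ω o a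
  have t7 : ∑ a ∈ A, lam a = - Pr U w fun ω => ∃ a ∈ A, Conn ω o a := by
    unfold Pr; linarith
  rw [t7] at t3
  nlinarith

/-- Gluing inequality on an arbitrary finite weighted graph. -/
theorem gluing (U : Finset (Sym2 V)) (w : Sym2 V → ℝ) (hw : Valid w) (o : V) (A : Finset V)
    (T : Set V) (t : ℝ) (ht0 : 0 ≤ t)
    (ht : ∀ a ∈ A, Pr U w (fun ω => ¬ ∃ b ∈ T, Conn ω a b) ≤ t) :
    Pr U w (fun ω => (∃ a ∈ A, Conn ω o a) ∧ ¬ ∃ b ∈ T, Conn ω o b) ≤ t := by
  refine le_of_forall_pos_le_add fun η hη => ?_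
  have lim : ∀ B : Finset (Sym2 V) → Prop,
      Tendsto (fun s : ℝ => Pr U (fun e => s * w e) B) (𝓝[<] 1) (𝓝 (Pr U w B)) := by
    intro B
    have := ((continuous_Ex U w fun ω => ind (B ω)).tendsto 1).mono_left
      (nhdsWithin_le_nhds (s := Set.Iio 1))
    simpa [Pr] using this
  refine le_of_tendsto (lim _) ?_
  have ev : ∀ᶠ s : ℝ in 𝓝[<] 1, ∀ a ∈ A,
      Pr U (fun e => s * w e) (fun ω => ¬ ∃ b ∈ T, Conn ω a b) < t + η :=
    (eventually_all_finset A).2 fun a ha =>
      (lim _).eventually (gt_mem_nhds (by linarith [ht a ha]))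
  filter_upwards [ev, Ioo_mem_nhdsLT (zero_lt_one' ℝ)] with s hs hs'
  have hlt : ∀ e, s * w e < 1 := fun e =>
    lt_of_le_of_lt (mul_le_of_le_one_right hs'.1.le (hw e).2) hs'.2
  exact gluing_lt (fun e => ⟨mul_nonneg hs'.1.le (hw e).1, (hlt e).le⟩) hlt o A T _
    (by linarith) fun a ha => (hs a ha).le

end

end Vale.Agent.P151
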