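import Vale.Agent.P151.Basic

/-! Part B, first half: clusters, vertex deletion and the Markov property at a cluster. -/

namespace Vale.Agent.P151

open Finset

noncomputable section

variable {V : Type*} [DecidableEq V]

/-- union of the clusters of the vertices of `Y` -/
def clS (ω : Finset (Sym2 V)) (Y : Set V) : Set V := {y | ∃ x ∈ Y, Conn ω x y}

/-- the cluster of `x` -/
def cl (ω : Finset (Sym2 V)) (x : V) : Set V := clS ω {x}

open Classical in
/-- delete all edges with an endpoint in `K` -/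
def del (K : Set V) (ω : Finset (Sym2 V)) : Finset (Sym2 V) := ω.filter fun e => ∀ v ∈ e, v ∉ K

open Classical in
/-- edges of `U` with an endpoint in `K` -/
def touch (U : Finset (Sym2 V)) (K : Set V) : Finset (Sym2 V) := U.filter fun e => ∃ v ∈ e, v ∈ K

omit [DecidableEq V] in
lemma mem_del {K : Set V} {ω : Finset (Sym2 V)} {e : Sym2 V} :
    e ∈ del K ω ↔ e ∈ ω ∧ ∀ v ∈ e, v ∉ K := by simp only [del, mem_filter]

omit [DecidableEq V] in
lemma mem_touch {K : Set V} {U : Finset (Sym2 V)} {e : Sym2 V} :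
    e ∈ touch U K ↔ e ∈ U ∧ ∃ v ∈ e, v ∈ K := by simp only [touch, mem_filter]

section
omit [DecidableEq V]
variable {ω ω' : Finset (Sym2 V)} {X Y K K' : Set V} {x y : V}

lemma mem_cl : y ∈ cl ω x ↔ Conn ω x y := by simp [cl, clS]

lemma self_mem_cl : x ∈ cl ω x := mem_cl.2 (Conn.refl _ _)

lemma subset_clS : Y ⊆ clS ω Y := fun y hy => ⟨y, hy, Conn.refl _ _⟩

lemma clS_mono (h : ω ⊆ ω') (Y : Set V) : clS ω Y ⊆ clS ω' Y :=
  fun _ ⟨x, hx, hc⟩ => ⟨x, hx, hc.mono h⟩

lemma clS_mono_set (h : X ⊆ Y) : clS ω X ⊆ clS ω Y := fun _ ⟨x, hx, hc⟩ => ⟨x, h hx, hc⟩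

lemma cl_mono (h : ω ⊆ ω') (x : V) : cl ω x ⊆ cl ω' x := clS_mono h _

lemma del_subset : del K ω ⊆ ω := fun _ he => (mem_del.1 he).1

lemma del_anti (h : K ⊆ K') : del K' ω ⊆ del K ω := fun _ he =>
  mem_del.2 ⟨(mem_del.1 he).1, fun v hv hK => (mem_del.1 he).2 v hv (h hK)⟩

lemma del_mono (h : ω ⊆ ω') : del K ω ⊆ del K ω' := fun _ he =>
  mem_del.2 ⟨h (mem_del.1 he).1, (mem_del.1 he).2⟩

lemma del_empty_set : del (∅ : Set V) ω = ω := by ext e; simp [mem_del]

lemma clS_del_empty : clS (del K (∅ : Finset (Sym2 V))) Y = Y := by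
  refine Set.Subset.antisymm ?_ subset_clS
  rintro y ⟨x, hx, hc⟩
  exact Conn.induction (P := fun y => y ∈ Y) hx (fun a b _ _ h _ => by simp [mem_del] at h) hc

lemma clS_empty : clS (∅ : Finset (Sym2 V)) Y = Y := by
  simpa [del_empty_set] using clS_del_empty (K := (∅ : Set V)) (Y := Y)

lemma clS_step {a b : V} (ha : a ∈ clS ω Y) (h : Conn ω a b) : b ∈ clS ω Y := by
  obtain ⟨x, hx, hc⟩ := ha
  exact ⟨x, hx, hc.trans h⟩

lemma cl_eq_of_mem (h : y ∈ cl ω x) : cl ω y = cl ω x := by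
  ext z
  rw [mem_cl] at h
  simp only [mem_cl]
  exact ⟨fun h' => h.trans h', fun h' => h.symm.trans h'⟩

lemma notMem_clS_iff : x ∉ clS ω Y ↔ Disjoint (cl ω x) Y := by
  rw [Set.disjoint_left]
  exact ⟨fun h y hy hY => h ⟨y, hY, (mem_cl.1 hy).symm⟩,
    fun h ⟨y, hY, hc⟩ => h (mem_cl.2 hc.symm) hY⟩

lemma disjoint_cl_clS (h : x ∉ clS ω Y) : Disjoint (cl ω x) (clS ω Y) := by
  rw [Set.disjoint_left]
  exact fun y hy hY => h (clS_step hY (mem_cl.1 hy).symm)

lemma clS_insert : clS ω (insert x Y) = cl ω x ∪ clS ω Y := by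
  ext z; simp [clS, cl]

lemma clS_del_of_disjoint (h : Disjoint (clS ω X) K) : clS (del K ω) X = clS ω X := by
  refine Set.Subset.antisymm (clS_mono del_subset _) ?_
  rintro y ⟨x, hx, hc⟩
  refine ⟨x, hx, Conn.induction (P := fun y => Conn (del K ω) x y) (Conn.refl _ _) ?_ hc⟩
  intro a b ha ih hab _
  refine ih.trans (Conn.of_mem (mem_del.2 ⟨hab, fun v hv => ?_⟩))
  rcases Sym2.mem_iff.1 hv with rfl | rfl
  · exact Set.disjoint_left.1 h ⟨x, hx, ha⟩
  · exact Set.disjoint_left.1 h ⟨x, hx, ha.trans (Conn.of_mem hab)⟩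

end

variable {U : Finset (Sym2 V)} {w : Sym2 V → ℝ}

lemma clS_del_stop (W Y : Set V) {a a' : Finset (Sym2 V)} (ha : a ⊆ U) (ha' : a' ⊆ U)
    (h : a' ∩ touch U (clS (del W a) Y) = a ∩ touch U (clS (del W a) Y)) :
    clS (del W a') Y = clS (del W a) Y := by
  have key : ∀ u v, u ∈ clS (del W a) Y → (s(u, v) ∈ del W a' ↔ s(u, v) ∈ del W a) := by
    intro u v hu
    simp only [mem_del]
    refine and_congr_left fun _ => ⟨fun h1 => ?_, fun h1 => ?_⟩
    · have : s(u, v) ∈ a' ∩ touch U (clS (del W a) Y) :=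
        mem_inter.2 ⟨h1, mem_touch.2 ⟨ha' h1, u, by simp, hu⟩⟩
      rw [h] at this; exact (mem_inter.1 this).1
    · have : s(u, v) ∈ a ∩ touch U (clS (del W a) Y) :=
        mem_inter.2 ⟨h1, mem_touch.2 ⟨ha h1, u, by simp, hu⟩⟩
      rw [← h] at this; exact (mem_inter.1 this).1
  refine Set.Subset.antisymm ?_ ?_
  · rintro y ⟨x, hx, hc⟩
    exact Conn.induction (P := fun y => y ∈ clS (del W a) Y) (subset_clS hx)
      (fun u v _ hu huv _ => clS_step hu (Conn.of_mem ((key u v hu).1 huv))) hc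
  · rintro y ⟨x, hx, hc⟩
    exact ⟨x, hx, Conn.induction (P := fun y => Conn (del W a') x y) (Conn.refl _ _)
      (fun u v hu ih huv _ => ih.trans (Conn.of_mem ((key u v ⟨x, hx, hu⟩).2 huv))) hc⟩

/-- Markov property at the cluster of `Y` in the graph with `W` deleted -/
lemma Ex_cluster (W Y : Set V) (F : Set V → Finset (Sym2 V) → ℝ) :
    Ex U w (fun a => F (clS (del W a) Y) (del (clS (del W a) Y) a)) =
      Ex U w (fun a => Ex U w (fun b => F (clS (del W a) Y) (del (clS (del W a) Y) b))) := by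
  rw [Ex_stop (fun a => touch U (clS (del W (a ∩ U)) Y))]
  · refine Ex_congr fun a ha => Ex_congr fun b hb => ?_
    rw [inter_eq_left.2 ha, clS_del_stop W Y ha (splice_subset ha hb) (splice_inter _ _ _)]
    congr 1
    ext e
    simp only [mem_del, mem_splice, mem_touch]
    constructor
    · rintro ⟨h1 | h1, h2⟩
      · obtain ⟨v, hv, hK⟩ := h1.2.2
        exact absurd hK (h2 v hv)
      · exact ⟨h1.1, h2⟩
    · rintro ⟨h1, h2⟩
      exact ⟨Or.inr ⟨h1, fun ⟨_, v, hv, hK⟩ => h2 v hv hK⟩, h2⟩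
  · intro a a' h
    rw [clS_del_stop W Y (a := a ∩ U) (a' := a' ∩ U) inter_subset_right inter_subset_right]
    rw [inter_right_comm, h, inter_right_comm]

lemma Ex_cluster0 (Y : Set V) (F : Set V → Finset (Sym2 V) → ℝ) :
    Ex U w (fun a => F (clS a Y) (del (clS a Y) a)) =
      Ex U w (fun a => Ex U w (fun b => F (clS a Y) (del (clS a Y) b))) := by
  simpa only [del_empty_set] using Ex_cluster (U := U) (w := w) ∅ Y F

omit [DecidableEq V] in
lemma wt_empty_mul_le {ε : Type*} [DecidableEq ε] {U : Finset ε} {w : ε → ℝ} (hw : Valid w)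
    {f : Finset ε → ℝ} (hf : ∀ ω, 0 ≤ f ω) : wt U w ∅ * f ∅ ≤ Ex U w f :=
  single_le_sum (f := fun ω => wt U w ω * f ω)
    (fun ω _ => mul_nonneg (wt_nonneg hw _ _) (hf ω)) (empty_mem_powerset U)

omit [DecidableEq V] in
lemma wt_empty_pos {ε : Type*} [DecidableEq ε] {U : Finset ε} {w : ε → ℝ} (h1 : ∀ e, w e < 1) :
    0 < wt U w ∅ := prod_pos fun e _ => by simpa using h1 e

variable (U w)

/-- conditional mean of `g (cl x)` given that the cluster of `Y` is `K` -/
def gbar (x : V) (g : Set V → ℝ) (K : Set V) : ℝ := Ex U w fun b => g (cl (del K b) x)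

/-- one sweep of the Gibbs sampler -/
def gibbs (x : V) (Y : Set V) (g : Set V → ℝ) (C : Set V) : ℝ :=
  Ex U w fun b => gbar U w x g (clS (del C b) Y)

/-- the defect function -/
def psi (x : V) (Y : Set V) (g : Set V → ℝ) (ω : Finset (Sym2 V)) : ℝ :=
  ind (x ∉ clS ω Y) * (gbar U w x g (clS ω Y) - g (cl ω x))

/-- the averaged defect after deleting `W` -/
def phi (x : V) (Y : Set V) (g : Set V → ℝ) (W : Set V) : ℝ :=
  Ex U w fun b => psi U w x Y g (del W b)

variable {U w} {x : V} {Y : Set V} {g : Set V → ℝ} {r : ℝ}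

lemma gbar_anti (hw : Valid w) (hg : Monotone g) : Antitone (gbar U w x g) := fun _ _ h =>
  Ex_mono hw fun _ _ => hg (cl_mono (del_anti h) _)

lemma gbar_mem (hw : Valid w) (hr : ∀ C, 0 ≤ g C ∧ g C ≤ r) (K : Set V) :
    0 ≤ gbar U w x g K ∧ gbar U w x g K ≤ r :=
  ⟨Ex_nonneg hw fun _ _ => (hr _).1, by
    simpa [gbar] using Ex_mono (U := U) hw (g := fun _ => r) fun b _ => (hr (cl (del K b) x)).2⟩

lemma gibbs_mono (hw : Valid w) (hg : Monotone g) : Monotone (gibbs U w x Y g) := fun _ _ h =>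
  Ex_mono hw fun _ _ => gbar_anti hw hg (clS_mono (del_anti h) _)

lemma gibbs_mem (hw : Valid w) (hr : ∀ C, 0 ≤ g C ∧ g C ≤ r) (C : Set V) :
    0 ≤ gibbs U w x Y g C - wt U w ∅ * gbar U w x g Y ∧
      gibbs U w x Y g C - wt U w ∅ * gbar U w x g Y ≤ r * (1 - wt U w ∅) := by
  have h1 := wt_empty_mul_le (U := U) hw (f := fun b => gbar U w x g (clS (del C b) Y))
    fun _ => (gbar_mem hw hr _).1
  have h2 := wt_empty_mul_le (U := U) hw (f := fun b => r - gbar U w x g (clS (del C b) Y))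
    fun _ => sub_nonneg.2 (gbar_mem hw hr _).2
  rw [Ex_sub, Ex_const] at h2
  simp only [clS_del_empty] at h1 h2
  unfold gibbs
  constructor <;> linarith

lemma Ex_g_eq_gbar (h : Set V → ℝ) :
    Ex U w (fun ω => ind (x ∉ clS ω Y) * g (cl ω x) * h (clS ω Y)) =
      Ex U w (fun ω => ind (x ∉ clS ω Y) * gbar U w x g (clS ω Y) * h (clS ω Y)) := by
  have := Ex_cluster0 (U := U) (w := w) Y (fun K c => ind (x ∉ K) * g (cl c x) * h K)
  simp only [Ex_mul_const, Ex_const_mul] at this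
  refine Eq.trans (Ex_congr fun ω _ => ?_) this
  by_cases hx : x ∉ clS ω Y
  · rw [cl, cl, clS_del_of_disjoint (disjoint_cl_clS hx)]
  · simp [ind_neg hx]

lemma Ex_gbar_eq_gibbs (h : Set V → ℝ) :
    Ex U w (fun ω => ind (x ∉ clS ω Y) * gbar U w x g (clS ω Y) * h (cl ω x)) =
      Ex U w (fun ω => ind (x ∉ clS ω Y) * gibbs U w x Y g (cl ω x) * h (cl ω x)) := by
  have := Ex_cluster0 (U := U) (w := w) {x}
    (fun C c => ind (Disjoint C Y) * gbar U w x g (clS c Y) * h C)
  simp only [Ex_mul_const, Ex_const_mul] at this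
  simp only [notMem_clS_iff]
  refine Eq.trans (Ex_congr fun ω _ => ?_) this
  by_cases hx : Disjoint (cl ω x) Y
  · have h2 : clS (del (clS ω {x}) ω) Y = clS ω Y :=
      clS_del_of_disjoint (disjoint_cl_clS (notMem_clS_iff.2 hx)).symm
    rw [h2]; rfl
  · have hx' : ¬ Disjoint (clS ω {x}) Y := hx
    simp [ind_neg hx, ind_neg hx']

lemma phi_eq (W : Set V) : phi U w x Y g W = Ex U w fun b => ind (x ∉ clS (del W b) Y) *
    (g (cl (del (clS (del W b) Y) b) x) - g (cl (del W b) x)) := by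
  have := Ex_cluster (U := U) (w := w) W Y (fun K c => ind (x ∉ K) * g (cl c x))
  simp only [Ex_const_mul] at this
  simp only [phi, psi, mul_sub, Ex_sub, this, gbar]

omit [DecidableEq V] in
lemma cl_del_subset {W : Set V} {b : Finset (Sym2 V)} (h : x ∉ clS (del W b) Y) :
    cl (del W b) x ⊆ cl (del (clS (del W b) Y) b) x := by
  rw [cl, ← clS_del_of_disjoint (disjoint_cl_clS h)]
  exact clS_mono (del_mono del_subset) _

lemma phi_mem (hw : Valid w) (hg : Monotone g) (hr : ∀ C, 0 ≤ g C ∧ g C ≤ r) (W : Set V) :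
    0 ≤ phi U w x Y g W ∧ phi U w x Y g W ≤ r := by
  rw [phi_eq]
  constructor
  · refine Ex_nonneg hw fun b _ => ?_
    by_cases h : x ∉ clS (del W b) Y
    · rw [ind_pos h, one_mul]; exact sub_nonneg.2 (hg (cl_del_subset h))
    · simp [ind_neg h]
  · refine le_trans (Ex_mono hw (g := fun _ => r) fun b _ => ?_) (by simp)
    by_cases h : x ∉ clS (del W b) Y
    · rw [ind_pos h, one_mul]
      linarith [(hr (cl (del (clS (del W b) Y) b) x)).2, (hr (cl (del W b) x)).1]
    · rw [ind_neg h, zero_mul]; exact (hr ∅).1.trans (hr ∅).2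

lemma phi_mono (hw : Valid w) (hg : Monotone g) : Monotone (phi U w x Y g) := by
  intro W W' h
  rw [phi_eq, phi_eq]
  refine Ex_mono hw fun b _ => ?_
  have hK : clS (del W' b) Y ⊆ clS (del W b) Y := clS_mono (del_anti h) _
  by_cases h1 : x ∉ clS (del W b) Y
  · rw [ind_pos h1, ind_pos fun h' => h1 (hK h'), one_mul, one_mul]
    have a1 := hg (cl_mono (del_anti (ω := b) hK) x)
    have a2 := hg (cl_mono (del_anti (ω := b) h) x)
    linarith
  · rw [ind_neg h1, zero_mul]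
    by_cases h2 : x ∉ clS (del W' b) Y
    · rw [ind_pos h2, one_mul]; exact sub_nonneg.2 (hg (cl_del_subset h2))
    · simp [ind_neg h2]

lemma Ex_psi_eq_phi {d : V} {Z : Set V} (hZ : insert x Y ⊆ Z) (h : Set V → ℝ) :
    Ex U w (fun ω => ind (d ∉ clS ω Z) * h (cl ω d) * psi U w x Y g ω) =
      Ex U w (fun ω => ind (d ∉ clS ω Z) * h (cl ω d) * phi U w x Y g (cl ω d)) := by
  have := Ex_cluster0 (U := U) (w := w) {d}
    (fun C c => ind (Disjoint C Z) * h C * psi U w x Y g c)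
  simp only [Ex_const_mul] at this
  simp only [notMem_clS_iff]
  refine Eq.trans (Ex_congr fun ω _ => ?_) this
  by_cases hx : Disjoint (cl ω d) Z
  · have h1 := (disjoint_cl_clS (notMem_clS_iff.2 hx)).symm
    have h2 : clS (del (clS ω {d}) ω) Y = clS ω Y := clS_del_of_disjoint
      (h1.mono_left (clS_mono_set ((Set.subset_insert _ _).trans hZ)))
    have h3 : cl (del (clS ω {d}) ω) x = cl ω x := clS_del_of_disjoint
      (h1.mono_left (clS_mono_set (by simpa using hZ (Set.mem_insert _ _))))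
    simp only [psi, h2, h3]; rfl
  · have hx' : ¬ Disjoint (clS ω {d}) Z := hx
    simp [ind_neg hx, ind_neg hx']

end

end Vale.Agent.P151
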