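import Vale.Agent.P151.Basic
import Vale.Agent.P151.Defs

/-! Lattice geometry shared by all parts. -/

namespace Vale.Agent.P151

open Finset

noncomputable section

abbrev Zd (d : ℕ) := Fin d → ℤ

variable {d : ℕ}

/-- `e` is a nearest-neighbour edge -/
def IsLat (e : Sym2 (Zd d)) : Prop := e ∈ (latticeGraph d).edgeSet

instance : DecidablePred (IsLat (d := d)) := Classical.decPred _

lemma isLat_mk {x y : Zd d} : IsLat s(x, y) ↔ ∑ i, |x i - y i| = 1 := Iff.rfl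

/-- the cube `v + [-n,n]^d` -/
def box (v : Zd d) (n : ℕ) : Finset (Zd d) := Icc (v - fun _ => (n : ℤ)) (v + fun _ => (n : ℤ))

lemma mem_box {v x : Zd d} {n : ℕ} : x ∈ box v n ↔ ∀ i, |x i - v i| ≤ n := by
  simp only [box, mem_Icc, Pi.le_def, Pi.sub_apply, Pi.add_apply, abs_le, ← forall_and]
  exact forall_congr' fun i => by constructor <;> rintro ⟨h1, h2⟩ <;> constructor <;> linarith

/-- lattice edges with both endpoints in `D` -/
def edgesIn (D : Finset (Zd d)) : Finset (Sym2 (Zd d)) := D.sym2.filter IsLat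

lemma mk_mem_edgesIn {D : Finset (Zd d)} {x y : Zd d} :
    s(x, y) ∈ edgesIn D ↔ x ∈ D ∧ y ∈ D ∧ IsLat s(x, y) := by
  simp [edgesIn, and_assoc]

lemma mem_edgesIn {D : Finset (Zd d)} {e : Sym2 (Zd d)} :
    e ∈ edgesIn D ↔ (∀ x ∈ e, x ∈ D) ∧ IsLat e := by
  simp [edgesIn]

lemma edgesIn_mono {D D' : Finset (Zd d)} (h : D ⊆ D') : edgesIn D ⊆ edgesIn D' := by
  intro e he
  rw [mem_edgesIn] at he ⊢
  exact ⟨fun x hx => h (he.1 x hx), he.2⟩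

lemma IsLat.abs_le {x y : Zd d} (h : IsLat s(x, y)) (i : Fin d) : |x i - y i| ≤ 1 := by
  rw [isLat_mk] at h
  rw [← h]
  exact single_le_sum (f := fun i => |x i - y i|) (fun j _ => abs_nonneg _) (mem_univ i)

lemma isLat_add_single (x : Zd d) (i : Fin d) : IsLat s(x, x + Pi.single i 1) := by
  rw [isLat_mk, sum_eq_single i]
  · simp
  · intro j _ hj; simp [hj]
  · simp

/-- the inner vertex boundary of the cube `v + [-n,n]^d` -/
def sphere (v : Zd d) (n : ℕ) : Set (Zd d) := {x | x ∈ box v n ∧ ∃ i, |x i - v i| = n}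

/-- one orthant of one face of the cube `v + [-n,n]^d` -/
def face (v : Zd d) (n : ℕ) (i : Fin d) (σ : Fin d → ℤˣ) : Set (Zd d) :=
  {x | (σ i : ℤ) * (x i - v i) = n ∧ ∀ j, 0 ≤ (σ j : ℤ) * (x j - v j) ∧ (σ j : ℤ) * (x j - v j) ≤ n}

/-- the `ℓ^∞` neighbourhood of radius `j` -/
def thick (B : Finset (Zd d)) (j : ℕ) : Finset (Zd d) := B.biUnion fun b => box b j

lemma mem_thick {B : Finset (Zd d)} {j : ℕ} {x : Zd d} :
    x ∈ thick B j ↔ ∃ b ∈ B, ∀ i, |x i - b i| ≤ j := by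
  simp [thick, mem_box]

/-- one-arm probability `P_p(0 ↔ ∂Λ_n in Λ_n)` -/
def theta (d : ℕ) (p : ℝ) (n : ℕ) : ℝ :=
  Pr (edgesIn (box (0 : Zd d) n)) (fun _ => p) (fun ω => ∃ b ∈ sphere (0 : Zd d) n, Conn ω 0 b)

/-- finite-volume form of `θ(p) > 0` -/
def Perc (d : ℕ) (p : ℝ) : Prop := ∃ c > 0, ∀ n, c ≤ theta d p n

/-- `P_p(v + Λ_m` is not joined inside `v + Λ_n` to the given face orthant`)` -/
def faceFail (p : ℝ) (m n : ℕ) (v : Zd d) (i : Fin d) (σ : Fin d → ℤˣ) : ℝ :=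
  Pr (edgesIn (box v n)) (fun _ => p)
    (fun ω => ¬ ∃ a ∈ box v m, ∃ b ∈ face v n i σ, Conn ω a b)

/-- The conclusion of the target lemma, as a property of the parameters. -/
def TargetProp (d : ℕ) (p γ δ : ℝ) (m J : ℕ) : Prop :=
  ∀ (U : Finset (Sym2 (Zd d))) (w : Sym2 (Zd d) → ℝ) (B : Finset (Zd d)) (T : Set (Zd d))
    (o : Zd d), Valid w → (∀ e ∈ U, IsLat e) →
    (∀ e ∈ edgesIn (thick B (J + 1)), e ∈ U ∧ w e = p) → o ∉ thick B J →
    (∀ v ∈ thick B J, Pr U w (fun ω => ¬ ∃ a ∈ box v m, ∃ b ∈ T, Conn ω a b) ≤ δ) →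
    Pr U w (fun ω => (∃ b ∈ B, Conn ω o b) ∧ ¬ ∃ b ∈ T, Conn ω o b) ≤ γ

/-- If `0` is joined by lattice edges of `U` to a point at `ℓ^∞` distance `≥ n`, then it is joined to
`∂Λ_n` inside `Λ_n`. -/
lemma Pr_far_le_theta {p : ℝ} (h0 : 0 ≤ p) (h1 : p ≤ 1) (U : Finset (Sym2 (Zd d)))
    (hU : ∀ e ∈ U, IsLat e) (n : ℕ) :
    Pr U (fun _ => p) (fun ω => ∃ b : Zd d, (∃ i, (n : ℤ) ≤ |b i|) ∧ Conn ω 0 b) ≤ theta d p n := by
  have hv : Valid (fun _ : Sym2 (Zd d) => p) := valid_const h0 h1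
  set E := edgesIn (box (0 : Zd d) n) with hE
  have e1 : Pr U (fun _ => p) (fun ω => ∃ b : Zd d, (∃ i, (n : ℤ) ≤ |b i|) ∧ Conn ω 0 b) =
      Pr (U ∪ E) (fun _ => p) (fun ω => ∃ b : Zd d, (∃ i, (n : ℤ) ≤ |b i|) ∧ Conn (ω ∩ U) 0 b) :=
    (Ex_universe subset_union_left _).symm
  have e2 : theta d p n = Pr (U ∪ E) (fun _ => p)
      (fun ω => ∃ b ∈ sphere (0 : Zd d) n, Conn (ω ∩ E) 0 b) :=
    (Ex_universe subset_union_right _).symm
  rw [e1, e2]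
  refine Pr_mono hv ?_
  rintro ω - ⟨b, ⟨i, hi⟩, hc⟩
  have h0D : (0 : Zd d) ∈ ((box (0 : Zd d) n : Finset (Zd d)) : Set (Zd d)) := by
    simp [mem_box]
  rcases Conn.exit (ω' := ω ∩ E) (D := (box (0 : Zd d) n : Finset (Zd d)))
    (fun a b ha hb hab => mem_inter.2 ⟨(mem_inter.1 hab).1,
      mk_mem_edgesIn.2 ⟨ha, hb, hU _ (mem_inter.1 hab).2⟩⟩) h0D hc with ⟨hb, hc'⟩ | ⟨a, c, ha, hcn, hac, hc'⟩
  · refine ⟨b, ⟨hb, i, ?_⟩, hc'⟩
    have := mem_box.1 hb i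
    simp only [Pi.zero_apply, sub_zero] at this ⊢
    omega
  · have hl := hU _ (mem_inter.1 hac).2
    have hcn' : ¬ ∀ i, |c i - (0 : Zd d) i| ≤ n := fun h => hcn (mem_box.2 h)
    push Not at hcn'
    obtain ⟨j, hj⟩ := hcn'
    refine ⟨a, ⟨ha, j, ?_⟩, hc'⟩
    have h1 := mem_box.1 ha j
    have h2 := hl.abs_le j
    simp only [Pi.zero_apply, sub_zero] at h1 hj ⊢
    rw [abs_le] at h2
    rcases abs_cases (a j) with h | h <;> rcases abs_cases (c j) with h' | h' <;> omega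

end

end Vale.Agent.P151
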