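import Vale.Agent.P151.Target
import Vale.Agent.P151.Estimate
import Vale.Agent.P151.Coarse

/-! Part F2: choice of the parameters. -/

namespace Vale.Agent.P151

open Finset

lemma TargetProp.mono {d : ℕ} {p γ δ δ' : ℝ} {m J : ℕ} (h : TargetProp d p γ δ m J)
    (hδ : δ' ≤ δ) : TargetProp d p γ δ' m J :=
  fun U w B T o h1 h2 h3 h4 h5 => h U w B T o h1 h2 h3 h4 fun v hv => (h5 v hv).trans hδ

theorem perc_step {d : ℕ} (hd : 2 ≤ d) {p : ℝ} (hp0 : 0 < p) (hp1 : p < 1) (h : Perc d p) :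
    ∃ p' : ℝ, 0 ≤ p' ∧ p' < p ∧ Perc d p' := by
  have d0 : (0 : ℝ) < d := by exact_mod_cast (by omega : 0 < d)
  set η : ℝ := 1 / (2 * 10 ^ 6) with hη
  set γ : ℝ := η ^ 2 / (32 * d) with hγ
  obtain ⟨δ, δ0, hδ⟩ := target d (min (p / 2) (1 - p)) γ (lt_min (by linarith) (by linarith))
    (by positivity)
  obtain ⟨m, hm⟩ := basic_estimate (by omega : 1 ≤ d) hp0 hp1.le h
    (lt_min δ0 (by positivity : 0 < η / 2))
  obtain ⟨J, hJ⟩ := hδ m
  obtain ⟨p', h1, h2, hF⟩ := hm (m + (2 * d + 2) * J + 2) (by omega)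
  have e : 16 * d * γ = η ^ 2 / 2 := by rw [hγ]; field_simp; norm_num
  let s : Setup :=
    { d := d, m := m, J := J, n := m + (2 * d + 2) * J + 2, p := p', γ := γ, δ := min δ (η / 2),
      η := η, hd := hd, hn := le_rfl, hp0 := by linarith, hp1 := by linarith,
      hη := by positivity, hη1 := by norm_num [hη],
      hT := (hJ p' ((min_le_left _ _).trans h1)
        (by linarith [min_le_right (p / 2) (1 - p)])).mono (min_le_left _ _),
      hF := hF,
      hroot := by
        rw [e]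
        have := min_le_right δ (η / 2)
        have : η ^ 2 / 2 ≤ η / 2 := by norm_num [hη]
        linarith }
  refine ⟨p', by linarith, h2, s.perc (by show 0 < p'; linarith) ?_⟩
  show η + 2 * (16 * d * γ / η) ≤ 1 / 10 ^ 6
  rw [e]; norm_num [hη]

end Vale.Agent.P151
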