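import Vale.Agent.P151.Lattice

/-! Part E: oriented Peierls argument (see notes/P151.md, section E).
Sites are pairs `(t, x)` with `x ≤ t`; the parents of `(t+1, x)` are `(t, x)` (if `x ≤ t`) and
`(t, x-1)` (if `1 ≤ x`). -/

namespace Vale.Agent.P151

open Finset

variable {ε : Type*} [DecidableEq ε]

namespace PeierlsAux

/-- one move of the dual walk; `cl` is the set of closed sites -/
def step (cl : ℕ → ℕ → Prop) (T : ℕ) (v v' : ℕ × ℕ) : Prop :=
  (v.2 ≤ v.1 ∧ v.1 ≤ T ∧ cl v.1 v.2 ∧ v' = (v.1, v.2 + 1)) ∨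
    (1 ≤ v.1 ∧ 1 ≤ v.2 ∧ v' = (v.1 - 1, v.2 - 1)) ∨ v' = (v.1 + 1, v.2)

/-- the terminal line `y = t + 1` can be reached in at most `k` moves -/
def W (cl : ℕ → ℕ → Prop) (T : ℕ) : ℕ → ℕ × ℕ → Prop
  | 0, v => v.2 = v.1 + 1
  | k + 1, v => W cl T k v ∨ ∃ v', step cl T v v' ∧ W cl T k v'

lemma W_mono {cl : ℕ → ℕ → Prop} {T k k' : ℕ} (h : k ≤ k') {v : ℕ × ℕ} (hv : W cl T k v) :
    W cl T k' v := by
  induction h with
  | refl => exact hv
  | step _ ih => exact Or.inl ih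

/-- the potential -/
noncomputable def Φ (v : ℕ × ℕ) : ℝ := 2 * 100 ^ (2 * v.2) / 100 ^ (v.1 + 1)

lemma Φ_pos (v : ℕ × ℕ) : 0 < Φ v := by unfold Φ; positivity

lemma Φ_C (v : ℕ × ℕ) : Φ (v.1, v.2 + 1) = 10 ^ 4 * Φ v := by
  unfold Φ; simp only [mul_add, pow_add]; field_simp; norm_num

lemma Φ_U (v : ℕ × ℕ) : Φ (v.1 + 1, v.2) = Φ v / 100 := by
  unfold Φ; simp only [pow_add]; field_simp

lemma Φ_D (v : ℕ × ℕ) (h1 : 1 ≤ v.1) (h2 : 1 ≤ v.2) : Φ (v.1 - 1, v.2 - 1) = Φ v / 100 := by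
  obtain ⟨t, y⟩ := v
  obtain ⟨t, rfl⟩ := Nat.exists_eq_add_of_le' h1
  obtain ⟨y, rfl⟩ := Nat.exists_eq_add_of_le' h2
  unfold Φ; simp only [Nat.add_sub_cancel, mul_add, pow_add]; field_simp

lemma Φ_term (v : ℕ × ℕ) (h : v.2 = v.1 + 1) : 2 ≤ Φ v := by
  unfold Φ
  rw [h, two_mul (v.1 + 1), pow_add, le_div_iff₀ (by positivity)]
  have h1 : (1 : ℝ) ≤ 100 ^ (v.1 + 1) := one_le_pow₀ (by norm_num)
  have h2 : (0 : ℝ) < 100 ^ (v.1 + 1) := by positivity
  nlinarith

/-- the event bounded by induction -/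
def Ev (closed : ℕ → ℕ → Finset ε → Prop) (T n : ℕ) (v : ℕ × ℕ) (S : Finset (ℕ × ℕ))
    (ω : Finset ε) : Prop :=
  (∀ y ∈ S, closed y.1 y.2 ω) ∧ ∃ k ≤ n, W (fun t x => closed t x ω) T k v ∧
    ∀ c ∈ S, ¬ W (fun t x => closed t x ω) T k c

omit [DecidableEq ε] in
lemma Ev_succ {closed : ℕ → ℕ → Finset ε → Prop} {T n : ℕ} {v : ℕ × ℕ} {S : Finset (ℕ × ℕ)}
    {ω : Finset ε} (h : Ev closed T (n + 1) v S ω) :
    ((v.2 = v.1 + 1 ∧ ∀ y ∈ S, closed y.1 y.2 ω) ∨
      ((v ∉ S ∧ v.2 ≤ v.1 ∧ v.1 ≤ T) ∧ Ev closed T n (v.1, v.2 + 1) (insert v S) ω)) ∨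
      (((1 ≤ v.1 ∧ 1 ≤ v.2) ∧ Ev closed T n (v.1 - 1, v.2 - 1) S ω) ∨
        Ev closed T n (v.1 + 1, v.2) S ω) := by
  classical
  obtain ⟨hS, k, hk, hW, hc⟩ := h
  have hex : ∃ k, W (fun t x => closed t x ω) T k v := ⟨k, hW⟩
  have h0 := Nat.find_spec hex
  have h1 : Nat.find hex ≤ k := Nat.find_min' hex hW
  have h2 : ∀ j < Nat.find hex, ¬ W (fun t x => closed t x ω) T j v := fun j hj =>
    Nat.find_min hex hj
  generalize Nat.find hex = k0 at h0 h1 h2
  cases k0 with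
  | zero => exact Or.inl (Or.inl ⟨h0, hS⟩)
  | succ j =>
    have hj := h2 j (Nat.lt_succ_self j)
    have hcj : ∀ c ∈ S, ¬ W (fun t x => closed t x ω) T j c := fun c hcS hw =>
      hc c hcS (W_mono (by omega) hw)
    rcases h0 with h0 | ⟨v', hs, hv'⟩
    · exact absurd h0 hj
    rcases hs with ⟨a1, a2, a3, rfl⟩ | ⟨a1, a2, rfl⟩ | rfl
    · refine Or.inl (Or.inr ⟨⟨fun hv => hc v hv hW, a1, a2⟩, ?_, j, by omega, hv', ?_⟩)
      · intro y hy
        rcases mem_insert.1 hy with rfl | hy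
        · exact a3
        · exact hS y hy
      · intro y hy
        rcases mem_insert.1 hy with rfl | hy
        · exact hj
        · exact hcj y hy
    · exact Or.inr (Or.inl ⟨⟨a1, a2⟩, hS, j, by omega, hv', hcj⟩)
    · exact Or.inr (Or.inr ⟨hS, j, by omega, hv', hcj⟩)

lemma Pr_const_and {U : Finset ε} {w : ε → ℝ} (P : Prop) (A : Finset ε → Prop) {b : ℝ}
    (hb : 0 ≤ b) (h : P → Pr U w A ≤ b) : Pr U w (fun ω => P ∧ A ω) ≤ b := by
  by_cases hP : P
  · simpa [hP] using h hP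
  · simpa [hP, Pr] using hb

lemma Ev_bound (U : Finset ε) (w : ε → ℝ) (hw : Valid w)
    (closed : ℕ → ℕ → Finset ε → Prop) (T : ℕ)
    (hprod : ∀ S : Finset (ℕ × ℕ), (∀ y ∈ S, y.2 ≤ y.1 ∧ y.1 ≤ T) →
      Pr U w (fun ω => ∀ y ∈ S, closed y.1 y.2 ω) ≤ (1 / 10 ^ 6 : ℝ) ^ S.card)
    (n : ℕ) (v : ℕ × ℕ) (S : Finset (ℕ × ℕ)) (hS : ∀ y ∈ S, y.2 ≤ y.1 ∧ y.1 ≤ T) :
    Pr U w (Ev closed T n v S) ≤ (1 / 10 ^ 6 : ℝ) ^ S.card * Φ v := by
  have hterm : ∀ (v : ℕ × ℕ) (S : Finset (ℕ × ℕ)), (∀ y ∈ S, y.2 ≤ y.1 ∧ y.1 ≤ T) →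
      Pr U w (fun ω => v.2 = v.1 + 1 ∧ ∀ y ∈ S, closed y.1 y.2 ω) ≤
        (1 / 10 ^ 6 : ℝ) ^ S.card * (Φ v / 2) := by
    intro v S hS
    have hp := Φ_pos v
    refine Pr_const_and _ _ (by positivity) fun h => (hprod S hS).trans ?_
    have := Φ_term v h
    exact le_mul_of_one_le_right (by positivity) (by linarith)
  induction n generalizing v S with
  | zero =>
    have hp := Φ_pos v
    refine le_trans (Pr_mono hw ?_) ((hterm v S hS).trans ?_)
    · rintro ω - ⟨h1, k, hk, hW, -⟩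
      obtain rfl : k = 0 := by omega
      exact ⟨hW, h1⟩
    · gcongr; linarith
  | succ n ih =>
    have hp := Φ_pos v
    have hq : (0 : ℝ) < (1 / 10 ^ 6 : ℝ) ^ S.card := by positivity
    have b1 := hterm v S hS
    have b2 : Pr U w (fun ω => (v ∉ S ∧ v.2 ≤ v.1 ∧ v.1 ≤ T) ∧
        Ev closed T n (v.1, v.2 + 1) (insert v S) ω) ≤ (1 / 10 ^ 6 : ℝ) ^ S.card * (Φ v / 100) := by
      refine Pr_const_and _ _ (by positivity) fun h => (ih _ _ ?_).trans (le_of_eq ?_)
      · intro y hy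
        rcases mem_insert.1 hy with rfl | hy
        · exact h.2
        · exact hS y hy
      · rw [card_insert_of_notMem h.1, pow_succ, Φ_C]; ring
    have b3 : Pr U w (fun ω => (1 ≤ v.1 ∧ 1 ≤ v.2) ∧
        Ev closed T n (v.1 - 1, v.2 - 1) S ω) ≤ (1 / 10 ^ 6 : ℝ) ^ S.card * (Φ v / 100) := by
      refine Pr_const_and _ _ (by positivity) fun h => (ih _ _ hS).trans (le_of_eq ?_)
      rw [Φ_D v h.1 h.2]
    have b4 : Pr U w (Ev closed T n (v.1 + 1, v.2) S) ≤ (1 / 10 ^ 6 : ℝ) ^ S.card * (Φ v / 100) := by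
      refine (ih _ _ hS).trans (le_of_eq ?_)
      rw [Φ_U v]
    refine (Pr_le_add hw fun ω _ h => Ev_succ h).trans ?_
    refine (add_le_add (Pr_or_le hw _ _) (Pr_or_le hw _ _)).trans ?_
    have := mul_pos hq hp
    nlinarith

lemma exists_walk (cl bl : ℕ → ℕ → Prop) (T : ℕ) (h0 : bl 0 0 → cl 0 0)
    (hstep : ∀ t x, x ≤ t + 1 → t + 1 ≤ T → bl (t + 1) x →
      cl (t + 1) x ∨ ((x ≤ t → bl t x) ∧ (∀ x', x = x' + 1 → bl t x')))
    (hall : ∀ x ≤ T, bl T x) : ∃ k, ∃ s ≤ T, W cl T k (s, 0) := by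
  by_contra hG
  push Not at hG
  let H : ℕ × ℕ → Prop := fun v => ∃ k, W cl T k v
  have hback : ∀ v v', step cl T v v' → H v' → H v := fun v v' hs ⟨k, hk⟩ =>
    ⟨k + 1, Or.inr ⟨v', hs, hk⟩⟩
  have hterm : ∀ t, H (t, t + 1) := fun t => ⟨0, rfl⟩
  have hU : ∀ t y, H (t + 1, y) → H (t, y) := fun t y => hback _ _ (Or.inr (Or.inr rfl))
  have hD : ∀ t y, H (t, y) → H (t + 1, y + 1) := fun t y =>
    hback _ _ (Or.inr (Or.inl ⟨by simp, by simp, by simp⟩))
  have hC : ∀ t x, x ≤ t → t ≤ T → cl t x → H (t, x + 1) → H (t, x) := fun t x h1 h2 h3 =>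
    hback _ _ (Or.inl ⟨h1, h2, h3, rfl⟩)
  have main : ∀ t x, x ≤ t → t ≤ T → bl t x → H (t, x + 1) → H (t, x) := by
    intro t
    induction t with
    | zero =>
      intro x hx hT hb
      obtain rfl : x = 0 := by omega
      exact hC 0 0 le_rfl hT (h0 hb)
    | succ t ih =>
      intro x hx hT hb hH
      rcases hstep t x hx hT hb with hc | ⟨p1, p2⟩
      · exact hC _ _ hx hT hc hH
      have hx' : H (t, x) := by
        by_cases hxt : x ≤ t
        · exact ih x hxt (by omega) (p1 hxt) (hU _ _ hH)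
        · obtain rfl : x = t + 1 := by omega
          exact hterm t
      cases x with
      | zero =>
        obtain ⟨k, hk⟩ := hx'
        exact absurd hk (hG k t (by omega))
      | succ x' => exact hD _ _ (ih x' (by omega) (by omega) (p2 x' rfl) hx')
  have fin : ∀ j x, x + j = T + 1 → H (T, x) := by
    intro j
    induction j with
    | zero =>
      intro x hx
      obtain rfl : x = T + 1 := by omega
      exact hterm T
    | succ j ih =>
      intro x hx
      exact main T x (by omega) le_rfl (hall x (by omega)) (ih (x + 1) (by omega))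
  obtain ⟨k, hk⟩ := fin (T + 1) 0 (by omega)
  exact hG k T le_rfl hk

lemma sum_Φ (n : ℕ) : ∑ s ∈ range n, Φ (s, 0) ≤ 1 / 2 - 1 / 2 / 100 ^ n := by
  induction n with
  | zero => simp
  | succ n ih =>
    rw [sum_range_succ]
    have h : Φ (n, 0) = 2 / 100 / 100 ^ n := by
      unfold Φ; simp only [mul_zero, pow_zero, pow_succ]; field_simp
    have h2 : (1 / 2 / 100 ^ (n + 1) : ℝ) = 1 / 200 / 100 ^ n := by
      rw [pow_succ]; field_simp; norm_num
    have h3 : (0 : ℝ) < 1 / 100 ^ n := by positivity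
    rw [h, h2]
    simp only [div_eq_mul_inv, one_mul] at ih h3 ⊢
    nlinarith

end PeierlsAux

open PeierlsAux in
theorem peierls (U : Finset ε) (w : ε → ℝ) (hw : Valid w)
    (closed blocked : ℕ → ℕ → Finset ε → Prop) (T : ℕ)
    (hprod : ∀ S : Finset (ℕ × ℕ), (∀ y ∈ S, y.2 ≤ y.1 ∧ y.1 ≤ T) →
      Pr U w (fun ω => ∀ y ∈ S, closed y.1 y.2 ω) ≤ (1 / 10 ^ 6 : ℝ) ^ S.card)
    (h0 : ∀ ω, blocked 0 0 ω → closed 0 0 ω)
    (hstep : ∀ ω t x, x ≤ t + 1 → t + 1 ≤ T → blocked (t + 1) x ω →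
      closed (t + 1) x ω ∨
        ((x ≤ t → blocked t x ω) ∧ (∀ x', x = x' + 1 → blocked t x' ω))) :
    Pr U w (fun ω => ∀ x ≤ T, blocked T x ω) ≤ 1 / 2 := by
  have hk : ∀ ω, ∃ k, (∀ x ≤ T, blocked T x ω) →
      ∃ s ≤ T, W (fun t x => closed t x ω) T k (s, 0) := by
    intro ω
    by_cases hall : ∀ x ≤ T, blocked T x ω
    · obtain ⟨k, hk⟩ := exists_walk (fun t x => closed t x ω) (fun t x => blocked t x ω) T
        (h0 ω) (hstep ω) hall
      exact ⟨k, fun _ => hk⟩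
    · exact ⟨0, fun h => absurd h hall⟩
  choose kf hkf using hk
  calc Pr U w (fun ω => ∀ x ≤ T, blocked T x ω)
      ≤ Pr U w (fun ω => ∃ s ∈ range (T + 1), Ev closed T (U.powerset.sup kf) (s, 0) ∅ ω) := by
        refine Pr_mono hw fun ω hω hall => ?_
        obtain ⟨s, hs, hW⟩ := hkf ω hall
        exact ⟨s, mem_range.2 (by omega), by simp, kf ω, le_sup (mem_powerset.2 hω), hW, by simp⟩
    _ ≤ ∑ s ∈ range (T + 1), Pr U w (Ev closed T (U.powerset.sup kf) (s, 0) ∅) :=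
        Pr_exists_le hw _ _
    _ ≤ ∑ s ∈ range (T + 1), Φ (s, 0) := by
        refine sum_le_sum fun s _ => ?_
        simpa using Ev_bound U w hw closed T hprod (U.powerset.sup kf) (s, 0) ∅ (by simp)
    _ ≤ 1 / 2 := by
        refine (sum_Φ _).trans (sub_le_self _ (by positivity))

/-- the union of the regions of all sites of level `< t` -/
def past (E : ℕ × ℕ → Finset ε) (t : ℕ) : Finset ε :=
  ((range t ×ˢ range t).filter fun y => y.2 ≤ y.1).biUnion E

lemma mem_past {E : ℕ × ℕ → Finset ε} {t : ℕ} {e : ε} :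
    e ∈ past E t ↔ ∃ y : ℕ × ℕ, y.2 ≤ y.1 ∧ y.1 < t ∧ e ∈ E y := by
  simp only [past, mem_biUnion, mem_filter, mem_product, mem_range]
  constructor
  · rintro ⟨y, ⟨⟨h1, _⟩, h2⟩, h3⟩; exact ⟨y, h2, h1, h3⟩
  · rintro ⟨y, h2, h1, h3⟩; exact ⟨y, ⟨⟨h1, by omega⟩, h2⟩, h3⟩

/-- conditional bounds give the product bound needed in `peierls` -/
theorem closed_prod (U : Finset ε) (w : ε → ℝ) (hw : Valid w) (E : ℕ × ℕ → Finset ε)
    (hE : Pairwise fun y z => Disjoint (E y) (E z)) (closed : ℕ → ℕ → Finset ε → Prop) (T : ℕ)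
    (η : ℝ) (hη : 0 ≤ η)
    (hdep : ∀ t x ω, closed t x ω ↔ closed t x (ω ∩ (past E t ∪ E (t, x))))
    (hc : ∀ t x, x ≤ t → t ≤ T → ∀ ξ ⊆ U, Pr U (cond w (past E t) ξ) (closed t x) ≤ η)
    (S : Finset (ℕ × ℕ)) (hS : ∀ y ∈ S, y.2 ≤ y.1 ∧ y.1 ≤ T) :
    Pr U w (fun ω => ∀ y ∈ S, closed y.1 y.2 ω) ≤ η ^ S.card := by
  induction S using Finset.induction_on_max_value (Prod.fst : ℕ × ℕ → ℕ) with
  | empty => simp [Pr]
  | insert y S hy hmax ih =>
    have ih' := ih fun z hz => hS z (mem_insert_of_mem hz)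
    obtain ⟨hy1, hy2⟩ := hS y (mem_insert_self _ _)
    set D : Finset ε := past E y.1 ∪ S.biUnion E with hD
    have hsub : ∀ z ∈ S, past E z.1 ∪ E (z.1, z.2) ⊆ D := by
      intro z hz e he
      rcases mem_union.1 he with he | he
      · obtain ⟨u, h1, h2, h3⟩ := mem_past.1 he
        exact mem_union_left _ (mem_past.2 ⟨u, h1, lt_of_lt_of_le h2 (hmax z hz), h3⟩)
      · exact mem_union_right _ (mem_biUnion.2 ⟨z, hz, he⟩)
    have hSD : ∀ ω : Finset ε, (∀ z ∈ S, closed z.1 z.2 (ω ∩ D)) ↔ ∀ z ∈ S, closed z.1 z.2 ω := by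
      intro ω
      refine forall_congr' fun z => forall_congr' fun hz => ?_
      rw [hdep z.1 z.2 (ω ∩ D), hdep z.1 z.2 ω, inter_assoc, inter_eq_right.2 (hsub z hz)]
    have hcond : ∀ ξ ⊆ U, Pr U (cond w D ξ) (closed y.1 y.2) ≤ η := by
      intro ξ hξ
      refine le_trans (le_of_eq ?_) (hc y.1 y.2 hy1 hy2 ξ hξ)
      have e1 : ∀ w' : ε → ℝ, Pr U w' (closed y.1 y.2) =
          Pr (U ∩ (past E y.1 ∪ E (y.1, y.2))) w' (closed y.1 y.2) := by
        intro w'
        unfold Pr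
        rw [← Ex_inter]
        exact Ex_congr fun ω _ => ind_congr (hdep _ _ _)
      rw [e1, e1]
      refine Ex_congr_w (fun e he => ?_) _
      by_cases hp : e ∈ past E y.1
      · have : e ∈ D := mem_union_left _ hp
        simp [cond, hp, this]
      · have he2 : e ∈ E y := by
          rcases mem_union.1 (mem_inter.1 he).2 with h | h
          · exact absurd h hp
          · exact h
        have : e ∉ D := by
          intro h
          rcases mem_union.1 h with h | h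
          · exact hp h
          · obtain ⟨z, hz, hez⟩ := mem_biUnion.1 h
            have hne : y ≠ z := fun h => hy (h ▸ hz)
            exact disjoint_left.1 (hE hne) he2 hez
        simp [cond, hp, this]
    have e2 : Pr U w (fun ω => ∀ z ∈ insert y S, closed z.1 z.2 ω) =
        Ex U w (fun ξ => ind (∀ z ∈ S, closed z.1 z.2 ξ) * Pr U (cond w D ξ) (closed y.1 y.2)) := by
      have := Ex_cond' (U := U) (w := w) D
        (fun a ω => ind (∀ z ∈ S, closed z.1 z.2 a) * ind (closed y.1 y.2 ω))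
      simp only [hSD, Ex_const_mul] at this
      unfold Pr
      rw [← this]
      refine Ex_congr fun ω _ => ?_
      rw [← ind_and]
      exact ind_congr (by simp [and_comm])
    rw [e2, card_insert_of_notMem hy, pow_succ]
    calc _ ≤ Ex U w (fun ξ => ind (∀ z ∈ S, closed z.1 z.2 ξ) * η) :=
          Ex_mono hw fun ξ hξ => mul_le_mul_of_nonneg_left (hcond ξ hξ) (ind_nonneg _)
      _ = Pr U w (fun ξ => ∀ z ∈ S, closed z.1 z.2 ξ) * η := Ex_mul_const _ _
      _ ≤ _ := mul_le_mul_of_nonneg_right ih' hη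

/-- `p_c(ℤ^d) < 1` in finite-volume form -/
theorem perc_near_one {d : ℕ} (hd : 2 ≤ d) : ∃ p : ℝ, 0 ≤ p ∧ p < 1 ∧ Perc d p := by
  classical
  set p : ℝ := 1 - 1 / 10 ^ 6 / 2 with hp
  have hp0 : 0 ≤ p := by rw [hp]; norm_num
  have hp1 : p < 1 := by rw [hp]; norm_num
  refine ⟨p, hp0, hp1, 1 / 2, by norm_num, fun n => ?_⟩
  let i0 : Fin d := ⟨0, by omega⟩
  let i1 : Fin d := ⟨1, by omega⟩
  have h01 : i0 ≠ i1 := by simp [i0, i1]
  let pt : ℕ × ℕ → Zd d := fun y => Pi.single i0 (y.2 : ℤ) + Pi.single i1 ((y.1 : ℤ) - y.2)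
  have pt0 : ∀ y, pt y i0 = y.2 := fun y => by simp [pt, h01]
  have pt1 : ∀ y, pt y i1 = (y.1 : ℤ) - y.2 := fun y => by simp [pt, h01.symm]
  have pt2 : ∀ y j, j ≠ i0 → j ≠ i1 → pt y j = 0 := fun y j a b => by simp [pt, a, b]
  let ed : Fin d → Zd d → Sym2 (Zd d) := fun i P => s(P - Pi.single i 1, P)
  have hed : ∀ i j P Q, ed i P = ed j Q → P = Q := by
    intro i j P Q h
    rcases Sym2.eq_iff.1 h with ⟨-, h⟩ | ⟨h1, h2⟩
    · exact h
    · exfalso
      have h3 := congrFun h1 i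
      have h4 := congrFun h2 i
      by_cases hij : i = j
      · subst hij; simp at h3 h4; omega
      · simp [hij] at h3 h4; omega
  let E : ℕ × ℕ → Finset (Sym2 (Zd d)) := fun y => {ed i0 (pt y), ed i1 (pt y)}
  have hE : Pairwise fun y z => Disjoint (E y) (E z) := by
    intro y z hyz
    rw [disjoint_left]
    intro e h1 h2
    have : pt y = pt z := by
      simp only [E, mem_insert, mem_singleton] at h1 h2
      rcases h1 with rfl | rfl <;> rcases h2 with h | h <;> exact hed _ _ _ _ h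
    apply hyz
    have a := congrFun this i0
    have b := congrFun this i1
    rw [pt0, pt0] at a
    rw [pt1, pt1] at b
    ext <;> omega
  set U := edgesIn (box (0 : Zd d) (2 * n + 1)) with hU
  have hEU : ∀ y : ℕ × ℕ, y.2 ≤ y.1 → y.1 ≤ 2 * n → E y ⊆ U := by
    intro y h1 h2
    have hb : ∀ j, |pt y j| ≤ 2 * n := by
      intro j
      by_cases a : j = i0
      · rw [a, pt0, abs_le]; constructor <;> omega
      by_cases b : j = i1
      · rw [b, pt1, abs_le]; constructor <;> omega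
      rw [pt2 y j a b]; simp
    have : ∀ i, ed i (pt y) ∈ U := by
      intro i
      refine mk_mem_edgesIn.2 ⟨mem_box.2 fun j => ?_, mem_box.2 fun j => ?_, ?_⟩
      · have := abs_le.1 (hb j)
        by_cases hj : j = i
        · subst hj; simp only [Pi.sub_apply, Pi.single_eq_same, Pi.zero_apply, sub_zero, abs_le]
          push_cast; constructor <;> omega
        · simp only [Pi.sub_apply, Pi.single_eq_of_ne hj, Pi.zero_apply, sub_zero, abs_le]
          push_cast; constructor <;> omega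
      · have := abs_le.1 (hb j)
        simp only [Pi.zero_apply, sub_zero, abs_le]
        push_cast; constructor <;> omega
      · have h5 := isLat_add_single (pt y - Pi.single i 1) i
        rwa [sub_add_cancel] at h5
    intro e he
    simp only [E, mem_insert, mem_singleton] at he
    rcases he with rfl | rfl <;> exact this _
  have hv : Valid (fun _ : Sym2 (Zd d) => p) := valid_const hp0 hp1.le
  have key := peierls U (fun _ => p) hv (fun t x ω => ¬ E (t, x) ⊆ ω)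
    (fun t x ω => ¬ Conn ω 0 (pt (t, x))) (2 * n) ?_ ?_ ?_
  · have h2 := Pr_not (U := U) (w := fun _ => p) (fun ω => ∀ x ≤ 2 * n, ¬ Conn ω 0 (pt (2 * n, x)))
    refine le_trans ?_ (Pr_far_le_theta hp0 hp1.le U (fun e he => (mem_edgesIn.1 he).2) n)
    refine le_trans (by linarith) (h2.symm.le.trans (Pr_mono hv ?_))
    intro ω _ h
    push Not at h
    obtain ⟨x, hx, hc⟩ := h
    refine ⟨_, ?_, hc⟩
    by_cases hxn : n ≤ x
    · exact ⟨i0, by rw [pt0, le_abs]; left; simpa using hxn⟩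
    · exact ⟨i1, by rw [pt1, le_abs]; left; push_cast; omega⟩
  · intro S hS
    have e1 : Pr U (fun _ => p) (fun ω => ∀ y ∈ S, ¬ E (y.1, y.2) ⊆ ω) =
        ∏ y ∈ S, Pr U (fun _ => p) (fun ω => ¬ E y ⊆ ω) := by
      have := Ex_prod_indep (U := U) (w := fun _ => p) S E (fun y _ z _ h => hE h)
        (fun y ω => ind (¬ E y ⊆ ω))
      simp only [subset_inter_iff, Subset.refl, and_true] at this
      unfold Pr
      rw [← this]
      exact Ex_congr fun ω _ => ind_forall _ _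
    rw [e1, ← prod_const]
    refine prod_le_prod (fun y _ => Pr_nonneg hv _) fun y hy => ?_
    rw [Pr_not, Pr_all_open (hEU y (hS y hy).1 (hS y hy).2), prod_const]
    have h2 : (E y).card ≤ 2 := card_le_two
    have h3 : p ^ 2 ≤ p ^ (E y).card := pow_le_pow_of_le_one hp0 hp1.le h2
    have h4 : 1 - 1 / 10 ^ 6 ≤ p ^ 2 := by rw [hp]; norm_num
    exact sub_le_comm.1 (h4.trans h3)
  · intro ω h
    exfalso; apply h
    have : pt (0, 0) = 0 := by simp [pt]
    rw [this]; exact Conn.refl _ _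
  · intro ω t x _ _ hb
    by_cases hc : E (t + 1, x) ⊆ ω
    · refine Or.inr ⟨fun _ h => hb ?_, ?_⟩
      · have h1 : ed i1 (pt (t + 1, x)) ∈ ω := hc (by simp [E])
        have h2 : pt (t + 1, x) - Pi.single i1 1 = pt (t, x) := by
          simp only [pt]
          rw [add_sub_assoc, ← Pi.single_sub]
          congr 2; push_cast; ring
        simp only [ed, h2] at h1
        exact h.trans (Conn.of_mem h1)
      · rintro x' rfl h
        apply hb
        have h1 : ed i0 (pt (t + 1, x' + 1)) ∈ ω := hc (by simp [E])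
        have h2 : pt (t + 1, x' + 1) - Pi.single i0 1 = pt (t, x') := by
          simp only [pt]
          rw [add_sub_right_comm, ← Pi.single_sub]
          congr 2 <;> push_cast <;> ring
        simp only [ed, h2] at h1
        exact h.trans (Conn.of_mem h1)
    · exact Or.inl hc

end Vale.Agent.P151
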