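import Vale.Agent.P151.Lattice
import Vale.Agent.P151.Glue
import Vale.Agent.P151.Coarse

/-! Part C: the target lemma (see notes/P151.md, section C). -/

namespace Vale.Agent.P151

open Finset

noncomputable section

namespace TargetAux

section General

variable {ε : Type*} [DecidableEq ε] {U : Finset ε} {w : ε → ℝ}

lemma Ex_two (S : Finset ε) (G : Finset ε → Finset ε → ℝ) :
    Ex U w (fun ω => G (ω ∩ S) (ω \ S)) =
      Ex U w (fun b => Ex U w (fun a => G (a ∩ S) (b \ S))) := by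
  rw [Ex_stop (fun _ => S) (fun _ _ _ => rfl), Ex_comm]
  simp only [splice_inter, splice_sdiff]

lemma exists_subfamily {α : Type*} [DecidableEq α] (η : α → ℝ) {c : ℝ} (hc : 0 ≤ c) (X : Finset α)
    (h1 : ∀ a ∈ X, η a ≤ 1) (h2 : c ≤ ∑ a ∈ X, η a) :
    ∃ X' ⊆ X, c ≤ ∑ a ∈ X', η a ∧ ∑ a ∈ X', η a ≤ c + 1 := by
  induction X using Finset.induction_on with
  | empty => exact ⟨∅, Subset.refl _, h2, by simp; linarith⟩
  | insert a X ha ih =>
    by_cases h : c ≤ ∑ a ∈ X, η a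
    · obtain ⟨X', h3, h4⟩ := ih (fun x hx => h1 x (mem_insert_of_mem hx)) h
      exact ⟨X', h3.trans (subset_insert _ _), h4⟩
    · refine ⟨_, Subset.refl _, h2, ?_⟩
      rw [sum_insert ha]
      linarith [h1 a (mem_insert_self _ _)]

lemma prod_one_sub_le {α : Type*} (η : α → ℝ) (X : Finset α)
    (h0 : ∀ a ∈ X, 0 ≤ η a) (h1 : ∀ a ∈ X, η a ≤ 1) :
    (∏ a ∈ X, (1 - η a)) * (1 + ∑ a ∈ X, η a) ≤ 1 := by
  classical
  induction X using Finset.induction_on with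
  | empty => simp
  | insert a X ha ih =>
    have ih' := ih (fun x hx => h0 x (mem_insert_of_mem hx)) (fun x hx => h1 x (mem_insert_of_mem hx))
    rw [prod_insert ha, sum_insert ha]
    have a0 := h0 a (mem_insert_self _ _)
    have hs : 0 ≤ ∑ a ∈ X, η a := sum_nonneg fun x hx => h0 x (mem_insert_of_mem hx)
    have hp : 0 ≤ ∏ a ∈ X, (1 - η a) :=
      prod_nonneg fun x hx => sub_nonneg.2 (h1 x (mem_insert_of_mem hx))
    have : (1 - η a) * (1 + (η a + ∑ a ∈ X, η a)) ≤ 1 + ∑ a ∈ X, η a := by nlinarith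
    nlinarith [mul_le_mul_of_nonneg_left this hp]

/-- with many disjoint seeds, one of them is open and good -/
lemma seeds_bound {α : Type*} [DecidableEq α] (hw : Valid w) (seed : α → Finset ε)
    (good : α → Finset ε → Prop) (X : Finset α) (hd : (X : Set α).PairwiseDisjoint seed)
    (hU : ∀ a ∈ X, seed a ⊆ U) {c κ : ℝ} (hc : 0 < c) (hκ : 0 ≤ κ)
    (hsum : c ≤ ∑ a ∈ X, ∏ e ∈ seed a, w e)
    (hbad : ∀ a ∈ X, Pr U w (fun ω => seed a ⊆ ω ∧ ¬ good a ω) ≤ (∏ e ∈ seed a, w e) * κ) :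
    Pr U w (fun ω => ∀ a ∈ X, ¬ good a ω) ≤ 1 / c + (c + 1) * κ := by
  set η : α → ℝ := fun a => ∏ e ∈ seed a, w e with hη
  have η0 : ∀ a, 0 ≤ η a := fun a => prod_nonneg fun e _ => (hw e).1
  have η1 : ∀ a, η a ≤ 1 := fun a => prod_le_one (fun e _ => (hw e).1) fun e _ => (hw e).2
  obtain ⟨X', hX', s1, s2⟩ := exists_subfamily η hc.le X (fun a _ => η1 a) hsum
  refine (Pr_le_add hw (B := fun ω => ∀ a ∈ X', ¬ seed a ⊆ ω)
    (C := fun ω => ∃ a ∈ X', seed a ⊆ ω ∧ ¬ good a ω) ?_).trans (add_le_add ?_ ?_)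
  · intro ω _ h
    by_cases h' : ∀ a ∈ X', ¬ seed a ⊆ ω
    · exact Or.inl h'
    · push Not at h'
      obtain ⟨a, ha, h'⟩ := h'
      exact Or.inr ⟨a, ha, h', h a (hX' ha)⟩
  · have e1 : Pr U w (fun ω => ∀ a ∈ X', ¬ seed a ⊆ ω) = ∏ a ∈ X', (1 - η a) := by
      have := Ex_prod_indep (U := U) (w := w) X' seed (hd.subset (by exact_mod_cast hX'))
        (fun y ω => ind (¬ seed y ⊆ ω))
      simp only [subset_inter_iff, Subset.refl, and_true] at this
      unfold Pr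
      rw [Ex_congr fun ω _ => ind_forall X' _, this]
      refine prod_congr rfl fun a ha => ?_
      have := Pr_not (U := U) (w := w) (fun ω => seed a ⊆ ω)
      rw [Pr_all_open (hU a (hX' ha))] at this
      exact this
    rw [e1, le_div_iff₀ hc]
    have h1 := prod_one_sub_le η X' (fun a _ => η0 a) (fun a _ => η1 a)
    have hp : 0 ≤ ∏ a ∈ X', (1 - η a) := prod_nonneg fun x _ => sub_nonneg.2 (η1 x)
    nlinarith
  · refine (Pr_exists_le hw X' _).trans ?_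
    refine (sum_le_sum fun a ha => hbad a (hX' ha)).trans ?_
    rw [← sum_mul]
    exact mul_le_mul_of_nonneg_right s2 hκ

end General

variable {d : ℕ}

lemma card_box (v : Zd d) (n : ℕ) : (box v n).card = (2 * n + 1) ^ d := by
  unfold box
  rw [Pi.card_Icc]
  simp only [Pi.sub_apply, Pi.add_apply, Int.card_Icc]
  rw [prod_congr rfl (g := fun _ => 2 * n + 1) fun i _ => by omega]
  simp

lemma card_edgesIn_le (D : Finset (Zd d)) : (edgesIn D).card ≤ D.card ^ 2 := by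
  refine (card_filter_le _ _).trans ?_
  rw [sym2_eq_image, sq, ← card_product]
  exact card_image_le

lemma thick_mono (B : Finset (Zd d)) {j j' : ℕ} (h : j ≤ j') : thick B j ⊆ thick B j' := by
  intro x hx
  obtain ⟨b, hb, h1⟩ := mem_thick.1 hx
  exact mem_thick.2 ⟨b, hb, fun i => (h1 i).trans (by exact_mod_cast h)⟩

lemma subset_thick (B : Finset (Zd d)) (j : ℕ) : B ⊆ thick B j := fun x hx =>
  mem_thick.2 ⟨x, hx, fun i => by simp⟩

lemma mem_thick_succ {B : Finset (Zd d)} {j : ℕ} {a a' : Zd d} (h : a' ∈ thick B j)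
    (hl : IsLat s(a, a')) : a ∈ thick B (j + 1) := by
  obtain ⟨b, hb, h1⟩ := mem_thick.1 h
  refine mem_thick.2 ⟨b, hb, fun i => ?_⟩
  have a1 := abs_le.1 (h1 i)
  have a2 := abs_le.1 (hl.abs_le i)
  rw [abs_le]; push_cast; constructor <;> omega

lemma exists_center {B : Finset (Zd d)} {j m : ℕ} (hm : m ≤ j) {a : Zd d} (h : a ∈ thick B j) :
    ∃ v ∈ thick B j, a ∈ box v m ∧ box v m ⊆ thick B j := by
  obtain ⟨b, hb, h1⟩ := mem_thick.1 h
  have hm' : (m : ℤ) ≤ j := by exact_mod_cast hm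
  refine ⟨fun i => max (b i - (j - m)) (min (a i) (b i + (j - m))),
    mem_thick.2 ⟨b, hb, fun i => ?_⟩, mem_box.2 fun i => ?_, fun x hx => ?_⟩
  · rw [abs_le]; constructor <;> omega
  · have := abs_le.1 (h1 i)
    rw [abs_le]; constructor <;> omega
  · refine mem_thick.2 ⟨b, hb, fun i => ?_⟩
    have := abs_le.1 (mem_box.1 hx i)
    rw [abs_le]; constructor <;> omega

open Classical in
/-- edges of `U` touching `Q` -/
def Sig (U : Finset (Sym2 (Zd d))) (Q : Finset (Zd d)) : Finset (Sym2 (Zd d)) :=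
  U.filter fun e => ∃ x ∈ Q, x ∈ e

lemma mem_Sig {U : Finset (Sym2 (Zd d))} {Q : Finset (Zd d)} {e : Sym2 (Zd d)} :
    e ∈ Sig U Q ↔ e ∈ U ∧ ∃ x ∈ Q, x ∈ e := by
  classical
  simp only [Sig, mem_filter]

open Classical in
/-- outer boundary points of `thick B j` reached from `o` -/
def Xs (B : Finset (Zd d)) (j : ℕ) (o : Zd d) (ζ : Finset (Sym2 (Zd d))) : Finset (Zd d) :=
  (thick B (j + 1)).filter fun a => Conn ζ o a ∧ ∃ a' ∈ thick B j, IsLat s(a, a')

lemma mem_Xs {B : Finset (Zd d)} {j : ℕ} {o a : Zd d} {ζ : Finset (Sym2 (Zd d))} :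
    a ∈ Xs B j o ζ ↔ a ∈ thick B (j + 1) ∧ Conn ζ o a ∧ ∃ a' ∈ thick B j, IsLat s(a, a') := by
  classical
  simp only [Xs, mem_filter]

lemma exit_Xs {U ω : Finset (Sym2 (Zd d))} (hU : ∀ e ∈ U, IsLat e) (hω : ω ⊆ U)
    {B : Finset (Zd d)} {j : ℕ} {o b : Zd d} (ho : o ∉ thick B j) (hb : b ∈ thick B j)
    (hc : Conn ω o b) :
    ∃ a ∈ Xs B j o (ω \ Sig U (thick B j)), ∃ a' ∈ thick B j, s(a, a') ∈ ω := by
  rcases Conn.exit (ω' := ω \ Sig U (thick B j)) (D := {x | x ∉ thick B j}) (by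
    intro x y hx hy hxy
    refine mem_sdiff.2 ⟨hxy, fun h => ?_⟩
    obtain ⟨-, z, hz, hze⟩ := mem_Sig.1 h
    rcases Sym2.mem_iff.1 hze with rfl | rfl
    · exact hx hz
    · exact hy hz) ho hc with ⟨h1, -⟩ | ⟨a, a', -, h2, h3, h4⟩
  · exact absurd hb h1
  · have h2' : a' ∈ thick B j := not_not.1 h2
    have hl := hU _ (hω h3)
    exact ⟨a, mem_Xs.2 ⟨mem_thick_succ h2' hl, h4, a', h2', hl⟩, a', h2', h3⟩

lemma w_Sig {U : Finset (Sym2 (Zd d))} (hU : ∀ e ∈ U, IsLat e) {B : Finset (Zd d)} {j : ℕ}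
    {e : Sym2 (Zd d)} (he : e ∈ Sig U (thick B j)) : e ∈ edgesIn (thick B (j + 1)) := by
  obtain ⟨h1, x, hx, hxe⟩ := mem_Sig.1 he
  obtain ⟨y, rfl⟩ := Sym2.mem_iff_exists.1 hxe
  have hl := hU _ h1
  refine mk_mem_edgesIn.2 ⟨thick_mono B (Nat.le_succ j) hx, mem_thick_succ hx ?_, hl⟩
  rwa [Sym2.eq_swap]

lemma level_bound {U : Finset (Sym2 (Zd d))} {w : Sym2 (Zd d) → ℝ} (hw : Valid w)
    (hU : ∀ e ∈ U, IsLat e) {B : Finset (Zd d)} {j : ℕ} {o : Zd d} (ho : o ∉ thick B j)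
    {p0 : ℝ} (hp0 : 0 ≤ p0) (hp1 : p0 ≤ 1) (hwp : ∀ e ∈ Sig U (thick B j), p0 ≤ 1 - w e) (N : ℕ) :
    p0 ^ (3 ^ d * N) * Pr U w (fun ω => (Xs B j o (ω \ Sig U (thick B j))).Nonempty ∧
      (Xs B j o (ω \ Sig U (thick B j))).card ≤ N) ≤
    Pr U w (fun ω => (∃ b ∈ thick B (j + 1), Conn ω o b) ∧ ¬ ∃ b ∈ thick B j, Conn ω o b) := by
  classical
  set S := Sig U (thick B j) with hS
  let Z : Finset (Zd d) → Finset (Sym2 (Zd d)) := fun X => S.filter fun e => ∃ a ∈ X, a ∈ e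
  have hZ : ∀ X, (Z X).card ≤ 3 ^ d * X.card := by
    intro X
    have h1 : Z X ⊆ X.biUnion fun a => (box a 1).image fun y => s(a, y) := by
      intro e he
      obtain ⟨h1, a, ha, hae⟩ := mem_filter.1 he
      obtain ⟨y, rfl⟩ := Sym2.mem_iff_exists.1 hae
      refine mem_biUnion.2 ⟨a, ha, mem_image.2 ⟨y, mem_box.2 fun i => ?_, rfl⟩⟩
      have := (hU _ (mem_Sig.1 h1).1).abs_le i
      rw [abs_sub_comm]; exact_mod_cast this
    refine (card_le_card h1).trans (card_biUnion_le.trans ?_)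
    rw [mul_comm, ← smul_eq_mul, ← sum_const]
    exact sum_le_sum fun a _ => card_image_le.trans (by rw [card_box])
  have e1 := Ex_two (U := U) (w := w) S (fun a b =>
    ind ((Xs B j o b).Nonempty ∧ (Xs B j o b).card ≤ N) * ind (Disjoint a (Z (Xs B j o b))))
  refine le_trans ?_ (le_trans e1.ge ?_)
  · unfold Pr
    rw [← Ex_const_mul]
    refine Ex_mono hw fun b _ => ?_
    rw [Ex_const_mul, mul_comm]
    by_cases hb : (Xs B j o (b \ S)).Nonempty ∧ (Xs B j o (b \ S)).card ≤ N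
    · refine mul_le_mul_of_nonneg_left ?_ (ind_nonneg _)
      have hsub : Z (Xs B j o (b \ S)) ⊆ S := filter_subset _ _
      have h2 : Ex U w (fun a => ind (Disjoint (a ∩ S) (Z (Xs B j o (b \ S))))) =
          Pr U w (fun a => Disjoint a (Z (Xs B j o (b \ S)))) := by
        refine Ex_congr fun a _ => ind_congr ?_
        beta_reduce
        rw [disjoint_iff_inter_eq_empty, disjoint_iff_inter_eq_empty, inter_assoc,
          inter_eq_right.2 hsub]
      rw [h2, Pr_all_closed (hsub.trans fun e he => (mem_Sig.1 he).1)]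
      calc p0 ^ (3 ^ d * N) ≤ p0 ^ (Z (Xs B j o (b \ S))).card :=
            pow_le_pow_of_le_one hp0 hp1 ((hZ _).trans (Nat.mul_le_mul_left _ hb.2))
        _ = ∏ e ∈ Z (Xs B j o (b \ S)), p0 := by simp
        _ ≤ _ := prod_le_prod (fun _ _ => hp0) fun e he => hwp e (hsub he)
    · simp [ind_neg hb]
  · refine Ex_mono hw fun ω hω => ?_
    rw [← ind_and]
    refine ind_mono ?_
    rintro ⟨⟨⟨a, ha⟩, -⟩, hdis⟩
    refine ⟨⟨a, (mem_Xs.1 ha).1, (mem_Xs.1 ha).2.1.mono sdiff_subset⟩, ?_⟩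
    rintro ⟨b, hb, hc⟩
    obtain ⟨x, hx, x', hx', hxx⟩ := exit_Xs hU hω ho hb hc
    have h1 : s(x, x') ∈ S := mem_Sig.2 ⟨hω hxx, x', hx', by simp⟩
    exact disjoint_left.1 hdis (mem_inter.2 ⟨hxx, h1⟩) (mem_filter.2 ⟨h1, x, hx, by simp⟩)

lemma telescope {U : Finset (Sym2 (Zd d))} {w : Sym2 (Zd d) → ℝ}
    (B : Finset (Zd d)) (o : Zd d) (m K : ℕ) :
    ∑ k ∈ range K, Pr U w (fun ω => (∃ b ∈ thick B (m + k + 1), Conn ω o b) ∧
      ¬ ∃ b ∈ thick B (m + k), Conn ω o b) =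
    Pr U w (fun ω => ∃ b ∈ thick B (m + K), Conn ω o b) -
      Pr U w (fun ω => ∃ b ∈ thick B m, Conn ω o b) := by
  induction K with
  | zero => simp
  | succ K ih =>
    rw [sum_range_succ, ih]
    have h1 := Pr_and_add_and_not (U := U) (w := w)
      (fun ω => ∃ b ∈ thick B (m + K + 1), Conn ω o b) (fun ω => ∃ b ∈ thick B (m + K), Conn ω o b)
    have h2 : Pr U w (fun ω => (∃ b ∈ thick B (m + K + 1), Conn ω o b) ∧
        ∃ b ∈ thick B (m + K), Conn ω o b) =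
        Pr U w (fun ω => ∃ b ∈ thick B (m + K), Conn ω o b) :=
      Pr_congr fun ω _ => ⟨fun h => h.2, fun ⟨b, hb, hc⟩ =>
        ⟨⟨b, thick_mono B (Nat.le_succ _) hb, hc⟩, b, hb, hc⟩⟩
    rw [← add_assoc]
    linarith

lemma exists_seed {U : Finset (Sym2 (Zd d))} {w : Sym2 (Zd d) → ℝ} (hw : Valid w)
    {B : Finset (Zd d)} {j m : ℕ} (hm : m ≤ j) {T : Set (Zd d)} {δ : ℝ}
    (hin : ∀ e ∈ edgesIn (thick B (j + 1)), e ∈ U)
    (hT : ∀ v ∈ thick B j, Pr U w (fun ω => ¬ ∃ a ∈ box v m, ∃ b ∈ T, Conn ω a b) ≤ δ)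
    (a : Zd d) (ha : ∃ a' ∈ thick B j, IsLat s(a, a')) :
    ∃ S ⊆ Sig U (thick B j), S.card ≤ (2 * m + 1) ^ (d * 2) + 1 ∧
      (∀ e ∈ S, ∃ x ∈ e, x ∈ box a (2 * m + 1)) ∧ (∀ e ∈ S, ∀ x ∈ e, x ∈ box a (2 * m + 1)) ∧
      Pr U w (fun ω => S ⊆ ω ∧ ¬ ∃ b ∈ T, Conn ω a b) ≤ (∏ e ∈ S, w e) * δ := by
  classical
  obtain ⟨a', ha', hl⟩ := ha
  obtain ⟨v, hv, hav, hbox⟩ := exists_center hm ha'
  have hsub : insert s(a, a') (edgesIn (box v m)) ⊆ Sig U (thick B j) := by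
    intro e he
    rcases mem_insert.1 he with rfl | he
    · exact mem_Sig.2 ⟨hin _ (mk_mem_edgesIn.2 ⟨mem_thick_succ ha' hl,
        thick_mono B (Nat.le_succ j) ha', hl⟩), a', ha', by simp⟩
    · refine mem_Sig.2 ⟨hin _ (edgesIn_mono (hbox.trans (thick_mono B (Nat.le_succ j))) he), ?_⟩
      induction e using Sym2.ind with
      | _ x y => exact ⟨x, hbox (mk_mem_edgesIn.1 he).1, by simp⟩
  have hall : ∀ e ∈ insert s(a, a') (edgesIn (box v m)), ∀ x ∈ e, x ∈ box a (2 * m + 1) := by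
    intro e he x hx
    refine mem_box.2 fun i => ?_
    have a2 := abs_le.1 (hl.abs_le i)
    rcases mem_insert.1 he with rfl | he
    · rcases Sym2.mem_iff.1 hx with rfl | rfl
      · simp only [sub_self, abs_zero]; positivity
      · rw [abs_le]; push_cast; constructor <;> omega
    · have a3 := abs_le.1 (mem_box.1 ((mem_edgesIn.1 he).1 x hx) i)
      have a4 := abs_le.1 (mem_box.1 hav i)
      rw [abs_le]; push_cast; constructor <;> omega
  refine ⟨insert s(a, a') (edgesIn (box v m)), hsub, ?_, ?_, hall, ?_⟩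
  · refine (card_insert_le _ _).trans (Nat.add_le_add_right ((card_edgesIn_le _).trans ?_) 1)
    rw [card_box, ← pow_mul]
  · intro e he
    induction e using Sym2.ind with
    | _ x y => exact ⟨x, by simp, hall _ he x (by simp)⟩
  · set S := insert s(a, a') (edgesIn (box v m)) with hS
    have hSU : S ⊆ U := hsub.trans fun e he => (mem_Sig.1 he).1
    have h1 := harris_mono_anti (U := U) hw (f := fun ω => ind (S ⊆ ω))
      (g := fun ω => ind (¬ ∃ a ∈ box v m, ∃ b ∈ T, Conn ω a b))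
      (fun x y h => ind_mono fun h' => h'.trans h)
      (fun x y h => ind_mono fun h' ⟨a, ha, b, hb, hc⟩ => h' ⟨a, ha, b, hb, hc.mono h⟩)
    have h2 := Pr_all_open (w := w) hSU
    unfold Pr at h2
    rw [h2] at h1
    refine le_trans (Ex_mono hw fun ω _ => ?_) (h1.trans (mul_le_mul_of_nonneg_left (hT v hv)
      (prod_nonneg fun e _ => (hw e).1)))
    rw [← ind_and]
    refine ind_mono fun ⟨h3, h4⟩ => ⟨h3, ?_⟩
    rintro ⟨x, hx, b, hb, hc⟩
    have h5 : edgesIn (box v m) ⊆ ω := (subset_insert _ _).trans h3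
    exact h4 ⟨b, hb, (((Conn.of_mem (h3 (mem_insert_self _ _))).trans
      (conn_box h5 hav).symm).trans (conn_box h5 hx)).trans hc⟩

lemma exists_separated (X : Finset (Zd d)) (r N : ℕ) (h : (2 * r + 1) ^ d * N < X.card) :
    ∃ Y ⊆ X, N < Y.card ∧ ∀ x ∈ Y, ∀ y ∈ Y, x ≠ y → ∀ z ∈ box x r, z ∉ box y r := by
  classical
  obtain ⟨c, -, hc⟩ := exists_lt_card_fiber_of_mul_lt_card_of_maps_to (s := X)
    (t := (univ : Finset (Fin d → ZMod (2 * r + 1)))) (f := fun x i => (x i : ZMod (2 * r + 1)))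
    (n := N) (fun _ _ => mem_univ _) (by simpa using h)
  refine ⟨_, filter_subset _ _, hc, fun x hx y hy hxy z hz hz' => hxy (funext fun i => ?_)⟩
  have h1 := congrFun ((mem_filter.1 hx).2.trans (mem_filter.1 hy).2.symm) i
  rw [ZMod.intCast_eq_intCast_iff_dvd_sub] at h1
  have h2 := abs_le.1 (mem_box.1 hz i)
  have h3 := abs_le.1 (mem_box.1 hz' i)
  have h4 := Int.eq_zero_of_abs_lt_dvd h1 (by rw [abs_lt]; push_cast; constructor <;> omega)
  omega

end TargetAux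

open TargetAux in
theorem target (d : ℕ) (p0 γ : ℝ) (hp0 : 0 < p0) (hγ : 0 < γ) :
    ∃ δ > 0, ∀ m : ℕ, ∃ J : ℕ, ∀ p : ℝ, p0 ≤ p → p ≤ 1 - p0 → TargetProp d p γ δ m J := by
  classical
  set c : ℝ := 4 / γ with hc
  have hc0 : 0 < c := by positivity
  refine ⟨γ ^ 2 / (16 * (c + 1)), by positivity, fun m => ?_⟩
  set δ : ℝ := γ ^ 2 / (16 * (c + 1)) with hδ
  set s : ℕ := (2 * m + 1) ^ (d * 2) + 1 with hs
  obtain ⟨N, hN⟩ := exists_nat_ge (c / p0 ^ s)
  set N' : ℕ := (2 * (2 * m + 1) + 1) ^ d * N with hN'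
  obtain ⟨K, hK⟩ := exists_nat_gt (c / p0 ^ (3 ^ d * N'))
  refine ⟨m + K, fun p hp hp' U w B T o hw hU hfresh ho hT => ?_⟩
  have hp1 : p0 ≤ 1 := by linarith
  have hfr : ∀ k < K, ∀ e ∈ edgesIn (thick B (m + k + 1)), e ∈ U ∧ w e = p := fun k hk e he =>
    hfresh e (edgesIn_mono (thick_mono B (by omega)) he)
  have hok : ∀ k < K, o ∉ thick B (m + k) := fun k hk h => ho (thick_mono B (by omega) h)
  obtain ⟨k, hk, hlev⟩ : ∃ k < K, Pr U w (fun ω =>
      (Xs B (m + k) o (ω \ Sig U (thick B (m + k)))).Nonempty ∧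
      (Xs B (m + k) o (ω \ Sig U (thick B (m + k)))).card ≤ N') ≤ γ / 4 := by
    by_contra hcon
    push Not at hcon
    have h1 := telescope (U := U) (w := w) B o m K
    have h2 : ∑ _k ∈ range K, p0 ^ (3 ^ d * N') * (γ / 4) ≤ _ := sum_le_sum fun k hk =>
      (mul_le_mul_of_nonneg_left (hcon k (mem_range.1 hk)).le (by positivity)).trans
        (level_bound hw hU (hok k (mem_range.1 hk)) hp0.le hp1 (fun e he => by
          rw [(hfr k (mem_range.1 hk) e (w_Sig hU he)).2]; linarith) N')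
    rw [h1, sum_const, card_range, nsmul_eq_mul] at h2
    have h3 := Pr_le_one (U := U) hw (fun ω => ∃ b ∈ thick B (m + K), Conn ω o b)
    have h4 := Pr_nonneg (U := U) hw (fun ω => ∃ b ∈ thick B m, Conn ω o b)
    rw [div_lt_iff₀ (by positivity), hc, div_lt_iff₀ hγ] at hK
    nlinarith
  set j := m + k with hj
  set S := Sig U (thick B j) with hS
  have hseed := exists_seed (U := U) hw (B := B) (j := j) (m := m) (by omega) (T := T) (δ := δ)
    (fun e he => (hfr k hk e he).1) (fun v hv => hT v (thick_mono B (by omega) hv))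
  choose! seed sd1 sd2 sd3 sd4 sd5 using hseed
  let good : Zd d → Finset (Sym2 (Zd d)) → Prop := fun a ξ =>
    Pr U (cond w S ξ) (fun ω => ¬ ∃ b ∈ T, Conn ω a b) ≤ γ / 4
  have good_inter : ∀ a ξ, good a (ξ ∩ S) ↔ good a ξ := fun a ξ => by simp only [good, cond_inter]
  have hbad : ∀ a, (∃ a' ∈ thick B j, IsLat s(a, a')) →
      Pr U w (fun ω => seed a ⊆ ω ∧ ¬ good a ω) ≤ (∏ e ∈ seed a, w e) * (δ * c) := by
    intro a ha
    have h1 := Ex_cond' (U := U) (w := w) S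
      (fun x ω => ind (seed a ⊆ x) * ind (¬ ∃ b ∈ T, Conn ω a b))
    have hsS : seed a ⊆ S := sd1 a ha
    simp only [subset_inter_iff, hsS, and_true, Ex_const_mul] at h1
    have h2 : γ / 4 * Pr U w (fun ω => seed a ⊆ ω ∧ ¬ good a ω) ≤ (∏ e ∈ seed a, w e) * δ := by
      refine le_trans ?_ (sd5 a ha)
      unfold Pr
      rw [← Ex_const_mul, Ex_congr fun ω _ => ind_and (seed a ⊆ ω) _, h1]
      refine Ex_mono hw fun ξ _ => ?_
      rw [ind_and, mul_left_comm]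
      refine mul_le_mul_of_nonneg_left ?_ (ind_nonneg _)
      by_cases hg : good a ξ
      · rw [ind_neg (not_not.2 hg), mul_zero]; exact Pr_nonneg (hw.cond _ _) _
      · rw [ind_pos hg, mul_one]; exact (not_le.1 hg).le
    rw [← mul_assoc, hc, mul_div_assoc', le_div_iff₀ hγ]
    linarith
  have hmany : ∀ X : Finset (Zd d), (∀ a ∈ X, ∃ a' ∈ thick B j, IsLat s(a, a')) → N' < X.card →
      Pr U w (fun ω => ∀ a ∈ X, ¬ good a ω) ≤ γ / 2 := by
    intro X hX hcard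
    obtain ⟨Y, hYX, hY, hsep⟩ := exists_separated X (2 * m + 1) N hcard
    refine (Pr_mono hw (B := fun ω => ∀ a ∈ Y, ¬ good a ω) fun ω _ h a ha => h a (hYX ha)).trans ?_
    refine (seeds_bound hw seed good Y ?_ (fun a ha => (sd1 a (hX a (hYX ha))).trans
      fun e he => (mem_Sig.1 he).1) hc0 (κ := δ * c) (by positivity) ?_
      (fun a ha => hbad a (hX a (hYX ha)))).trans (le_of_eq ?_)
    · intro x hx y hy hxy
      rw [Function.onFun, disjoint_left]
      intro e h1 h2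
      obtain ⟨z, hz, hz'⟩ := sd3 x (hX x (hYX hx)) e h1
      exact hsep x hx y hy hxy z hz' (sd4 y (hX y (hYX hy)) e h2 z hz)
    · have h1 : ∑ _a ∈ Y, p0 ^ s ≤ ∑ a ∈ Y, ∏ e ∈ seed a, w e := by
        refine sum_le_sum fun a ha => ?_
        have ha' := hX a (hYX ha)
        calc p0 ^ s ≤ p0 ^ (seed a).card := pow_le_pow_of_le_one hp0.le hp1 (sd2 a ha')
          _ = ∏ e ∈ seed a, p0 := by simp
          _ ≤ _ := prod_le_prod (fun _ _ => hp0.le) fun e he => by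
            rw [(hfr k hk e (w_Sig hU (sd1 a ha' he))).2]; exact hp
      rw [sum_const, nsmul_eq_mul] at h1
      rw [div_le_iff₀ (by positivity)] at hN
      have h2 : (N : ℝ) ≤ Y.card := by exact_mod_cast hY.le
      have h3 : (0 : ℝ) < p0 ^ s := by positivity
      nlinarith
    · rw [hδ, hc]; field_simp; ring
  have hB : Pr U w (fun ω => N' < (Xs B j o (ω \ S)).card ∧
      ∀ a ∈ Xs B j o (ω \ S), ¬ good a ω) ≤ γ / 2 := by
    have h1 := Ex_two (U := U) (w := w) S (fun a b =>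
      ind (N' < (Xs B j o b).card ∧ ∀ x ∈ Xs B j o b, ¬ good x a))
    simp only [good_inter] at h1
    unfold Pr
    rw [h1, ← Ex_const (U := U) (w := w) (γ / 2)]
    refine Ex_mono hw fun b _ => ?_
    exact PeierlsAux.Pr_const_and _ _ (by positivity) fun h =>
      hmany _ (fun a ha => (mem_Xs.1 ha).2.2) h
  have hC : Pr U w (fun ω => (∃ a, (a ∈ thick B (j + 1) ∧ good a ω) ∧ Conn ω o a) ∧
      ¬ ∃ b ∈ T, Conn ω o b) ≤ γ / 4 := by
    have h1 := Ex_cond' (U := U) (w := w) S (fun x ω =>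
      ind ((∃ a, (a ∈ thick B (j + 1) ∧ good a x) ∧ Conn ω o a) ∧ ¬ ∃ b ∈ T, Conn ω o b))
    simp only [good_inter] at h1
    unfold Pr
    rw [h1, ← Ex_const (U := U) (w := w) (γ / 4)]
    refine Ex_mono hw fun ξ _ => ?_
    have h2 := gluing U _ (hw.cond S ξ) o ((thick B (j + 1)).filter fun a => good a ξ) T (γ / 4)
      (by positivity) fun a ha => (mem_filter.1 ha).2
    simp only [mem_filter] at h2
    exact h2
  refine le_trans (Pr_le_add hw ?_) (le_trans (add_le_add (le_trans (Pr_or_le hw _ _)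
    (add_le_add hlev hB)) hC) (le_of_eq (by ring)))
  rintro ω hω ⟨⟨b, hb, hc⟩, hn⟩
  obtain ⟨a, ha, -⟩ := exit_Xs hU hω (hok k hk) (subset_thick B _ hb) hc
  by_cases h1 : (Xs B j o (ω \ S)).card ≤ N'
  · exact Or.inl (Or.inl ⟨⟨a, ha⟩, h1⟩)
  by_cases h2 : ∀ a ∈ Xs B j o (ω \ S), ¬ good a ω
  · exact Or.inl (Or.inr ⟨not_le.1 h1, h2⟩)
  push Not at h2
  obtain ⟨x, hx, hg⟩ := h2
  exact Or.inr ⟨⟨x, ⟨(mem_Xs.1 hx).1, hg⟩, (mem_Xs.1 hx).2.1.mono sdiff_subset⟩, hn⟩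

end

end Vale.Agent.P151
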